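import Vale.Agent.P218H.SpecS
import Vale.Agent.P218.H63.Geom

/-!
# P218, block LIN: the tube, the stability operator and the barrier
-/

open scoped NNReal Topology ContDiff RealInnerProductSpace
open Filter Set Metric MeasureTheory
open Vale.Agent.P218.H63

noncomputable section

namespace Vale.Agent.P218H

namespace Geo

variable {n : ℕ} {S : Set (En n)} {w f : En n → ℝ} {δ C : ℝ} {p x : En n}

theorem sum_ee (v : En n) : ∑ i, v i • ee i = v := by
  ext j
  simp [ee, Finset.sum_apply, Pi.single_apply]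

theorem lin_ee {V : Type} [NormedAddCommGroup V] [NormedSpace ℝ V] (l : En n →L[ℝ] V) (v : En n) :
    ∑ i, v i • l (ee i) = l v := by
  conv_rhs => rw [← sum_ee v]
  simp only [map_sum, map_smul]

theorem quad (B : En n →L[ℝ] En n →L[ℝ] ℝ) (g : En n) :
    ∑ i, ∑ j, ((if i = j then 1 else 0) - g i * g j) * B (ee i) (ee j) =
      ∑ i, B (ee i) (ee i) - B g g := by
  rw [← lin_ee B g]
  simp [sub_mul, ← lin_ee (B _) g, Finset.mul_sum, mul_assoc]

theorem quadP (B : En n →L[ℝ] En n →L[ℝ] ℝ) {g : En n} (h : ‖g‖ = 1) :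
    ∑ i, B (ee i - g i • g) (ee i - g i • g) = ∑ i, B (ee i) (ee i) - B g g := by
  have h1 := lin_ee (B g) g
  have h2 := lin_ee (B.flip g) g
  have h3 := EuclideanSpace.real_norm_sq_eq g
  simp only [ContinuousLinearMap.flip_apply, smul_eq_mul, h, pow_two] at h1 h2 h3
  simp only [map_sub, map_smul, sub_apply, smul_apply, smul_eq_mul, Finset.sum_sub_distrib, mul_sub,
    h1, h2, ← mul_assoc, ← Finset.sum_mul, ← h3]
  ring

theorem hess_eq (f : En n → ℝ) (x a b : En n) :
    ⟪fderiv ℝ (gradient f) x a, b⟫ = fderiv ℝ (fderiv ℝ f) x a b := by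
  rw [gradient_eq_comp]
  erw [(InnerProductSpace.toDual ℝ (En n)).symm.toContinuousLinearEquiv.comp_fderiv]
  exact InnerProductSpace.toDual_symm_apply

theorem trace_eq (M : En n →L[ℝ] En n) :
    LinearMap.trace ℝ (En n) M.toLinearMap = ∑ i, ⟪M (ee i), ee i⟫ := by
  rw [LinearMap.trace_eq_sum_inner _ (EuclideanSpace.basisFun (Fin n) ℝ)]
  simp only [EuclideanSpace.basisFun_apply, real_inner_comm (M.toLinearMap _)]
  rfl

theorem stab_eq (w f : En n → ℝ) (x : En n) : stab w f x =
    ∑ i, fderiv ℝ (fderiv ℝ f) x (ee i) (ee i) -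
      fderiv ℝ (fderiv ℝ f) x (gradient w x) (gradient w x) - fderiv ℝ f x x / 2 +
      (hessSq w x + 1 / 2) * f x := by
  rw [stab, hess_eq]
  simp only [lap, trace_eq, hess_eq, inner_gradient']

theorem op_eq (hf : ContDiffAt ℝ 2 f x) : op (sa w) f x = stab w f x := by
  simp only [op, Fintype.sum_option, sa, dd_dd hf, smul_eq_mul, quad, stab_eq, zero_mul, zero_add]
  simp only [dd, ← lin_ee (fderiv ℝ f x) x, smul_eq_mul, Finset.sum_div, sub_eq_add_neg,
    ← Finset.sum_neg_distrib, neg_div, neg_mul, div_mul_eq_mul_div]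
  ring

theorem sm_hessSq (hw : ContDiff ℝ ∞ w) : ContDiff ℝ ∞ (hessSq w) := by
  have h : ContDiff ℝ ∞ (fderiv ℝ (gradient w)) :=
    (contDiff_gradient hw (n := ∞) le_rfl).fderiv_right le_rfl
  unfold hessSq
  simp only [trace_eq]
  exact ContDiff.sum fun i _ => ((h.clm_comp h).clm_apply contDiff_const).inner ℝ contDiff_const

theorem mem_tube (h : IsTubeShrinker S w δ C) (hp : p ∈ S) : |w p| < δ := by
  rw [(h.mem_iff p).1 hp, abs_zero]
  exact h.pos

/-- the rays which start on the surface -/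
theorem ray (h : IsTubeShrinker S w δ C) (hp : p ∈ S) {t : ℝ} (ht : |t| < δ) :
    gradient w (p + t • gradient w p) = gradient w p ∧ w (p + t • gradient w p) = t := by
  have n1 := h.norm_grad p (mem_tube h hp)
  have w0 := (h.mem_iff p).1 hp
  generalize he : gradient w p = e at n1
  have hc : ∀ s : ℝ, HasDerivAt (fun s : ℝ => p + s • t • e) (t • e) s := fun s => by
    simpa using ((hasDerivAt_id s).smul_const (t • e)).const_add p
  have h1 := fun s => (h.smooth.differentiable (by simp) _).hasFDerivAt.comp_hasDerivAt s (hc s)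
  have h2 := fun s => (((contDiff_gradient h.smooth (n := 1) (by norm_num)).differentiable
    one_ne_zero _).hasFDerivAt.comp_hasDerivAt s (hc s)).sub_const e
  obtain ⟨κ, k1, k2⟩ := exists_between ht
  have k0 := (abs_nonneg t).trans_lt k1
  have k3 : ∀ s ∈ Icc (0 : ℝ) 1, κ * s < δ := fun s m => by nlinarith [m.2]
  have h3 : ∀ s ∈ Icc (0 : ℝ) 1, |w (p + s • t • e)| < δ := fun s m =>
    (image_norm_le_of_norm_deriv_right_lt_deriv_boundary (fun s _ => (h1 s).continuousAt.continuousWithinAt)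
      (fun s _ => (h1 s).hasDerivWithinAt) (B := fun s => κ * s) (by simp [w0])
      (fun s => (hasDerivAt_id' s).const_mul κ) (fun s m z => by
        refine (ContinuousLinearMap.le_opNorm _ _).trans_lt ?_
        rwa [← norm_gradient, h.norm_grad _ (z.trans_lt (k3 s (Ico_subset_Icc_self m))), norm_smul, n1,
          one_mul, mul_one, mul_one]) m).trans_lt (k3 s m)
  have h4 : ∀ s ∈ Icc (0 : ℝ) 1, gradient w (p + s • t • e) = e := fun s m => by
    have := norm_le_gronwallBound_of_norm_deriv_right_le (δ := 0) (K := |t| * C) (ε := 0)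
      (fun s _ => (h2 s).continuousAt.continuousWithinAt) (fun s _ => (h2 s).hasDerivWithinAt)
      (by simp [he]) (fun s m => by
        have z := h3 s (Ico_subset_Icc_self m)
        rw [map_smul, norm_smul, ← norm_neg (fderiv ℝ _ _ _), ← zero_sub, ← h.hess_grad z, ← map_sub,
          add_zero, mul_assoc]
        exact mul_le_mul_of_nonneg_left (ContinuousLinearMap.le_of_opNorm_le _ (h.hess_le _ z) _)
          (abs_nonneg t)) s m
    rwa [gronwallBound_ε0_δ0, norm_le_zero_iff, sub_eq_zero] at this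
  refine ⟨by simpa using h4 1 (by simp), ?_⟩
  simpa using eq_of_has_deriv_right_eq (f' := fun _ => t) (g := fun s => t * s) (a := 0) (b := 1)
    (fun s m => by
      have := (h1 s).hasDerivWithinAt (s := Ici s)
      rwa [← inner_gradient, h4 s (Ico_subset_Icc_self m), real_inner_smul_right,
        real_inner_self_eq_norm_sq, n1, one_pow, mul_one] at this)
    (fun s _ => by simpa using ((hasDerivAt_id' s).const_mul t).hasDerivWithinAt)
    (fun s _ => (h1 s).continuousAt.continuousWithinAt) (by fun_prop) (by simp [w0]) 1 (by simp)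

theorem foot (h : IsTubeShrinker S w δ C) (hx : |w x| < δ) :
    gradient w (prw w x) = gradient w x ∧ w (prw w x) = 0 := by
  rcases le_total 0 (w x) with k | k
  · simpa [prw] using h.ray_pos k (lt_of_abs_lt hx) _ ⟨k, le_rfl⟩
  · simpa [prw, gradient_neg'] using
      h.neg.ray_pos (x := x) (neg_nonneg.2 k) (neg_lt_of_abs_lt hx |> neg_lt.1) _ ⟨neg_nonneg.2 k, le_rfl⟩

theorem tube (h : IsTubeShrinker S w δ C) (hw : ContDiff ℝ ∞ w) :
    Tube S (prw w) (gradient w) w δ :=
  have hg := contDiff_gradient hw (n := ∞) le_rfl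
  ⟨h.pos, contDiff_id.sub (hw.smul hg), hg, hw, h.mem_iff,
    fun x hx => ⟨(h.mem_iff _).2 (foot h hx).2, by rw [(foot h hx).1, prw, sub_add_cancel]⟩,
    fun p hp t ht => ⟨by rw [prw, (ray h hp ht).1, (ray h hp ht).2, add_sub_cancel_right],
      (ray h hp ht).2⟩⟩

theorem fderiv_prw (h : IsTubeShrinker S w δ C) (hp : p ∈ S) (v : En n) :
    fderiv ℝ (prw w) p v = v - ⟪gradient w p, v⟫ • gradient w p := by
  have := (hasFDerivAt_id p).sub ((h.smooth.differentiable (by simp) p).hasFDerivAt.smul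
    ((contDiff_gradient h.smooth (n := 1) (by norm_num)).differentiable one_ne_zero p).hasFDerivAt)
  erw [this.fderiv]
  simp [(h.mem_iff p).1 hp]

theorem prw_ee (h : IsTubeShrinker S w δ C) (hp : p ∈ S) (i : Fin n) :
    fderiv ℝ (prw w) p (ee i) = ee i - gradient w p i • gradient w p := by
  rw [fderiv_prw h hp, ee, EuclideanSpace.inner_single_right]
  simp

theorem comp_zero (h : IsTubeShrinker S w δ C) (hw : ContDiff ℝ ∞ w) (hp : p ∈ S)
    (hf : ContDiffAt ℝ 2 f p) (z : ∀ᶠ y in 𝓝[S] p, f y = 0) :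
    ∀ᶠ y in 𝓝 p, (fderiv ℝ f (prw w y)).comp (fderiv ℝ (prw w) y) = 0 := by
  have T := tube h hw
  have t1 : Tendsto (prw w) (𝓝 p) (𝓝 p) := T.spr.continuous.tendsto' _ _ (T.pr_self hp)
  have t2 : Tendsto (prw w) (𝓝 p) (𝓝[S] p) := tendsto_nhdsWithin_iff.2 ⟨t1,
    eventually_of_mem (h.isOpen_tube.mem_nhds (mem_tube h hp)) fun y k => (T.foot y k).1⟩
  filter_upwards [(t2.eventually z).eventually_nhds, t1.eventually (ev_diff hf)] with y k1 k2
  exact (k2.hasFDerivAt.comp y (T.spr.differentiable (by simp) y).hasFDerivAt).unique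
    ((hasFDerivAt_const 0 y).congr_of_eventuallyEq k1)

theorem int0 (h : IsTubeShrinker S w δ C) (hw : ContDiff ℝ ∞ w) (hp : p ∈ S)
    (hf : ContDiffAt ℝ 2 f p) (z : ∀ᶠ y in 𝓝[S] p, f y = 0) (d : fderiv ℝ f p = 0) :
    stab w f p = 0 := by
  have T := tube h hw
  have k1 : HasFDerivAt (fderiv ℝ f) (fderiv ℝ (fderiv ℝ f) p) (prw w p) := by
    rw [T.pr_self hp]
    exact ((hf.fderiv_right (m := 1) le_rfl).differentiableAt one_ne_zero).hasFDerivAt
  have k2 := ((k1.comp p (T.spr.differentiable (by simp) p).hasFDerivAt).clm_comp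
    ((T.spr.fderiv_right (m := ∞) le_rfl).differentiable (by simp) p).hasFDerivAt).unique
    ((hasFDerivAt_const 0 p).congr_of_eventuallyEq (comp_zero h hw hp hf z))
  rw [stab_eq, ← quadP _ (h.norm_grad p (mem_tube h hp)), d, z.self_of_nhdsWithin hp,
    Finset.sum_eq_zero fun i _ => ?_]
  · simp
  simpa [T.pr_self hp, d, prw_ee h hp] using
    DFunLike.congr_fun (DFunLike.congr_fun k2 (ee i)) (ee i)

theorem ell (h : IsTubeShrinker S w δ C) (hw : ContDiff ℝ ∞ w) : Ell S (prw w) (sa w) := by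
  have hg := fun i => (EuclideanSpace.proj (𝕜 := ℝ) i).contDiff.comp (contDiff_gradient hw (n := ∞) le_rfl)
  have sy : ∀ p ∈ S, ∀ ξ, sym (sa w) p ξ = ∑ i, (ξ.comp (fderiv ℝ (prw w) p)) (ee i) ^ 2 :=
    fun p hp ξ => ((quad (ξ.smulRight ξ) _).trans
      (quadP _ (h.norm_grad p (mem_tube h hp))).symm).trans (by simp [prw_ee h hp, pow_two])
  refine ⟨?_, fun p hp f hf z => ?_, fun p hp ξ => by rw [sy p hp]; positivity, fun p hp ξ k => ?_⟩
  · rintro (_ | i) (_ | j)
    exacts [(sm_hessSq hw).add contDiff_const,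
      (EuclideanSpace.proj (𝕜 := ℝ) j).contDiff.neg.div_const 2, contDiff_const,
      contDiff_const.sub ((hg i).mul (hg j))]
  · have w2 : ContDiffAt ℝ 2 w p := h.smooth.contDiffAt.of_le (by norm_num)
    have w0 : stab w w p = 0 := by
      rw [stab, h.shrinker p hp, h.hess_grad (mem_tube h hp), (h.mem_iff p).1 hp]
      simp
    have k := (comp_zero h hw hp hf z).self_of_nhds
    rw [(tube h hw).pr_self hp] at k
    have l2 := (ContinuousLinearMap.mul ℝ ℝ (fderiv ℝ f p (gradient w p))).contDiff.contDiffAt.comp p w2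
    have := int0 h hw hp (hf.sub l2) (by
      filter_upwards [z, self_mem_nhdsWithin] with y k1 k2
      simp [k1, (h.mem_iff y).1 k2]) (by
      ext v
      have := DFunLike.congr_fun k v
      rw [fderiv_fun_sub (hf.differentiableAt two_ne_zero) (l2.differentiableAt two_ne_zero),
        fderiv_comp _ (ContinuousLinearMap.differentiableAt _) (w2.differentiableAt two_ne_zero)]
      simpa [fderiv_prw h hp, inner_gradient, mul_comm] using this)
    rw [← op_eq (hf.sub l2), op_sub hf l2] at this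
    erw [op_clm _ w2] at this
    rwa [op_eq w2, w0, map_zero, sub_zero] at this
  · rw [sy p hp]
    refine lt_of_le_of_ne (by positivity) fun e => k (ContinuousLinearMap.ext fun v => ?_)
    rw [← lin_ee]
    exact Finset.sum_eq_zero fun i m => by
      rw [pow_eq_zero_iff two_ne_zero |>.1
        ((Finset.sum_eq_zero_iff_of_nonneg fun _ _ => sq_nonneg _).1 e.symm i m), smul_zero]

theorem hess_bd (h : IsTubeShrinker S w δ C) (hp : p ∈ S) : |hessSq w p| ≤ n * C ^ 2 := by
  have := h.hess_le p (mem_tube h hp)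
  refine (abs_trace_le _).trans ?_
  rw [finrank_euclideanSpace_fin, pow_two]
  exact mul_le_mul_of_nonneg_left ((ContinuousLinearMap.opNorm_comp_le _ _).trans
    (mul_self_le_mul_self (norm_nonneg _) this)) n.cast_nonneg

/-- the barrier -/
def bar (x : En n) : ℝ := Real.exp (‖x‖ ^ 2 / 8)

theorem d_bar (x : En n) : HasFDerivAt bar ((bar x / 4) • innerSL ℝ x) x := by
  refine (((hasStrictFDerivAt_norm_sq x).hasFDerivAt.mul_const (8⁻¹ : ℝ)).exp).congr_fderiv ?_
  ext v
  simp [bar, div_eq_mul_inv]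
  ring

theorem dd_bar (x u v : En n) :
    fderiv ℝ (fderiv ℝ bar) x u v = bar x * (⟪x, u⟫ * ⟪x, v⟫ / 16 + ⟪u, v⟫ / 4) := by
  rw [funext fun x => (d_bar x).fderiv]
  erw [(((d_bar x).mul_const (4⁻¹ : ℝ)).smul (innerSL ℝ).hasFDerivAt).fderiv]
  show bar x * 4⁻¹ * ⟪u, v⟫ + 4⁻¹ * (bar x / 4 * ⟪x, u⟫) * ⟪x, v⟫ = _
  ring

theorem stab_bar {K : ℝ} (hK : |hessSq w x| ≤ K) (hx : 16 * (n / 4 + K + 3 / 2) ≤ ‖x‖ ^ 2) :
    1 ≤ bar x ∧ stab w bar x ≤ -1 := by
  have h1 : 1 ≤ bar x := Real.one_le_exp (by positivity)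
  have h2 : ∑ i, bar x * (⟪x, ee i⟫ * ⟪x, ee i⟫ / 16 + ⟪ee i, (ee i : En n)⟫ / 4) =
      bar x * (‖x‖ ^ 2 / 16 + n / 4) := by
    simp [← Finset.mul_sum, Finset.sum_add_distrib, ← Finset.sum_div, ee, ← pow_two,
      EuclideanSpace.real_norm_sq_eq, EuclideanSpace.inner_single_right, div_eq_mul_inv (n : ℝ)]
  refine ⟨h1, ?_⟩
  simp only [stab_eq, dd_bar, h2]
  simp only [(d_bar x).fderiv, smul_apply, innerSL_apply_apply, smul_eq_mul,
    real_inner_self_eq_norm_sq]
  nlinarith [mul_nonneg (zero_le_one.trans h1) (mul_self_nonneg ⟪x, gradient w x⟫),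
    mul_nonneg (zero_le_one.trans h1) (sq_nonneg ‖gradient w x‖), le_abs_self (hessSq w x)]

theorem ker (h : 0 < δ) : ∃ et eh, Ker δ et eh := by
  let a : ContDiffBump (0 : ℝ) := ⟨δ / 8, δ / 4, by positivity, by linarith⟩
  let b : ContDiffBump (0 : ℝ) := ⟨δ / 4, δ / 2, by positivity, by linarith⟩
  exact ⟨a.normed volume, b, a.contDiff_normed, b.contDiff,
    fun t k => by rw [a.normed_def, a.zero_of_le_dist (by simpa using k), zero_div], a.integral_normed,
    fun t k => b.one_of_mem_closedBall (by simpa using k),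
    fun t k => b.zero_of_le_dist (by simpa using k), fun t => abs_le.2 ⟨by linarith [b.nonneg (x := t)],
      b.le_one⟩⟩

end Geo

open Geo in
theorem geos : GEOS := fun n S w δ C h hw =>
  ⟨tube h hw, ell h hw, fun _ _ => op_eq, ⟨√(16 * (n / 4 + n * C ^ 2 + 3 / 2)), bar,
    ((contDiff_norm_sq ℝ).div_const 8).exp, fun p hp k => by
      rw [op_eq (f := bar) ((contDiff_norm_sq ℝ).div_const 8).exp.contDiffAt]
      exact stab_bar (hess_bd h hp) ((Real.sqrt_le_left (norm_nonneg p)).1 k)⟩,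
    ⟨_, fun _ => hess_bd h⟩, ker h.pos⟩

end Vale.Agent.P218H
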