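import Vale.Agent.P218H.All
import Vale.Agent.P218T.Rn

/-!
# P218, block LIN: the gluing system for fixed spaces with weighted seminorms; conjugation
-/

open scoped NNReal Topology ContDiff ComplexConjugate
open Filter Set Metric MeasureTheory
open Vale.Agent.P218T (Eqv Rn)
open Vale.Agent.P272.K.LIN (Hol)

noncomputable section

namespace Vale.Agent.P218H

variable {n k : ℕ} {M : Type} [Fintype M] {α β : ℝ}

section tri
variable {A B C : Type} [NormedAddCommGroup A] [NormedSpace ℂ A] [NormedAddCommGroup B]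
  [NormedSpace ℂ B] [NormedAddCommGroup C] [NormedSpace ℂ C]

/-- the norm of a triple, with a seminorm in the middle -/
def tri (p : Seminorm ℂ B) : Seminorm ℂ (A × B × C) :=
  (normSeminorm ℂ A).comp (.fst ℂ _ _) ⊔ (p.comp (.fst ℂ _ _ ∘ₗ .snd ℂ _ _) ⊔
    (normSeminorm ℂ C).comp (.snd ℂ _ _ ∘ₗ .snd ℂ _ _))

theorem tri_apply (p : Seminorm ℂ B) (x : A × B × C) :
    tri p x = max ‖x.1‖ (max (p x.2.1) ‖x.2.2‖) := rfl

theorem tri_le_iff {p : Seminorm ℂ B} {x : A × B × C} {r : ℝ} :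
    tri p x ≤ r ↔ ‖x.1‖ ≤ r ∧ p x.2.1 ≤ r ∧ ‖x.2.2‖ ≤ r := by
  simp only [tri_apply, max_le_iff]

theorem le_tri (p : Seminorm ℂ B) (x : A × B × C) :
    ‖x.1‖ ≤ tri p x ∧ p x.2.1 ≤ tri p x ∧ ‖x.2.2‖ ≤ tri p x := tri_le_iff.1 le_rfl

/-- comparison of two such seminorms -/
theorem tri_le {p p' : Seminorm ℂ B} {K : ℝ} (hK : 1 ≤ K) (h : ∀ y, p y ≤ K * p' y)
    (x : A × B × C) : tri p x ≤ K * tri (A := A) (C := C) p' x := by
  obtain ⟨h1, h2, h3⟩ := le_tri p' x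
  have h0 := le_mul_of_one_le_left (apply_nonneg (tri (A := A) (C := C) p') x) hK
  exact tri_le_iff.2 ⟨h1.trans h0, (h _).trans (mul_le_mul_of_nonneg_left h2 (by linarith)),
    h3.trans h0⟩

theorem tri_norm (x : A × B × C) : tri (normSeminorm ℂ B) x = ‖x‖ := rfl

end tri

namespace EndD

variable (D : EndD n M β) (c : Core n k M)

/-- the hypotheses on the end data, for seminorms `p`, `q` equivalent to the norms -/
structure OkN (p : Seminorm ℂ D.X) (q : Seminorm ℂ D.Y) (C δ R : ℝ) : Prop where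
  ex : Eqv p
  ey : Eqv q
  surj : Function.Surjective D.T
  apr : ∀ v, p v ≤ C * q (D.T v)
  reg : ∀ v, ∀ y ∈ c.Se \ c.B, ‖y‖ < R → ContDiffAt ℝ 2 (D.ev v) y
  cont : ∀ v, ContinuousOn (D.ev v) (c.Se ∩ ball 0 R)
  jet : ∀ v, ∀ y ∈ c.S, c.r₀ - 1 ≤ ‖y‖ → ‖y‖ < R → ∀ i j,
    ‖dd i (dd j (D.ev v)) y‖ ≤ C * (1 + ‖y‖) ^ c.N * p v
  eqn : ∀ v, ∀ y ∈ c.Se \ c.B, ‖y‖ < R → ‖D.ev' (D.T v) y - op c.a (D.ev v) y‖ ≤ δ * p v
  dat : ∀ g, ∀ y ∈ c.Se \ c.B, ‖y‖ < R → ‖D.ev' g y‖ ≤ C * (1 + ‖y‖) ^ c.N * q g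
  injb : ∀ f, q (D.inj f) ≤ C * ‖f‖
  injv : ∀ f, (∀ x ∈ c.S, c.r + 3 ≤ ‖x‖ → f1 f x = 0) → ∀ y ∈ c.Se \ c.B, ‖y‖ < R →
    D.ev' (D.inj f) y = f1 f y
  gamb : ∀ v, ‖D.γ v‖ ≤ C * p v
  gamv : ∀ v, ∀ y ∈ c.B, ‖D.ev v y‖ ≤ C * ‖D.γ v‖
  ind : ∀ η, 0 < η → c.mo η < R → δ * c.mo η ≤ 1 → ∀ v f (m : M → ℂ) (U : ℝ),
    (∀ x ∈ c.S, c.r + 3 ≤ ‖x‖ → f1 f x = 0) → 0 ≤ U →
    (∀ y ∈ c.S, c.r + 3 ≤ ‖y‖ → ‖y‖ ≤ c.mo η → ‖D.ev v y + ∑ i, m i * c.Y i y‖ ≤ U) →
    ‖m‖ ≤ η * p v + c.mo η * (q (D.T v + D.inj f) + U)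

/-- the end data with the new norms -/
def rn {p : Seminorm ℂ D.X} {q : Seminorm ℂ D.Y} (hp : Eqv p) (hq : Eqv q) : EndD n M β where
  X := Rn p hp
  Y := Rn q hq
  T := (Rn.mk hq : D.Y →L[ℂ] Rn q hq) ∘L D.T ∘L ((Rn.mk hp).symm : Rn p hp →L[ℂ] D.X)
  ev := D.ev ∘ₗ ((Rn.mk hp).symm : Rn p hp →L[ℂ] D.X)
  ev' := D.ev' ∘ₗ ((Rn.mk hq).symm : Rn q hq →L[ℂ] D.Y)
  γ := D.γ ∘L ((Rn.mk hp).symm : Rn p hp →L[ℂ] D.X)
  inj := (Rn.mk hq : D.Y →L[ℂ] Rn q hq) ∘L D.inj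

variable {D c}

theorem OkN.ok {p : Seminorm ℂ D.X} {q : Seminorm ℂ D.Y} {C δ R : ℝ} (h : D.OkN c p q C δ R) :
    (D.rn h.ex h.ey).Ok c C δ R :=
  ⟨h.surj, h.apr, h.reg, h.cont, h.jet, h.eqn, h.dat, h.injb, h.injv, h.gamb, h.gamv, h.ind⟩

variable {b : J1 n → J1 n → En n → ℝ} {s : ℝ} {cC : C2a n α →L[ℂ] C1a n β}

/-- the system determines the operator -/
theorem Sys.unique {TT TT' : D.XX α k →L[ℂ] D.YY α k} (h : D.Sys c b s cC TT)
    (h' : D.Sys c b s cC TT') : TT = TT' :=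
  ContinuousLinearMap.ext fun x => Prod.ext (Hol.ext fun y => (h.core x y).trans (h'.core x y).symm)
    (Prod.ext ((h.ends x).trans (h'.ends x).symm) (Prod.ext ((h.gam x).trans (h'.gam x).symm)
      (funext fun i => (h.con x i).trans (h'.con x i).symm)))

end EndD

/-- **the theorem of the block, for weighted seminorms** -/
theorem linN (c : Core n k M) (hc : c.Ok) (C : ℝ) (h0 : 0 < β) (h1 : β < α) (h2 : α < 1) :
    ∃ (b : J1 n → J1 n → En n → ℝ) (s : ℝ) (cC : C2a n α →L[ℂ] C1a n β) (C' δ R₀ : ℝ),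
      c.AmbOf b ∧ 0 < δ ∧ c.r + 8 ≤ R₀ ∧ ∀ R, R₀ ≤ R → ∀ (D : EndD n M β) (p : Seminorm ℂ D.X)
        (q : Seminorm ℂ D.Y), D.OkN c p q C δ R → ∃ TT : D.XX α k ≃L[ℂ] D.YY α k,
          D.Sys c b s cC TT ∧ ∀ y, tri p (TT.symm y) ≤ C' * tri q y := by
  obtain ⟨b, s, cC, C', δ, R₀, hb, hδ, hR, h⟩ := lin' n k M c hc α β C h0 h1 h2
  refine ⟨b, s, cC, C', δ, R₀, hb, hδ, hR, fun R hR D p q hD => ?_⟩
  obtain ⟨TT, hS, hT⟩ := h R hR _ hD.ok
  let eX : D.XX α k ≃L[ℂ] (D.rn hD.ex hD.ey).XX α k :=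
    (ContinuousLinearEquiv.refl ℂ _).prodCongr ((Rn.mk hD.ex).prodCongr (.refl ℂ _))
  let eY : D.YY α k ≃L[ℂ] (D.rn hD.ex hD.ey).YY α k :=
    (ContinuousLinearEquiv.refl ℂ _).prodCongr ((Rn.mk hD.ey).prodCongr (.refl ℂ _))
  exact ⟨(eX.trans TT).trans eY.symm, ⟨hS.com, fun x => hS.core (eX x), fun x => hS.ends (eX x),
    fun x => hS.gam (eX x), fun x => hS.con (eX x)⟩, fun y => hT (eY y)⟩

/-- both pairs of seminorms at once -/
theorem linN2 (c : Core n k M) (hc : c.Ok) (C : ℝ) (h0 : 0 < β) (h1 : β < α) (h2 : α < 1) :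
    ∃ (b : J1 n → J1 n → En n → ℝ) (s : ℝ) (cC : C2a n α →L[ℂ] C1a n β) (C' δ R₀ : ℝ),
      c.AmbOf b ∧ 0 < δ ∧ c.r + 8 ≤ R₀ ∧ ∀ R, R₀ ≤ R → ∀ (D : EndD n M β) (p p' : Seminorm ℂ D.X)
        (q q' : Seminorm ℂ D.Y), D.OkN c p q C δ R → D.OkN c p' q' C δ R →
        ∃ TT : D.XX α k ≃L[ℂ] D.YY α k, D.Sys c b s cC TT ∧
          (∀ y, tri p (TT.symm y) ≤ C' * tri q y) ∧ ∀ y, tri p' (TT.symm y) ≤ C' * tri q' y := by
  obtain ⟨b, s, cC, C', δ, R₀, hb, hδ, hR, h⟩ := linN c hc C h0 h1 h2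
  refine ⟨b, s, cC, C', δ, R₀, hb, hδ, hR, fun R hR D p p' q q' hD hD' => ?_⟩
  obtain ⟨TT, hS, hT⟩ := h R hR D p q hD
  obtain ⟨TT', hS', hT'⟩ := h R hR D p' q' hD'
  obtain rfl : TT = TT' := ContinuousLinearEquiv.coe_injective (hS.unique hS')
  exact ⟨TT, hS, hT, hT'⟩

/-! ### conjugation -/

section cj
variable {Y : Type} [PseudoMetricSpace Y]

theorem HM.conj {f : Y → ℂ} {A B : ℝ} (h : HM α f A B) : HM α (fun x => conj (f x)) A B :=
  ⟨fun x => by simpa using h.sup x, fun x y => by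
    rw [← map_sub, Complex.norm_conj]
    exact h.hol x y⟩

instance : Star (HH α Y) := ⟨fun F => mkH (fun x => conj (F x)) ⟨_, _, (hm_hol F).conj⟩⟩

@[simp] theorem starH_apply (F : HH α Y) (x : Y) : star F x = conj (F x) := rfl

theorem norm_starH (F : HH α Y) : ‖star F‖ = ‖F‖ := by
  have h : ∀ F : HH α Y, ‖star F‖ ≤ ‖F‖ := fun F =>
    Hol.norm_le_of F.N0_nonneg F.N1_nonneg (fun x => by simpa using F.le_N0 x) fun x y => by
      rw [starH_apply, starH_apply, ← map_sub, Complex.norm_conj]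
      exact F.le_N1 x y
  refine le_antisymm (h F) ((congrArg norm ?_).trans_le (h (star F)))
  exact Hol.ext fun x => by simp

theorem dd_conj (i : J1 n) (f : En n → ℂ) :
    dd i (fun x => conj (f x)) = fun x => conj (dd i f x) := by
  cases i with
  | none => rfl
  | some i =>
    funext x
    exact congrArg (fun L : En n →L[ℝ] ℂ => L (ee i))
      (Complex.conjCLE.comp_fderiv (f := f) (x := x))

theorem op_conj (a : J1 n → J1 n → En n → ℝ) (f : En n → ℂ) (x : En n) :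
    op a (fun y => conj (f y)) x = conj (op a f x) := by
  simp [op, dd_conj]

theorem cm_conj (a : J1 n → J1 n → En n → ℝ) (χ : En n → ℝ) (f : En n → ℂ) (x : En n) :
    cm a χ (fun y => conj (f y)) x = conj (cm a χ f x) := by
  simp [cm, ← op_conj]

theorem avg_conj (η : ℝ → ℝ) (pr nu : En n → En n) (f : En n → ℂ) (x : En n) :
    avg η pr nu (fun y => conj (f y)) x = conj (avg η pr nu f x) := by
  simp [avg, ← integral_conj]

omit [Fintype M] in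
theorem wf_conj (c : Core n k M) (η : ℝ → ℝ) (f : En n → ℂ) :
    c.wf η (fun y => conj (f y)) = fun x => conj (c.wf η f x) := by
  funext x
  simp [Core.wf, avg_conj]

omit [Fintype M] in
theorem ext_conj (c : Core n k M) (f : En n → ℂ) (x : En n) :
    c.ext (fun y => conj (f y)) x = conj (c.ext f x) := by
  simp [Core.ext]

omit [Fintype M] in
theorem lo_conj (c : Core n k M) (f : En n → ℂ) (x : En n) :
    c.lo (fun y => conj (f y)) x = conj (c.lo f x) := by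
  simp [Core.lo]

instance : Star (C1a n α) := ⟨fun F => ⟨fun i => star (F.1 i),
  Complex.conjCLE.contDiff.comp F.2.1, fun i => by
    refine Eq.trans ?_ (dd_conj i (F.1 none)).symm
    rw [← F.2.2 i]
    rfl⟩⟩

instance : Star (C2a n α) := ⟨fun F => ⟨fun i j => star (F.1 i j),
  Complex.conjCLE.contDiff.comp F.2.1, fun i j => by
    refine Eq.trans ?_ (congrArg (dd i) (dd_conj j (F.1 none none))).symm
    rw [dd_conj, ← F.2.2 i j]
    rfl⟩⟩

theorem f1_star (F : C1a n α) : f1 (star F) = fun x => conj (f1 F x) := rfl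

theorem f2_star (F : C2a n α) : f2 (star F) = fun x => conj (f2 F x) := rfl

theorem norm_star1 (F : C1a n α) : ‖star F‖ = ‖F‖ := by
  show ‖fun i => star (F.1 i)‖ = ‖F.1‖
  simp only [Pi.norm_def]
  exact congrArg _ (Finset.sup_congr rfl fun i _ => NNReal.eq (norm_starH _))

theorem norm_star2 (F : C2a n α) : ‖star F‖ = ‖F‖ := by
  show ‖fun i j => star (F.1 i j)‖ = ‖F.1‖
  simp only [Pi.norm_def, Pi.nnnorm_def]
  exact congrArg _ (Finset.sup_congr rfl fun i _ => Finset.sup_congr rfl fun j _ =>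
    NNReal.eq (norm_starH _))

theorem star_star2 (F : C2a n α) : star (star F) = F := f2_ext (funext fun _ => Complex.conj_conj _)

end cj

namespace EndD

variable {D D' : EndD n M β} {c : Core n k M} {b : J1 n → J1 n → En n → ℝ} {s : ℝ}
  {cC : C2a n α →L[ℂ] C1a n β}

theorem Sys.cC_star {TT : D.XX α k →L[ℂ] D.YY α k} (h : D.Sys c b s cC TT) (v : C2a n α) :
    cC (star v) = star (cC v) :=
  f1_ext (by
    rw [f1_star, h.com, h.com, f2_star, wf_conj]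
    exact funext (cm_conj _ _ _))

/-- the end data `D'` are conjugate to the end data `D` -/
structure Cj (D D' : EndD n M β) (cX : D.X → D'.X) (cY : D.Y → D'.Y) : Prop where
  add : ∀ g g', cY (g + g') = cY g + cY g'
  T : ∀ v, D'.T (cX v) = cY (D.T v)
  ev : ∀ v, D'.ev (cX v) = fun y => conj (D.ev v y)
  γ : ∀ v, D'.γ (cX v) = star (D.γ v)
  inj : ∀ f, D'.inj (star f) = cY (D.inj f)

/-- **the system commutes with the conjugation** -/
theorem Sys.conj {TT : D.XX α k →L[ℂ] D.YY α k} {TT' : D'.XX α k →L[ℂ] D'.YY α k}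
    (h : D.Sys c b s cC TT) (h' : D'.Sys c b s cC TT') {cX : D.X → D'.X} {cY : D.Y → D'.Y}
    (hj : Cj D D' cX cY) (hb : ∀ i y, conj (c.b i y) = c.b i y)
    (hM : ∀ m, c.Mm (star m) = star (c.Mm m)) (x : D.XX α k) :
    TT' (star x.1, cX x.2.1, star x.2.2) =
      (star (TT x).1, cY (TT x).2.1, star (TT x).2.2) := by
  refine Prod.ext (Hol.ext fun y => ?_) (Prod.ext ?_ (Prod.ext ?_ (funext fun i => ?_)))
  · have e : D'.low c s (star x.1, cX x.2.1, star x.2.2) = fun p => conj (D.low c s x p) := by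
      funext p
      simp [low, f2_star, wf_conj, hj.ev, cm_conj, hb]
    rw [h'.core, e, ext_conj]
    simp [h.core, f2_star, op_conj]
  · rw [h'.ends]
    simp only [h.ends, hj.add, hj.T, h.cC_star, hj.inj]
  · rw [h'.gam]
    simp [h.gam, hj.γ, hM]
  · rw [h'.con]
    simp [h.con, f2_star, wf_conj, ← integral_conj]

theorem uu_conj {cX : D.X → D'.X} {cY : D.Y → D'.Y} (hj : Cj D D' cX cY) (x : D.XX α k)
    (p : En n) : D'.uu c (star x.1, cX x.2.1, star x.2.2) p = conj (D.uu c x p) := by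
  simp [uu, f2_star, wf_conj, hj.ev]

end EndD

omit [Fintype M] in
/-- the core function is constant along the rays -/
theorem avg_ray {c : Core n k M} (hc : c.Ok0) (η : ℝ → ℝ) (v : En n → ℂ) {x : En n}
    (hx : |c.ta x| < c.de) : avg η c.pr c.nu v x = avg η c.pr c.nu v (c.pr x) := by
  simp only [avg, hc.tube.pr_self (hc.tube.foot x hx).1]

end Vale.Agent.P218H
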