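import Vale.Agent.P218H.Basic
import Vale.Agent.P218.H63.Defs

/-!
# P218, block LIN: the stability operator of a self-shrinker, statements of the rows
-/

open scoped NNReal Topology ContDiff RealInnerProductSpace
open Filter Set Metric MeasureTheory
open Vale.Agent.P218.H63 (IsTubeShrinker stab hessSq gaussArea)

noncomputable section

namespace Vale.Agent.P218H

variable {n k : ℕ}

/-- the coefficients of the stability operator -/
def sa (w : En n → ℝ) : J1 n → J1 n → En n → ℝ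
  | some i, some j => fun x => (if i = j then 1 else 0) - gradient w x i * gradient w x j
  | none, some j => fun x => -(x j) / 2
  | some _, none => fun _ => 0
  | none, none => fun x => hessSq w x + 1 / 2

/-- the nearest point projection -/
def prw (w : En n → ℝ) (x : En n) : En n := x - w x • gradient w x

/-- the tangential gradient -/
def tg (w f : En n → ℝ) (x : En n) : En n :=
  gradient f x - ⟪gradient f x, gradient w x⟫ • gradient w x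

/-- the second variation -/
def QQ (w : En n → ℝ) (ν : Measure (En n)) (f : En n → ℝ) : ℝ :=
  ∫ x, (‖tg w f x‖ ^ 2 - (hessSq w x + 1 / 2) * f x ^ 2) ∂ν

/-- what is used of the Gaussian area: finiteness and Green's formula -/
structure MS (S : Set (En n)) (w : En n → ℝ) (ν : Measure (En n)) : Prop where
  fin : IsFiniteMeasureOnCompacts ν
  supp : ν Sᶜ = 0
  pos : ∀ p ∈ S, ∀ ρ, 0 < ρ → 0 < ν (ball p ρ)
  mom : ∀ N : ℕ, Integrable (fun x => (1 + ‖x‖) ^ N) ν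
  green : ∀ f g : En n → ℝ, ContDiff ℝ 1 f → HasCompactSupport f → ContDiff ℝ 2 g →
    ∫ x, f x * stab w g x ∂ν =
      ∫ x, (-⟪tg w f x, tg w g x⟫ + (hessSq w x + 1 / 2) * (f x * g x)) ∂ν

/-- Rellich's theorem for the Gaussian area -/
def Rel (w : En n → ℝ) (ν : Measure (En n)) : Prop :=
  ∀ (ι : Type) (U : Ultrafilter ι) (v : ι → En n → ℝ) (C : ℝ),
    (∀ i, ContDiff ℝ 1 (v i) ∧ HasCompactSupport (v i)) →
    (∀ i, ∫ x, (v i x ^ 2 + ‖tg w (v i) x‖ ^ 2) ∂ν ≤ C) →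
    (∀ ζ : En n → ℝ, ContDiff ℝ ∞ ζ → HasCompactSupport ζ →
      Tendsto (fun i => ∫ x, v i x * ζ x ∂ν) U (𝓝 0)) →
    Tendsto (fun i => ∫ x, v i x ^ 2 ∂ν) U (𝓝 0)

/-- finitely many constraints make the second variation coercive -/
structure Coer (w : En n → ℝ) (ν : Measure (En n)) (ψ : Fin k → En n → ℝ) : Prop where
  sm : ∀ i, ContDiff ℝ ∞ (ψ i) ∧ HasCompactSupport (ψ i)
  dual : ∃ v : Fin k → En n → ℝ, (∀ i, ContDiff ℝ ∞ (v i) ∧ HasCompactSupport (v i) ∧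
    tsupport (v i) ⊆ ⋃ j, tsupport (ψ j)) ∧
    ∀ i j, ∫ x, v i x * ψ j x ∂ν = if i = j then 1 else 0
  co : ∃ C : ℝ, 0 ≤ C ∧ ∀ f : En n → ℝ, ContDiff ℝ 1 f → HasCompactSupport f →
    ∫ x, f x ^ 2 ∂ν ≤ QQ w ν f + C * ∑ i, (∫ x, f x * ψ i x ∂ν) ^ 2

/-- the tube, the operator, the barrier -/
def GEOS : Prop := ∀ (n : ℕ) (S : Set (En n)) (w : En n → ℝ) (δ C : ℝ), IsTubeShrinker S w δ C →
  ContDiff ℝ ∞ w → Tube S (prw w) (gradient w) w δ ∧ Ell S (prw w) (sa w) ∧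
    (∀ (f : En n → ℝ) x, ContDiffAt ℝ 2 f x → op (sa w) f x = stab w f x) ∧
    (∃ (ρ : ℝ) (φ : En n → ℝ), ContDiff ℝ 2 φ ∧
      ∀ p ∈ S, ρ ≤ ‖p‖ → 1 ≤ φ p ∧ op (sa w) φ p ≤ -1) ∧
    (∃ K, ∀ p ∈ S, |hessSq w p| ≤ K) ∧ ∃ et eh, Ker δ et eh

/-- Green's formula -/
def MS1 : Prop := ∀ (S : Set (En 3)) (w : En 3 → ℝ) (δ C : ℝ), IsTubeShrinker S w δ C →
  ContDiff ℝ ∞ w → MS S w (gaussArea 2 S)

/-- compactness -/
def MS2 : Prop := ∀ (S : Set (En 3)) (w : En 3 → ℝ) (δ C : ℝ), IsTubeShrinker S w δ C →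
  ContDiff ℝ ∞ w → Rel w (gaussArea 2 S)

/-- coercivity -/
def CO : Prop := ∀ (n : ℕ) (S : Set (En n)) (w : En n → ℝ) (δ C : ℝ) (ν : Measure (En n)),
  IsTubeShrinker S w δ C → ContDiff ℝ ∞ w → MS S w ν → Rel w ν →
    ∃ (k : ℕ) (ψ : Fin k → En n → ℝ), Coer w ν ψ

/-- quantitative nondegeneracy -/
def NQS : Prop := ∀ (n k : ℕ) (S : Set (En n)) (w : En n → ℝ) (δ C : ℝ) (ν : Measure (En n))
  (ψ : Fin k → En n → ℝ), IsTubeShrinker S w δ C → ContDiff ℝ ∞ w → MS S w ν → Coer w ν ψ →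
    NQ S (sa w) ν ψ

/-- solvability of the constrained equation on large balls, with uniform polynomial bounds -/
def Solv (S : Set (En n)) (w : En n → ℝ) (ν : Measure (En n)) (ψ : Fin k → En n → ℝ) : Prop :=
  ∀ (f : En n → ℝ) (a : Fin k → ℝ), ContDiff ℝ ∞ f → HasCompactSupport f →
    ∃ (C : ℝ) (N : ℕ), ∀ R : ℝ, ∃ (ζ : En n → ℂ) (m : Fin k → ℂ),
      (∀ p ∈ S, ‖p‖ < R → ContDiffAt ℝ 2 ζ p ∧ (∀ i, ‖dd i ζ p‖ ≤ C * (1 + ‖p‖) ^ N) ∧
        op (sa w) ζ p = f p + ∑ i, m i * ψ i p) ∧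
      ∀ i, ∫ p, ζ p * ψ i p ∂ν = a i

/-- nondegeneracy for very weak solutions -/
def Nd (w : En n → ℝ) (ν : Measure (En n)) (ψ : Fin k → En n → ℝ) : Prop :=
  ∀ (u : En n → ℝ) (l : Fin k → ℝ), AEStronglyMeasurable u ν → Integrable (fun p => u p ^ 2) ν →
    (∀ ζ : En n → ℝ, ContDiff ℝ 2 ζ → HasCompactSupport ζ →
      ∫ p, u p * stab w ζ p ∂ν = ∫ p, (∑ i, l i * ψ i p) * ζ p ∂ν) →
    (∀ i, ∫ p, u p * ψ i p ∂ν = 0) → u =ᵐ[ν] 0 ∧ l = 0

/-- duality -/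
def ND1 : Prop := ∀ (n k : ℕ) (S : Set (En n)) (w : En n → ℝ) (δ C : ℝ) (ν : Measure (En n))
  (ψ : Fin k → En n → ℝ), IsTubeShrinker S w δ C → ContDiff ℝ ∞ w → MS S w ν →
    (∀ i, Continuous (ψ i) ∧ HasCompactSupport (ψ i)) → Solv S w ν ψ → Nd w ν ψ

end Vale.Agent.P218H
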