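import Vale.Agent.P218H.Basic
import Mathlib.Analysis.Calculus.UniformLimitsDeriv

/-!
# P218, blocks HSP and LIN: completeness and the theorem of Arzelà and Ascoli
-/

open scoped NNReal Topology ContDiff
open Filter Set Metric
open Vale.Agent.P272.K.LIN (Hol)

noncomputable section

namespace Vale.Agent.P218H

variable {n : ℕ} {α β : ℝ}

/-- the linear map with given values on the basis -/
def jet (n : ℕ) : (Fin n → ℂ) →L[ℝ] En n →L[ℝ] ℂ :=
  ∑ i, ContinuousLinearMap.smulRightL ℝ (En n) ℂ (EuclideanSpace.proj i) ∘L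
    ContinuousLinearMap.proj i

theorem jet_ee (v : Fin n → ℂ) (i : Fin n) : jet n v (ee i) = v i := by
  simp [jet, ee]

theorem jet_eq (L : En n →L[ℝ] ℂ) : jet n (fun i => L (ee i)) = L := by
  refine ContinuousLinearMap.coe_injective ((EuclideanSpace.basisFun (Fin n) ℝ).toBasis.ext
    fun i => ?_)
  simpa [ee] using jet_ee (fun i => L (ee i)) i

theorem fderiv_jet (f : En n → ℂ) : fderiv ℝ f = fun x => jet n fun i => dd (some i) f x :=
  funext fun _ => (jet_eq _).symm

theorem c1_lim {f : ℕ → En n → ℂ} {g : J1 n → En n → ℂ} (hf : ∀ k, ContDiff ℝ 1 (f k))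
    (h : ∀ i, TendstoUniformly (fun k => dd i (f k)) (g i) atTop) :
    ContDiff ℝ 1 (g none) ∧ ∀ i, g i = dd i (g none) := by
  have h1 : TendstoUniformly (fun k => fderiv ℝ (f k)) (fun x => jet n fun i => g (some i) x)
      atTop := by
    simp only [fderiv_jet]
    refine (jet n).uniformContinuous.comp_tendstoUniformly
      (F := fun k x i => dd (some i) (f k) x) (f := fun x i => g (some i) x) ?_
    rw [Metric.tendstoUniformly_iff]
    intro ε hε
    filter_upwards [eventually_all.2 fun i => Metric.tendstoUniformly_iff.1 (h (some i)) ε hε]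
      with k hk x using (dist_pi_lt_iff hε).2 fun i => hk i x
  have h2 : ∀ x, HasFDerivAt (g none) (jet n fun i => g (some i) x) x :=
    hasFDerivAt_of_tendstoUniformly h1
      (fun k x => ((hf k).differentiable one_ne_zero x).hasFDerivAt)
      (h none).tendsto_at
  have h3 : fderiv ℝ (g none) = fun x => jet n fun i => g (some i) x :=
    funext fun x => (h2 x).fderiv
  refine ⟨contDiff_one_iff_fderiv.2 ⟨fun x => (h2 x).differentiableAt, h3 ▸ h1.continuous
    (Frequently.of_forall fun k => (hf k).continuous_fderiv one_ne_zero)⟩, fun i => ?_⟩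
  cases i with
  | none => rfl
  | some i => exact funext fun x => by simp only [dd, h3, jet_ee]

theorem hol_unif {Y : Type} [PseudoMetricSpace Y] {u : ℕ → HH α Y} {F : HH α Y}
    (h : Tendsto u atTop (𝓝 F)) : TendstoUniformly (fun k => (u k : Y → ℂ)) F atTop := by
  rw [Metric.tendstoUniformly_iff]
  intro ε hε
  filter_upwards [Metric.tendsto_nhds.1 h ε hε] with k hk x
  rw [dist_eq_norm] at hk
  rw [dist_comm, dist_eq_norm]
  exact ((u k - F).norm_apply_le x).trans_lt hk

theorem cmp : CMP := fun n α => by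
  refine ⟨IsSeqClosed.isClosed fun u F hu h => ?_, IsSeqClosed.isClosed fun u F hu h => ?_⟩
  · refine c1_lim (g := fun i => F i) (fun k => (hu k).1) fun i => ?_
    simpa only [← (hu _).2] using hol_unif (tendsto_pi_nhds.1 h i)
  · have h0 : ∀ i j, TendstoUniformly (fun k => dd i (dd j (u k none none : En n → ℂ))) (F i j)
        atTop := fun i j => by
      simpa only [← (hu _).2] using hol_unif (tendsto_pi_nhds.1 (tendsto_pi_nhds.1 h i) j)
    have h1 := fun j => c1_lim (g := fun i => F i j) (fun k => dd_cd (hu k).1 j) fun i => h0 i j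
    have h2 := c1_lim (g := fun j => F none j) (fun k => dd_cd (hu k).1 none) (h0 none)
    refine ⟨?_, fun i j => ((h1 j).2 i).trans (congrArg (dd i) (h2.2 j))⟩
    refine (contDiff_succ_iff_fderiv (n := 1)).2 ⟨h2.1.differentiable one_ne_zero, by simp, ?_⟩
    rw [fderiv_jet]
    exact (jet n).contDiff.comp (contDiff_pi.2 fun i => h2.2 (some i) ▸ (h1 (some i)).1)

instance : CompleteSpace (C1a n α) := (cmp n α).1.completeSpace_coe

instance : CompleteSpace (C2a n α) := (cmp n α).2.completeSpace_coe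

/-- bounded sets of `α`-Hölder functions with support in a compact set are compact -/
theorem aa_set {Y : Type} [PseudoMetricSpace Y] {K : Set Y} (hK : IsCompact K) (hβ : 0 ≤ β)
    (hα : β < α) {A : ℝ} (hA : 0 ≤ A) :
    IsCompact {F : HH β Y | (∀ y, y ∉ K → F y = 0) ∧ HM α F A A} := by
  refine isCompact_iff_ultrafilter_le_nhds.2 fun U hU => ?_
  rw [le_principal_iff] at hU
  have h0 : ∀ y, ∃ z : ℂ, Tendsto (fun F : HH β Y => F y) U (𝓝 z) := fun y => by
    obtain ⟨z, -, hz⟩ := (isCompact_closedBall (0 : ℂ) A).ultrafilter_le_nhds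
      (U.map fun F => F y) (le_principal_iff.2 (mem_map.2 (mem_of_superset hU fun F hF =>
        mem_closedBall_zero_iff.2 (hF.2.sup y))))
    exact ⟨z, hz⟩
  choose g hg using h0
  have h1 : HM α g A A := ⟨fun y => le_of_tendsto (hg y).norm (mem_of_superset hU fun F hF =>
    hF.2.sup y), fun x y => le_of_tendsto ((hg x).sub (hg y)).norm (mem_of_superset hU fun F hF =>
    hF.2.hol x y)⟩
  have h2 : ∀ y, y ∉ K → g y = 0 := fun y hy => tendsto_nhds_unique (hg y)
    (tendsto_const_nhds.congr' (mem_of_superset hU fun F hF => (hF.1 y hy).symm))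
  have small : ∀ γ ε : ℝ, 0 < γ → 0 < ε → ∃ d, 0 < d ∧ A * d ^ γ ≤ ε := fun γ ε hγ hε => by
    have e : Tendsto (fun d : ℝ => A * d ^ γ) (𝓝[>] 0) (𝓝 (A * 0 ^ γ)) :=
      ((Real.continuous_rpow_const hγ.le).tendsto 0 |>.const_mul A).mono_left nhdsWithin_le_nhds
    rw [Real.zero_rpow hγ.ne', mul_zero] at e
    exact ((eventually_mem_nhdsWithin (a := (0 : ℝ)) (s := Ioi 0)).and
      (e.eventually (Iic_mem_nhds hε))).exists
  have h3 : ∀ η, 0 < η → ∀ᶠ F : HH β Y in U, ∀ y, ‖F y - g y‖ ≤ η := fun η hη => by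
    obtain ⟨d, d0, hd⟩ := small α (η / 3) (hβ.trans_lt hα) (by positivity)
    obtain ⟨t, -, tf, ht⟩ := finite_cover_balls_of_compact hK d0
    filter_upwards [hU, (eventually_all_finite tf).2 fun z _ =>
      Metric.tendsto_nhds.1 (hg z) (η / 3) (by positivity)] with F hF hz y
    by_cases hy : y ∈ K
    · obtain ⟨z, hzt, hyz⟩ := mem_iUnion₂.1 (ht hy)
      have e : A * dist y z ^ α ≤ η / 3 := le_trans (mul_le_mul_of_nonneg_left
        (Real.rpow_le_rpow dist_nonneg (le_of_lt hyz) (hβ.trans hα.le)) hA) hd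
      have e1 := hF.2.hol y z
      have e2 := h1.hol y z
      have e3 := hz z hzt
      rw [dist_eq_norm] at e3
      have e4 := norm_sub_le (F y - F z + (F z - g z)) (g y - g z)
      rw [show F y - F z + (F z - g z) - (g y - g z) = F y - g y by ring] at e4
      linarith [norm_add_le (F y - F z) (F z - g z)]
    · rw [hF.1 y hy, h2 y hy, sub_zero, norm_zero]
      exact hη.le
  refine ⟨mkH g ⟨_, _, h1.lower hβ hα.le hA one_pos⟩, ⟨h2, h1⟩,
    tendsto_id'.1 (Metric.tendsto_nhds.2 fun ε hε => ?_)⟩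
  obtain ⟨l, l0, hl⟩ := small (α - β) (ε / 4) (sub_pos.2 hα) (by positivity)
  have p : 0 < l ^ (-β) := Real.rpow_pos_of_pos l0 _
  have η0 : 0 < ε / 4 / (1 + 2 * l ^ (-β)) := by positivity
  filter_upwards [hU, h3 _ η0] with F hF hy
  have e : HM α (fun y => F y - g y) _ (A + A) := ⟨hy, (hF.2.sub h1).hol⟩
  rw [dist_eq_norm]
  refine (norm_le_hm (e.lower hβ hα.le (by positivity) l0) η0.le (by positivity)).trans_lt ?_
  have e2 : ε / 4 / (1 + 2 * l ^ (-β)) * (1 + 2 * l ^ (-β)) = ε / 4 :=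
    div_mul_cancel₀ _ (by positivity)
  linarith

theorem aa (H : CMP) : AA := fun X _ _ α β C hβ hα => by
  have hC : ∀ x ∈ closedBall (0 : X) 1, C * ‖x‖ ≤ |C| := fun x hx =>
    (mul_le_mul_of_nonneg_right (le_abs_self C) (norm_nonneg x)).trans
      (mul_le_of_le_one_right (abs_nonneg C) (mem_closedBall_zero_iff.1 hx))
  refine ⟨fun Y _ K hK T h0 h => ⟨_, aa_set hK hβ hα (abs_nonneg C),
    mem_of_superset (closedBall_mem_nhds 0 one_pos) fun x hx =>
      ⟨h0 x, (h x).mono (hC x hx) (hC x hx)⟩⟩, fun n R T h0 h => ⟨_,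
    (H n β).1.isClosedEmbedding_subtypeVal.isCompact_preimage (isCompact_univ_pi fun _ =>
      aa_set (isCompact_closedBall (0 : En n) R) hβ hα (abs_nonneg C)),
    mem_of_superset (closedBall_mem_nhds 0 one_pos) fun x hx i _ => ⟨fun y hy => ?_, ?_⟩⟩⟩
  · have e : f1 (T x) =ᶠ[𝓝 y] 0 := mem_of_superset (isClosed_closedBall.isOpen_compl.mem_nhds hy)
      fun z hz => h0 x z (le_of_lt (not_le.1 (mt mem_closedBall_zero_iff.2 hz)))
    rw [f1_dd, (dd_ev e i).eq_of_nhds, dd_zero]
    rfl
  · rw [f1_dd]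
    exact ((h x).2 i).mono (hC x hx) (hC x hx)

end Vale.Agent.P218H
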