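import Vale.Agent.P218H.AmbA

/-!
# P218, block LIN: the ambient operator
-/

open scoped NNReal Topology ContDiff
open Filter Set Metric MeasureTheory Function

noncomputable section

namespace Vale.Agent.P218H

namespace AmbL

variable {n k : ℕ} {M : Type} (c : Core n k M)

/-- the parallel surfaces -/
def Ph (t : ℝ) (y : En n) : En n := c.pr y + t • c.nu (c.pr y)

/-- the coefficients in the tube -/
def bt (K L : J1 n) (x : En n) : ℝ :=
  cf c.a (Ph c (c.ta x)) K L (c.pr x) + nv (c.nu (c.pr x)) K * nv (c.nu (c.pr x)) L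

/-- the cut-off -/
def wc (x : En n) : ℝ := ((1 - st (c.r + 5) (c.pr x)) * c.eh (c.ta x)) ^ 2

/-- the ambient coefficients -/
def bb (K L : J1 n) (x : En n) : ℝ := wc c x * bt c K L x + (1 - wc c x) * lapc K L

variable {c}

theorem Ph_par (h : c.Ok0) : ContDiff ℝ ∞ (uncurry (Ph c)) :=
  (h.tube.spr.comp contDiff_snd).add
    (contDiff_fst.smul (h.tube.snu.comp (h.tube.spr.comp contDiff_snd)))

theorem Ph_smooth (h : c.Ok0) (t : ℝ) : ContDiff ℝ ∞ (Ph c t) :=
  (Ph_par h).comp (contDiff_const.prodMk contDiff_id)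

theorem nv_smooth {f : En n → En n} (hf : ContDiff ℝ ∞ f) (K : J1 n) :
    ContDiff ℝ ∞ fun x => nv (f x) K := by
  cases K with
  | none => exact contDiff_const
  | some l => exact (EuclideanSpace.proj l : En n →L[ℝ] ℝ).contDiff.comp hf

theorem wc_smooth (h : c.Ok0) : ContDiff ℝ ∞ (wc c) :=
  ((contDiff_const.sub ((st_smooth _).comp h.tube.spr)).mul (h.ker.seh.comp h.tube.sta)).pow 2

theorem bb_smooth (h : c.Ok0) (K L : J1 n) : ContDiff ℝ ∞ (bb c K L) := by
  have h1 := (cf_par h.ell.sm (Ph_par h) K L).comp (h.tube.sta.prodMk h.tube.spr)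
  have h2 := fun K => nv_smooth (h.tube.snu.comp h.tube.spr) K
  exact ((wc_smooth h).mul (h1.add ((h2 K).mul (h2 L)))).add
    ((contDiff_const.sub (wc_smooth h)).mul contDiff_const)

theorem wc_le (h : c.Ok0) (x : En n) : wc c x ≤ 1 := by
  have h1 : |1 - st (c.r + 5) (c.pr x)| ≤ 1 :=
    abs_le.2 ⟨by linarith [st_le_one (c := c.r + 5) (x := c.pr x)],
      by linarith [st_nonneg (c := c.r + 5) (x := c.pr x)]⟩
  rw [wc, sq_le_one_iff_abs_le_one, abs_mul]
  exact mul_le_one₀ h1 (abs_nonneg _) (h.ker.ehb _)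

theorem wc_supp (h : c.Ok0) {x : En n} (hx : wc c x ≠ 0) :
    |c.ta x| < c.de / 2 ∧ ‖c.pr x‖ < c.r + 6 := by
  constructor
  · by_contra e
    exact hx (by simp [wc, h.ker.eh0 _ (not_lt.1 e)])
  · by_contra e
    have := st_one (c := c.r + 5) (x := c.pr x) (by linarith [h.one_le, h.r_le]) (by linarith [not_lt.1 e])
    exact hx (by simp [wc, this])

theorem bb_out (h : c.Ok0) : ∃ R, ∀ x, R ≤ ‖x‖ → ∀ K L, bb c K L x = lapc K L := by
  obtain ⟨C, hC⟩ := (isCompact_closedBall (0 : En n) (c.r + 6)).exists_bound_of_continuousOn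
    h.tube.snu.continuous.continuousOn
  refine ⟨c.r + 6 + c.de * C, fun x hx K L => ?_⟩
  have h0 : wc c x = 0 := by
    by_contra e
    obtain ⟨h1, h2⟩ := wc_supp h e
    have h3 : |c.ta x| < c.de := by linarith [h.tube.pos]
    have h4 := hC (c.pr x) (mem_closedBall_zero_iff.2 h2.le)
    have h5 : ‖x‖ ≤ ‖c.pr x‖ + |c.ta x| * ‖c.nu (c.pr x)‖ := by
      conv_lhs => rw [(h.tube.foot x h3).2]
      exact (norm_add_le _ _).trans_eq (by rw [norm_smul, Real.norm_eq_abs])
    have h6 := mul_le_mul h3.le h4 (norm_nonneg _) h.tube.pos.le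
    linarith
  simp [bb, h0]

theorem sym_bb (h : c.Ok0) (x : En n) (ξ : En n →L[ℝ] ℝ) : sym (bb c) x ξ =
    wc c x * (sym c.a (c.pr x) (ξ.comp (fderiv ℝ (Ph c (c.ta x)) (c.pr x))) +
      ξ (c.nu (c.pr x)) ^ 2) + (1 - wc c x) * ∑ k, ξ (ee k) ^ 2 := by
  rw [← sym_cf c.a ((Ph_smooth h _).differentiable (by simp) _), ← sym_nv, ← sym_lap]
  simp only [sym, bb, bt, Finset.mul_sum, mul_add, ← Finset.sum_add_distrib]
  exact Finset.sum_congr rfl fun _ _ => Finset.sum_congr rfl fun _ _ => by ring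

theorem nondeg (h : c.Ok0) {x : En n} (hx : |c.ta x| < c.de) {ξ : En n →L[ℝ] ℝ}
    (h1 : ξ (c.nu (c.pr x)) = 0) (h2 : (ξ.comp (fderiv ℝ (Ph c (c.ta x)) (c.pr x))).comp
      (fderiv ℝ c.pr (c.pr x)) = 0) : ξ = 0 := by
  have dp := h.tube.spr.differentiable (by simp)
  have pp : c.pr (c.pr x) = c.pr x := h.tube.pr_self (h.tube.foot x hx).1
  have e : (fun y => Ph c (c.ta x) (c.pr (c.pr y)) + (c.ta y - c.ta x) • c.nu (c.pr y)) =ᶠ[𝓝 x]
      fun y => y := by
    filter_upwards [(isOpen_lt h.tube.sta.continuous.abs continuous_const).mem_nhds hx] with y hy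
    have p1 : c.pr (c.pr y) = c.pr y := h.tube.pr_self (h.tube.foot y hy).1
    rw [Ph, p1, p1, add_assoc, ← add_smul, add_sub_cancel]
    exact (h.tube.foot y hy).2.symm
  have d1 : HasFDerivAt (Ph c (c.ta x)) (fderiv ℝ (Ph c (c.ta x)) (c.pr x)) (c.pr (c.pr x)) := by
    rw [pp]
    exact ((Ph_smooth h _).differentiable (by simp) _).hasFDerivAt
  have d2 := d1.comp x ((dp (c.pr x)).hasFDerivAt.comp x (dp x).hasFDerivAt)
  have d3 := ((h.tube.sta.differentiable (by simp) x).hasFDerivAt.sub_const (c.ta x)).fun_smul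
    ((h.tube.snu.comp h.tube.spr).differentiable (by simp) x).hasFDerivAt
  have d4 := ((d2.fun_add d3).congr_of_eventuallyEq e.symm).unique (hasFDerivAt_id x)
  ext v
  have h3 := congrArg (fun L : En n →L[ℝ] En n => ξ (L v)) d4
  have h4 := congrArg (fun L : En n →L[ℝ] ℝ => L (fderiv ℝ c.pr x v)) h2
  simp only [ContinuousLinearMap.comp_apply, zero_apply] at h4
  simpa [h1, h4] using h3.symm

theorem bb_pos (h : c.Ok0) (x : En n) (ξ : En n →L[ℝ] ℝ) (hξ : ξ ≠ 0) : 0 < sym (bb c) x ξ := by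
  rw [sym_bb h]
  have p1 := sq_pos hξ
  by_cases h0 : wc c x = 0
  · simpa [h0] using p1
  have hx : |c.ta x| < c.de := by linarith [(wc_supp h h0).1, h.tube.pos]
  have hp := (h.tube.foot x hx).1
  have p2 : 0 < wc c x := lt_of_le_of_ne (sq_nonneg _) (Ne.symm h0)
  refine add_pos_of_pos_of_nonneg (mul_pos p2 ?_) (mul_nonneg (sub_nonneg.2 (wc_le h x)) p1.le)
  by_cases h1 : ξ (c.nu (c.pr x)) = 0
  · exact add_pos_of_pos_of_nonneg (h.ell.pos _ hp _ fun h2 => hξ (nondeg h hx h1 h2))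
      (sq_nonneg _)
  · exact add_pos_of_nonneg_of_pos (h.ell.nonneg _ hp _) (sq_pos_of_ne_zero h1)

theorem op_ray (h : c.Ok0) {v : En n → ℂ} (hv : ContDiff ℝ 2 v) {p : En n} (hp : p ∈ c.S)
    (hr : ‖p‖ ≤ c.r + 5) {t : ℝ} (ht : |t| ≤ c.de / 4) :
    op (bb c) v (p + t • c.nu p) = op c.a (fun y => v (Ph c t y)) p +
      ∑ K, ∑ L, (nv (c.nu p) K * nv (c.nu p) L) • dd K (dd L v) (p + t • c.nu p) := by
  obtain ⟨h1, h2⟩ := h.tube.ray p hp t (by linarith [h.tube.pos])
  have h3 : wc c (p + t • c.nu p) = 1 := by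
    simp [wc, h1, h2, st_zero (by linarith [h.one_le, h.r_le]) hr, h.ker.eh1 t ht]
  have h4 : Ph c t p = p + t • c.nu p := by rw [Ph, h.tube.pr_self hp]
  rw [op_comp c.a (Ph_smooth h t) hv, h4]
  simp only [op, bb, bt, h1, h2, h3, one_mul, sub_self, zero_mul, add_zero, add_smul,
    Finset.sum_add_distrib]

theorem et_supp (h : c.Ok0) : HasCompactSupport c.et :=
  HasCompactSupport.intro (isCompact_closedBall 0 (c.de / 4)) fun t ht =>
    h.ker.et0 t (by simpa using (not_le.1 (mt mem_closedBall_zero_iff.2 ht)).le)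

theorem bb_comm (h : c.Ok0) {v : En n → ℂ} (hv : ContDiff ℝ 2 v) {p : En n} (hp : p ∈ c.S)
    (hr : ‖p‖ ≤ c.r + 5) : avg c.et c.pr c.nu (op (bb c) v) p =
      op c.a (avg c.et c.pr c.nu v) p + avg (deriv (deriv c.et)) c.pr c.nu v p := by
  have hF : ContDiff ℝ 2 (uncurry fun t y => v (Ph c t y)) :=
    hv.comp (contDiff_infty.1 (Ph_par h) 2)
  have hc := h.ker.set.continuous
  have e1 : op c.a (avg c.et c.pr c.nu v) p = ∫ t, c.et t • op c.a (fun y => v (Ph c t y)) p :=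
    op_int hF hc (et_supp h) c.a p
  have c1 : Continuous fun t => op c.a (fun y => v (Ph c t y)) p :=
    continuous_finsetSum _ fun I _ => continuous_finsetSum _ fun J _ =>
      ((cd_dd (m := 0) (cd_dd (m := 1) hF J) I).continuous.comp
        (continuous_id.prodMk continuous_const)).const_smul _
  have c2 : Continuous fun t : ℝ =>
      ∑ K, ∑ L, (nv (c.nu p) K * nv (c.nu p) L) • dd K (dd L v) (p + t • c.nu p) :=
    continuous_finsetSum _ fun K _ => continuous_finsetSum _ fun L _ =>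
      (cont_ray hv K L p (c.nu p)).const_smul (nv (c.nu p) K * nv (c.nu p) L)
  rw [e1]
  simp only [avg, h.tube.pr_self hp]
  rw [← ibp2 h.ker.set (et_supp h) hv]
  refine Eq.trans (integral_congr_ae (Eventually.of_forall fun t => ?_)) (integral_add
    ((hc.smul c1).integrable_of_hasCompactSupport (et_supp h).smul_right)
    ((hc.smul c2).integrable_of_hasCompactSupport (et_supp h).smul_right))
  by_cases ht : |t| ≤ c.de / 4
  · simp only [op_ray h hv hp hr ht, smul_add]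
  · simp [h.ker.et0 t (not_le.1 ht).le]

end AmbL

open AmbL in
theorem amb : AMB := fun _ _ _ c h =>
  ⟨bb c, ⟨bb_smooth h, bb_out h, bb_pos h⟩, fun _ hv _ hp hr => bb_comm h hv hp hr⟩

end Vale.Agent.P218H
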