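import Vale.Agent.P218H.Mul

/-!
# P218, block LIN: the a priori estimate which comes from the resolvent
-/

open scoped NNReal Topology ContDiff
open Filter Set Metric MeasureTheory

noncomputable section

namespace Vale.Agent.P218H

namespace Ap

variable {n k : ℕ} {α β s N : ℝ} {v : En n → ℂ}

theorem pw_le (hs : 1 ≤ s) (hN : 0 ≤ N) {a b : ℝ} (h : a ≤ b) : N * s ^ a ≤ N * s ^ b :=
  mul_le_mul_of_nonneg_left (Real.rpow_le_rpow_of_exponent_le hs h) hN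

theorem pw_one (hs : 1 ≤ s) (hN : 0 ≤ N) {a : ℝ} (h : a ≤ 0) : N * s ^ a ≤ N := by
  simpa using pw_le hs hN h

theorem hm_lim {Y : Type} [PseudoMetricSpace Y] {f : Y → ℂ} {u : ℕ → ℝ} {l p q : ℝ}
    (hu : Tendsto u atTop (𝓝 l)) (h : ∀ j, HM α f (u j * p) (u j * q)) :
    HM α f (l * p) (l * q) :=
  ⟨fun x => ge_of_tendsto' (hu.mul_const p) fun j => (h j).sup x, fun x y =>
    ge_of_tendsto' ((hu.mul_const q).mul_const _) fun j => (h j).hol x y⟩

/-- absorption -/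
theorem rb_abs {N₀ Q : ℝ} (h0 : 0 ≤ N₀) (hQ : 0 ≤ Q) (hs : 0 < s) (h : RB α s N₀ v)
    (step : ∀ N, 0 ≤ N → RB α s N v → RB α s (N / 2 + Q) v) : RB α s (2 * Q) v := by
  have h1 : ∀ j : ℕ, RB α s (N₀ * (1 / 2) ^ j + 2 * Q) v := fun j => by
    induction j with
    | zero =>
      have p : ∀ a : ℝ, N₀ * s ^ a ≤ (N₀ * (1 / 2) ^ 0 + 2 * Q) * s ^ a := fun a =>
        mul_le_mul_of_nonneg_right (by linarith) (Real.rpow_nonneg hs.le _)
      exact ⟨h.zero.mono (p _) (p _), fun i => (h.one i).mono (p _) (p _),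
        fun i j => (h.two i j).mono (p _) (by linarith)⟩
    | succ j ih =>
      have h2 := step _ (by positivity) ih
      rwa [show (N₀ * (1 / 2) ^ j + 2 * Q) / 2 + Q = N₀ * (1 / 2) ^ (j + 1) + 2 * Q by ring] at h2
  have h2 : Tendsto (fun j : ℕ => N₀ * (1 / 2 : ℝ) ^ j + 2 * Q) atTop (𝓝 (2 * Q)) := by
    simpa using ((tendsto_pow_atTop_nhds_zero_of_lt_one (r := (1 / 2 : ℝ)) (by norm_num)
      (by norm_num)).const_mul N₀).add_const (2 * Q)
  refine ⟨hm_lim h2 fun j => (h1 j).zero, fun i => hm_lim h2 fun j => (h1 j).one i, fun i l => ?_⟩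
  simpa using hm_lim (q := 1) h2 fun j => by simpa using (h1 j).two i l

theorem rb_mono {N' : ℝ} (hs : 0 < s) (h : RB α s N v) (hN : N ≤ N') : RB α s N' v :=
  have p : ∀ a : ℝ, N * s ^ a ≤ N' * s ^ a := fun _ =>
    mul_le_mul_of_nonneg_right hN (Real.rpow_nonneg hs.le _)
  ⟨h.zero.mono (p _) (p _), fun i => (h.one i).mono (p _) (p _),
    fun i j => (h.two i j).mono (p _) hN⟩

theorem rb_of (hs : 1 ≤ s) (hα : 0 ≤ α) {A : ℝ} (h : B2 α v A) :
    RB α s (A * s ^ (1 + α / 2)) v := by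
  have p : ∀ a : ℝ, 0 ≤ 1 + α / 2 + a → A ≤ A * s ^ (1 + α / 2) * s ^ a := fun a ha => by
    rw [mul_assoc, ← Real.rpow_add (by linarith)]
    simpa using pw_le hs h.nonneg ha
  refine ⟨(h.2 none none).mono (p _ (by linarith)) (p _ (by linarith)),
    fun i => (h.2 none (some i)).mono (p _ (by linarith)) (p _ (by linarith)),
    fun i j => (h.2 (some i) (some j)).mono (p _ (by linarith)) ?_⟩
  simpa using p 0 (by linarith)

theorem rb_all (hs : 1 ≤ s) (hN : 0 ≤ N) (h : RB α s N v) (i j : J1 n) :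
    HM α (dd i (dd j v)) (N * s ^ (-(α / 2))) N := by
  rcases i with _ | i <;> rcases j with _ | j
  · exact h.zero.mono (pw_le hs hN (by linarith)) (pw_one hs hN (by norm_num))
  · exact (h.one j).mono (pw_le hs hN (by linarith)) (pw_one hs hN (by norm_num))
  · exact (h.one i).mono (pw_le hs hN (by linarith)) (pw_one hs hN (by norm_num))
  · exact h.two i j

theorem rb_b2 (hs : 1 ≤ s) (hN : 0 ≤ N) (hβ : 0 ≤ β) (hβα : β ≤ α) (hv : ContDiff ℝ 2 v)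
    (h : RB α s N v) : B2 β v (3 * N * s ^ (-((α - β) / 2))) := by
  have s0 : 0 < s := by linarith
  refine ⟨hv, fun i j => ((rb_all hs hN h i j).lower hβ hβα hN
    (Real.rpow_pos_of_pos s0 (-(1 / 2)))).mono ?_ (le_of_eq ?_)⟩
  · have h1 := pw_le hs hN (show -(α / 2) ≤ -((α - β) / 2) by linarith)
    have h2 : 0 ≤ N * s ^ (-((α - β) / 2)) := by positivity
    linarith
  · rw [← Real.rpow_mul s0.le, ← Real.rpow_mul s0.le, mul_assoc, mul_assoc, ← Real.rpow_add s0,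
      show -(α / 2) + -(1 / 2) * -β = -((α - β) / 2) by ring,
      show -(1 / 2) * (α - β) = -((α - β) / 2) by ring]
    ring

/-- bounds on the core, scaled with the spectral parameter -/
def HS (α s : ℝ) (K : Set (En n)) (g : En n → ℂ) (X : ℝ) : Prop :=
  HM α (fun p : K => g p) (X * s ^ (-(α / 2))) X

section hs
variable {K : Set (En n)} {f g : En n → ℂ} {X X' : ℝ}

theorem HS.add (h : HS α s K f X) (h' : HS α s K g X') :
    HS α s K (fun p => f p + g p) (X + X') := by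
  unfold HS
  rw [add_mul]
  exact HM.add h h'

theorem HS.sub (h : HS α s K f X) (h' : HS α s K g X') :
    HS α s K (fun p => f p - g p) (X + X') := by
  unfold HS
  rw [add_mul]
  exact HM.sub h h'

theorem HS.mono (hs : 0 < s) (h : HS α s K f X) (hX : X ≤ X') : HS α s K f X' :=
  HM.mono h (mul_le_mul_of_nonneg_right hX (Real.rpow_nonneg hs.le _)) hX

theorem hs_of (hs : 0 < s) {A B : ℝ} (h : HM α (fun p : K => f p) A B)
    (hA : A * s ^ (α / 2) ≤ X) (hB : B ≤ X) : HS α s K f X := by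
  refine h.mono ?_ hB
  rw [Real.rpow_neg hs.le, ← div_eq_mul_inv, le_div_iff₀ (Real.rpow_pos_of_pos hs _)]
  exact hA

/-- finite dimensional terms -/
theorem t4 {ι : Type} [Fintype ι] (hK : IsCompact K) (h0 : 0 ≤ α) (h1 : α ≤ 1)
    {g : ι → En n → ℂ} (hg : ∀ i, ContDiff ℝ 1 (g i)) : ∃ C : ℝ, 0 ≤ C ∧ ∀ s, 1 ≤ s →
      ∀ m : ι → ℂ, HS α s K (fun p => ∑ i, m i * g i p) (C * s ^ (α / 2) * ‖m‖) := by
  choose A hA h using fun i => hm_of_c1 (hg i) hK h0 h1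
  have hS : 0 ≤ ∑ i, A i := Finset.sum_nonneg fun i _ => hA i
  refine ⟨∑ i, A i, hS, fun s hs m => ?_⟩
  have h2 := HM.sum Finset.univ fun i _ => ((h i).cmul (m i)).mono
    (mul_le_mul_of_nonneg_right (norm_le_pi_norm m i) (hA i))
    (mul_le_mul_of_nonneg_right (norm_le_pi_norm m i) (hA i))
  rw [← Finset.mul_sum] at h2
  refine hs_of (by linarith) h2 (le_of_eq (by ring)) ?_
  have h3 := pw_le hs (show 0 ≤ ‖m‖ * ∑ i, A i by positivity) (show 0 ≤ α / 2 by linarith)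
  rw [Real.rpow_zero] at h3
  linarith

end hs

variable {M : Type} {c : Core n k M}

/-- the term of order zero -/
theorem t1 (hA : AVG) (hc : c.Ok0) (h0 : 0 ≤ α) (h1 : α ≤ 1) : ∃ C : ℝ, 0 ≤ C ∧ ∀ s, 1 ≤ s →
    ∀ (v : En n → ℂ) N, 0 ≤ N → Continuous v → RB α s N v →
      HS α s c.K (c.wf (deriv (deriv c.et)) v) (C * s ^ (-1 : ℝ) * N) := by
  have e1 : ∀ {η : ℝ → ℝ}, (∀ t, c.de / 4 ≤ |t| → η t = 0) → Continuous (deriv η) →
      ∀ t, c.de / 4 ≤ |t| → deriv η t = 0 := fun {η} h h' t ht => by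
    have p := hc.tube.pos
    refine closure_minimal (s := {t | c.de / 4 < |t|}) (fun u hu => ?_)
      (isClosed_eq h' continuous_const) ?_
    · have : η =ᶠ[𝓝 u] fun _ => 0 := mem_of_superset
        ((isOpen_lt continuous_const continuous_abs).mem_nhds hu) fun w hw => h w (le_of_lt hw)
      rw [mem_ofPred_eq, this.deriv_eq, deriv_const]
    · have h2 : Tendsto (fun l : ℝ => l * t) (𝓝[>] 1) (𝓝 t) := by
        simpa using ((continuous_mul_const t).tendsto (1 : ℝ)).mono_left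
          (nhdsWithin_le_nhds (s := Ioi 1))
      refine mem_closure_of_tendsto h2 (mem_of_superset self_mem_nhdsWithin fun l hl => ?_)
      have hl : 1 < l := hl
      show c.de / 4 < |l * t|
      rw [abs_mul, abs_of_pos (by linarith)]
      nlinarith
  have c1 : ContDiff ℝ ∞ (deriv c.et) := hc.ker.set.deriv'
  have c2 : ContDiff ℝ ∞ (deriv (deriv c.et)) := c1.deriv'
  obtain ⟨C, hC, h⟩ := (hA n k M c hc _ c2.continuous
    (e1 (e1 hc.ker.et0 c1.continuous) c2.continuous)).2 α h0 h1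
  refine ⟨2 * C, by positivity, fun s hs v N hN hv hR => ?_⟩
  have s0 : 0 < s := by linarith
  have h2 := ((h v _ _ (by positivity)).1 hv hR.zero).restr c.K
  have h3 := pw_le hs hN (show -(1 + α / 2) ≤ -1 by linarith)
  have h4 : 0 ≤ C * (N * s ^ (-1 : ℝ)) := by positivity
  refine hs_of s0 h2 ?_ (by nlinarith)
  rw [mul_assoc, mul_assoc, ← Real.rpow_add s0, show -(1 + α / 2) + α / 2 = -1 by ring]
  linarith

theorem wf_cd (hA : AVG) (hc : c.Ok0) (hv : ContDiff ℝ 2 v) : ContDiff ℝ 2 (c.wf c.et v) :=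
  (contDiff_const.sub ((st_smooth _).of_le (by norm_cast))).smul
    ((hA n k M c hc c.et hc.ker.set.continuous hc.ker.et0).1 _ hv)

/-- the term with the spectral parameter -/
theorem t2 (hA : AVG) (hc : c.Ok0) (h0 : 0 ≤ α) (h1 : α < 1) {θ : ℝ} (hθ : 0 < θ) :
    ∃ C : ℝ, 0 ≤ C ∧ ∀ s, 1 ≤ s → ∀ (v : En n → ℂ) N U, 0 ≤ N → 0 ≤ U → ContDiff ℝ 2 v →
      RB α s N v → (∀ p ∈ c.S, ‖p‖ ≤ c.r + 4 → ‖c.wf c.et v p‖ ≤ U) →
      HS α s c.K (fun p => (s * (1 - c.ka p)) • c.wf c.et v p)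
        (θ * N + C * s ^ (1 + α / 2) * U) := by
  have r1 := hc.one_le
  have r2 := hc.r_le
  obtain ⟨C, hC, h⟩ := (hA n k M c hc _ hc.ker.set.continuous hc.ker.et0).2 0 le_rfl zero_le_one
  have z : ∀ x, c.r + 4 ≤ ‖x‖ → 1 - c.ka x = 0 := fun x hx => by
    rw [Core.ka, st_one (by linarith) (by linarith), sub_self]
  obtain ⟨C', hC', h'⟩ := mul1 (γ := 0) (χ := fun x => 1 - c.ka x) le_rfl zero_le_one
    (contDiff_const.sub (st_smooth _)) z
  obtain ⟨ε, hε, he⟩ : ∃ ε : ℝ, 0 < ε ∧ n * ε ^ (1 - α) * (C' * (2 * C)) ≤ θ := by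
    have h2 : Tendsto (fun ε : ℝ => n * ε ^ (1 - α) * (C' * (2 * C))) (𝓝 0) (𝓝 0) := by
      have : Continuous fun ε : ℝ => n * ε ^ (1 - α) * (C' * (2 * C)) :=
        (continuous_const.mul (continuous_id.rpow_const fun _ => Or.inr (by linarith))).mul
          continuous_const
      simpa [Real.zero_rpow (show 1 - α ≠ 0 by linarith)] using this.tendsto 0
    obtain ⟨ε, h3, h4⟩ := ((((h2.eventually (eventually_le_nhds hθ)).filter_mono
      (nhdsWithin_le_nhds (s := Ioi 0)))).and self_mem_nhdsWithin).exists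
    exact ⟨ε, h4, h3⟩
  refine ⟨1 + 2 * ε ^ (-α), by positivity, fun s hs v N U hN hU hv hR hW => ?_⟩
  have s0 : 0 < s := by linarith
  have W2 := wf_cd hA hc hv
  set L := N * s ^ (-((1 + α) / 2)) with hL
  have L0 : 0 ≤ L := by positivity
  have b1 : ∀ i x, ‖dd i (c.wf c.et v) x‖ ≤ C * L := (h v L 0 le_rfl).2.1 hv fun i x => by
    rcases i with _ | i
    · exact (hR.zero.sup x).trans (pw_le hs hN (by linarith))
    · exact (hR.one i).sup x
  have b2 : B1 0 (c.wf c.et v) (2 * (C * L)) := ⟨W2.of_le one_le_two, fun i =>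
    ⟨fun x => (b1 i x).trans (by nlinarith [mul_nonneg hC L0]), fun x y => by
      rw [Real.rpow_zero, mul_one]
      linarith [norm_sub_le (dd i (c.wf c.et v) x) (dd i (c.wf c.et v) y), b1 i x, b1 i y]⟩⟩
  have b3 := h' _ _ b2
  have b4 : ∀ p ∈ c.K, ‖(1 - c.ka p) • c.wf c.et v p‖ ≤ U := fun p hp => by
    rcases le_total ‖p‖ (c.r + 4) with e | e
    · have k0 : 0 ≤ c.ka p := st_nonneg
      have k1 : c.ka p ≤ 1 := st_le_one
      rw [norm_smul, Real.norm_of_nonneg (by linarith)]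
      nlinarith [hW p hp.1 e, norm_nonneg (c.wf c.et v p)]
    · rw [z p e, zero_smul, norm_zero]
      exact hU
  have hl : 0 < ε * s ^ (-(1 / 2) : ℝ) := by positivity
  have b5 : HM α (fun p : c.K => (1 - c.ka p) • c.wf c.et v p) U _ :=
    ⟨fun p => b4 p p.2, fun p q => interp h0 h1.le (b3.1.differentiable one_ne_zero) b3.nonneg
      (fun i x => (b3.2 (some i)).sup x) hl (b4 p p.2) (b4 q q.2)⟩
  have b6 := b5.cmul s
  have e1 : s * s ^ (α / 2) = s ^ (1 + α / 2) := by rw [Real.rpow_add s0, Real.rpow_one]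
  have p1 : 0 ≤ ε ^ (-α) * s ^ (1 + α / 2) * U := by positivity
  have p2 : 0 ≤ s ^ (1 + α / 2) * U := by positivity
  have p3 : 0 ≤ θ * N := by positivity
  rw [Complex.norm_real, Real.norm_of_nonneg s0.le] at b6
  refine hs_of s0 (A := s * U) (by simpa only [mul_smul, Complex.real_smul] using b6) ?_ ?_
  · rw [mul_right_comm, e1]
    nlinarith
  · have e2 : (s ^ (-(1 / 2) : ℝ)) ^ (-α) = s ^ (α / 2) := by
      rw [← Real.rpow_mul s0.le]
      congr 1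
      ring
    have e3 : s * ((s ^ (-(1 / 2) : ℝ)) ^ (1 - α) * s ^ (-((1 + α) / 2))) = 1 := by
      rw [← Real.rpow_mul s0.le, ← Real.rpow_add s0,
        show -(1 / 2) * (1 - α) + -((1 + α) / 2) = -1 by ring, Real.rpow_neg_one,
        mul_inv_cancel₀ s0.ne']
    rw [Real.mul_rpow hε.le (by positivity), Real.mul_rpow hε.le (by positivity), e2, hL]
    calc _ = 2 * (ε ^ (-α) * (s * s ^ (α / 2)) * U) + n * ε ^ (1 - α) * (C' * (2 * C)) * N *
          (s * ((s ^ (-(1 / 2) : ℝ)) ^ (1 - α) * s ^ (-((1 + α) / 2)))) := by ring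
      _ ≤ _ := by
        rw [e1, e3]
        nlinarith [mul_le_mul_of_nonneg_right he hN]

/-- the commutator on the end functions -/
theorem t3 (hL : LOC) (hc : c.Ok0) (h0 : 0 ≤ α) (h1 : α ≤ 1) : ∃ C : ℝ, 0 ≤ C ∧ ∀ s, 1 ≤ s →
    ∀ (f : En n → ℂ) U A, 0 ≤ U → 0 ≤ A →
      (∀ q ∈ c.S, c.r₀ - 1 ≤ ‖q‖ → ‖q‖ ≤ c.r + 7 → ContDiffAt ℝ 2 f q) →
      (∀ q ∈ c.S, c.r₀ - 1 ≤ ‖q‖ → ‖q‖ ≤ c.r + 7 → ‖f q‖ ≤ U) →
      (∀ q ∈ c.S, c.r₀ - 1 ≤ ‖q‖ → ‖q‖ ≤ c.r + 7 → ∀ i j, ‖dd i (dd j f) q‖ ≤ A) →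
      HS α s c.K (cm c.a c.ce f) (C * (s ^ (1 + α / 2) * U + A)) := by
  obtain ⟨C, hC, h⟩ := hL n k M c hc
  obtain ⟨e, he, -, hcm⟩ := cmf n c.a c.ce hc.ell.sm hc.sce
  choose E hE hE' using fun i => hm_of_c1 (f := fun x => (e i x : ℂ))
    (Complex.ofRealCLM.contDiff.comp ((he i).of_le (by simp))) hc.compact h0 h1
  have hS : 0 ≤ ∑ i, E i := Finset.sum_nonneg fun i _ => hE i
  refine ⟨(∑ i, E i) * (6 + 4 * n * C), by positivity, fun s hs f U A hU hA hf h2 h3 => ?_⟩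
  have s0 : 0 < s := by linarith
  obtain ⟨l1, -, l2, l3, l4⟩ := h f hf
  have l5 := l3 U hU h2
  have l6 := l4 A hA h3
  set t := s ^ (α / 2) with ht
  have t1 : 1 ≤ t := Real.one_le_rpow hs (by linarith)
  have t0 : 0 < t := by linarith
  have t2 : t * t ≤ s ^ (1 + α / 2) := by
    rw [ht, ← Real.rpow_add s0]
    exact Real.rpow_le_rpow_of_exponent_le hs (by linarith)
  have q0 : 0 ≤ n * (C * A) := by positivity
  have q1 : n * t⁻¹ * (C * A) ≤ n * (C * A) := by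
    have := inv_le_one_of_one_le₀ t1
    nlinarith
  have b1 : ∀ i x, ‖dd i (c.lo f) x‖ ≤ 2 * U * t + n * t⁻¹ * (C * A) := fun i x => by
    rcases i with _ | i
    · have : 0 ≤ n * t⁻¹ * (C * A) := by positivity
      exact (l5 x).trans (by nlinarith)
    · simpa only [div_inv_eq_mul] using landau l1 l5
        (fun i j x => (l6.2 (some i) (some j)).sup x) (inv_pos.2 t0) i x
  have b2 : ∀ i, HM α (dd i (c.lo f)) _ _ := fun i => hm_of_lip h0 h1 q0 (b1 i)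
    (lip_of_dd ((dd_cd l1 i).differentiable one_ne_zero) (by positivity)
      fun j x => (l6.2 (some j) i).sup x)
  have b3 := HM.sum Finset.univ fun i _ => (hE' i).mul ((b2 i).restr c.K) (hE i)
  have e1 : (fun p : c.K => cm c.a c.ce f p) =
      fun p : c.K => ∑ i, (e i p : ℂ) * dd i (c.lo f) p := funext fun p => by
    rw [l2 p p.2, hcm _ _ l1.contDiffAt]
    simp only [Complex.real_smul]
  simp only [← mul_add, ← Finset.sum_mul] at b3
  rw [← e1] at b3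
  have u1 : U * t ≤ U * (t * t) := mul_le_mul_of_nonneg_left (by nlinarith) hU
  have u2 : U * (t * t) ≤ U * s ^ (1 + α / 2) := mul_le_mul_of_nonneg_left t2 hU
  have u3 : 0 ≤ n * C * (s ^ (1 + α / 2) * U) := by positivity
  have u4 : 0 ≤ U * t := by positivity
  refine hs_of s0 b3 ?_ ?_
  · rw [mul_assoc, mul_assoc (∑ i, E i)]
    refine mul_le_mul_of_nonneg_left ?_ hS
    have : n * t⁻¹ * (C * A) * t = n * (C * A) := by field_simp
    rw [← ht, add_mul, this]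
    nlinarith
  · rw [mul_assoc (∑ i, E i)]
    refine mul_le_mul_of_nonneg_left ?_ hS
    nlinarith

theorem b1_sum {ι : Type} (t : Finset ι) {F : ι → En n → ℂ} {A : ι → ℝ}
    (h : ∀ i, B1 β (F i) (A i)) : B1 β (fun x => ∑ i ∈ t, F i x) (∑ i ∈ t, A i) := by
  classical
  induction t using Finset.induction_on with
  | empty =>
    refine ⟨by simpa using contDiff_const, fun i => ?_⟩
    have : dd i (fun _ : En n => (0 : ℂ)) = fun _ => 0 := dd_zero i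
    simpa [this] using HM.zero
  | insert a t ha ih =>
    simp only [Finset.sum_insert ha]
    exact (h a).add ih

/-- the commutator on the core function -/
theorem t0 (hA : AVG) (hc : c.Ok0) (h0 : 0 ≤ β) (h1 : β ≤ 1) : ∃ C : ℝ, 0 ≤ C ∧
    ∀ (v : En n → ℂ) A, B2 β v A → B1 β (cm c.a c.cc (c.wf c.et v)) (C * A) := by
  have r1 := hc.one_le
  have r2 := hc.r_le
  obtain ⟨C, hC, h⟩ := (hA n k M c hc _ hc.ker.set.continuous hc.ker.et0).2 β h0 h1
  obtain ⟨e, he, -, hcm⟩ := cmf n c.a c.cc hc.ell.sm hc.scc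
  choose E hE hE' using fun i => mul1 (χ := fun x => (1 - st (c.r + 9) x) * e i x)
    (R := c.r + 10) h0 h1 ((contDiff_const.sub (st_smooth _)).mul (he i)) fun x hx => by
      rw [st_one (by linarith) (by linarith), sub_self, zero_mul]
  have hS : 0 ≤ ∑ i, E i := Finset.sum_nonneg fun i _ => hE i
  refine ⟨(∑ i, E i) * C, by positivity, fun v A hv => ?_⟩
  have h2 := (h v A 0 le_rfl).2.2 hv
  have h3 := b1_sum Finset.univ fun i => hE' i _ _ (h2.dd i)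
  rw [← Finset.sum_mul, ← mul_assoc] at h3
  convert h3 using 2 with x
  rw [hcm _ _ h2.1.contDiffAt]
  refine Finset.sum_congr rfl fun i _ => ?_
  rcases le_total ‖x‖ (c.r + 9) with e1 | e1
  · rw [st_zero (by linarith) e1, sub_zero, one_mul]
  · have e2 : c.wf c.et v =ᶠ[𝓝 x] 0 :=
      (st_ev_one (c := c.r + 7) (by linarith) (by linarith)).mono fun y hy => by simp [Core.wf, hy]
    rw [(dd_ev e2 i).eq_of_nhds, dd_zero]
    simp

variable [Fintype M] {C : ℝ} {b : J1 n → J1 n → En n → ℝ}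

/-- the end functions -/
theorem ve (hA : AVG) (hc : c.Ok0) (β0 : 0 ≤ β) (βα : β ≤ α) (α1 : α ≤ 1) : ∃ C₀ : ℝ, 0 ≤ C₀ ∧
    ∀ s, 1 ≤ s → ∀ (δ R : ℝ) (D : EndD n M β), D.Ok c C δ R →
    ∀ (cC : C2a n α →L[ℂ] C1a n β) (TT : D.XX α k →L[ℂ] D.YY α k), D.Sys c b s cC TT →
    ∀ (x : D.XX α k) N, 0 ≤ N → RB α s N (f2 x.1) →
      ‖x.2.1‖ ≤ |C| * ‖TT x‖ + C₀ * s ^ (-((α - β) / 2)) * N := by
  obtain ⟨C0, C00, h0⟩ := t0 hA hc β0 (βα.trans α1)
  have c0 := abs_nonneg C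
  refine ⟨|C| * |C| * (6 * C0), by positivity, fun s hs δ R D hD cC TT hS x N hN h => ?_⟩
  have a1 := h0 _ _ (rb_b2 hs hN β0 βα (f2_cd _) h)
  rw [← hS.com] at a1
  have a2 := norm_le_b1 a1
  have a3 : ‖D.inj (cC x.1)‖ ≤ |C| * (6 * C0 * N * s ^ (-((α - β) / 2))) :=
    (hD.injb _).trans (mul_le_mul (le_abs_self C) (by linarith) (norm_nonneg _) c0)
  have a4 : ‖D.T x.2.1‖ ≤ ‖TT x‖ + ‖D.inj (cC x.1)‖ := by
    rw [eq_sub_of_add_eq (hS.ends x).symm]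
    exact (norm_sub_le _ _).trans (add_le_add_left
      ((norm_fst_le (TT x).2).trans (norm_snd_le _)) _)
  exact ((hD.apr _).trans (mul_le_mul (le_abs_self C) (a4.trans (add_le_add_right a3 _))
    (norm_nonneg _) c0)).trans_eq (by ring)

/-- the terms of lower order -/
theorem lw (hA : AVG) (hL : LOC) (hc : c.Ok0) (β0 : 0 ≤ β) (βα : β < α) (α1 : α < 1) {θ : ℝ}
    (θ0 : 0 < θ) : ∃ C₁ s₀ : ℝ, 0 ≤ C₁ ∧ ∀ s, 1 ≤ s → s₀ ≤ s → ∃ C₂ : ℝ, 0 ≤ C₂ ∧
    ∀ (δ R : ℝ), c.r + 8 ≤ R → ∀ (D : EndD n M β), D.Ok c C δ R →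
    ∀ (cC : C2a n α →L[ℂ] C1a n β) (TT : D.XX α k →L[ℂ] D.YY α k), D.Sys c b s cC TT →
    ∀ (x : D.XX α k) (U : ℝ), 0 ≤ U →
      (∀ p ∈ c.S, ‖p‖ ≤ c.r + 4 → ‖c.wf c.et (f2 x.1) p‖ ≤ U) →
      (∀ p ∈ c.S, c.r₀ - 1 ≤ ‖p‖ → ‖p‖ ≤ c.r + 7 → ‖D.ev x.2.1 p‖ ≤ U) →
      ∀ N, 0 ≤ N → RB α s N (f2 x.1) → HS α s c.K (D.low c s x) (3 * θ * N
        + C₁ * s ^ (1 + α / 2) * U + C₂ * (‖TT x‖ + ‖x.2.2.1‖ + ‖x.2.2.2‖)) := by
  have α0 : 0 ≤ α := by linarith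
  have r1 := hc.one_le
  have r2 := hc.r_le
  obtain ⟨C0, C00, h0⟩ := ve (C := C) (b := b) hA hc β0 βα.le α1.le
  obtain ⟨C1, C10, h1⟩ := t1 hA hc α0 α1.le
  obtain ⟨C2, C20, h2⟩ := t2 hA hc α0 α1 θ0
  obtain ⟨C3, C30, h3⟩ := t3 hL hc α0 α1.le
  obtain ⟨C4, C40, h4⟩ := t4 hc.compact α0 α1.le fun i => (hc.bb i).1
  obtain ⟨C5, C50, h5⟩ := t4 (g := fun i x => (c.ψ i x : ℂ)) hc.compact α0 α1.le fun i =>
    Complex.ofRealCLM.contDiff.comp (hc.psi i).1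
  have c0 := abs_nonneg C
  have r8 : 0 ≤ c.r + 8 := by linarith
  obtain ⟨J, hJ⟩ : ∃ J, J = |C| * (c.r + 8) ^ c.N := ⟨_, rfl⟩
  have J0 : 0 ≤ J := by rw [hJ]; positivity
  have lim : ∀ (A a : ℝ), 0 < a → ∀ᶠ s : ℝ in atTop, A * s ^ (-a) ≤ θ := fun A a ha => by
    have := (tendsto_rpow_neg_atTop ha).const_mul A
    rw [mul_zero] at this
    exact this.eventually (eventually_le_nhds θ0)
  obtain ⟨s₀, hs₀⟩ := eventually_atTop.1 ((lim C1 1 one_pos).and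
    (lim (C3 * J * C0) ((α - β) / 2) (by linarith)))
  refine ⟨C2 + C3, s₀, by positivity, fun s hs1 hs => ?_⟩
  obtain ⟨e1, e2⟩ := hs₀ s hs
  have s0 : 0 < s := by linarith
  have t0 : 0 < s ^ (α / 2) := by positivity
  refine ⟨C3 * J * |C| + C4 * s ^ (α / 2) + C5 * s ^ (α / 2), by positivity,
    fun δ R hR D hD cC TT hS x U hU hW hV N hN h => ?_⟩
  have v2 := f2_cd x.1
  have n1 := norm_nonneg (TT x)
  have n2 := norm_nonneg x.2.2.1
  have n3 := norm_nonneg x.2.2.2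
  have a3 := h3 s hs1 (D.ev x.2.1) U (J * ‖x.2.1‖) hU (by positivity)
    (fun q hq e e' => hD.reg _ q (hc.far q hq e) (by linarith)) hV fun q hq e e' i j =>
      (hD.jet _ q hq e (by linarith) i j).trans (mul_le_mul_of_nonneg_right (hJ ▸ mul_le_mul
        (le_abs_self C) (pow_le_pow_left₀ (by positivity) (by linarith) _) (by positivity) c0)
        (norm_nonneg _))
  refine (((((h1 s hs1 _ N hN v2.continuous h).sub (h2 s hs1 _ N U hN hU v2 h hW)).sub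
    a3).sub (h4 s hs1 x.2.2.1)).add (h5 s hs1 x.2.2.2)).mono s0 ?_
  have b1 := mul_le_mul_of_nonneg_right e1 hN
  have b2 := mul_le_mul_of_nonneg_right e2 hN
  have b3 := mul_le_mul_of_nonneg_left (h0 s hs1 δ R D hD cC TT hS x N hN h) (mul_nonneg C30 J0)
  have b4 : 0 ≤ C3 * J * |C| * (‖x.2.2.1‖ + ‖x.2.2.2‖) := by positivity
  have b5 : 0 ≤ C4 * s ^ (α / 2) * (‖TT x‖ + ‖x.2.2.2‖) := by positivity
  have b6 : 0 ≤ C5 * s ^ (α / 2) * (‖TT x‖ + ‖x.2.2.1‖) := by positivity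
  linarith

omit [Fintype M] in
/-- one step of the absorption -/
theorem step (hE : EXT) (hR : RES) (hc : c.Ok0) (α0 : 0 < α) (α1 : α < 1) (hb : Amb b) :
    ∃ Λ s₁ : ℝ, 0 ≤ Λ ∧ 1 ≤ s₁ ∧ ∀ s, s₁ ≤ s → ∀ (v g : En n → ℂ) (F : HH α (En n)) (X : ℝ),
      0 ≤ X → ContDiff ℝ 2 v → (∃ A, ∀ y, ‖v y‖ ≤ A) → HS α s c.K g X →
      (∀ y, F y = s • v y - op b v y + c.ext g y) →
      RB α s (Λ * (X + (s ^ (α / 2) + 1) * ‖F‖)) v := by
  obtain ⟨CR, s₁, CR0, s1, res⟩ := hR n b α hb α0 α1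
  obtain ⟨CE, CE0, hx⟩ := (hE n k M c hc).2.2.2 α α0.le α1.le
  refine ⟨CR * (1 + 2 * CE), s₁, by positivity, s1, fun s hs v g F X X0 v2 ⟨A, hv⟩ hg hF => ?_⟩
  have hs1 : 1 ≤ s := s1.trans hs
  have s0 : 0 < s := by linarith
  have t0 : 0 < s ^ (α / 2) := by positivity
  have p1 : 0 ≤ X * s ^ (-(α / 2)) := by positivity
  have p2 : X * s ^ (-(α / 2)) ≤ X := pw_one hs1 X0 (by linarith)
  obtain ⟨w, w2, wR, we⟩ := (res s hs).1 _ _ _ (by positivity)
    ((hm_hol F).sub (hx _ _ _ p1 X0 hg))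
  have wv : (fun y => w y - v y) = 0 := (res s hs).2 _ (w2.sub v2)
    ⟨_, fun y => (norm_sub_le _ _).trans (add_le_add (wR.zero.sup y) (hv y))⟩ fun y => by
      have := we y
      rw [hF] at this
      rw [op_sub w2.contDiffAt v2.contDiffAt, smul_sub]
      linear_combination this
  rw [show v = w from funext fun y => (sub_eq_zero.1 (congrFun wv y)).symm]
  refine rb_mono s0 wR ?_
  have p3 : s ^ (α / 2) * (X * s ^ (-(α / 2))) = X := by
    rw [Real.rpow_neg s0.le]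
    field_simp
  have p6 := mul_le_mul_of_nonneg_left p2 (mul_nonneg CR0 CE0)
  have p7 : 0 ≤ CR * CE * ((s ^ (α / 2) + 1) * ‖F‖) := by positivity
  rw [mul_add (s ^ (α / 2)), p3]
  linarith

end Ap

open Ap in
/-- **APR1** -/
theorem apr1 (hA : AVG) (hE : EXT) (hL : LOC) (hR : RES) : APR1 := by
  intro n k M _ c hc α β C β0 βα α1 b hb
  have α0 : 0 < α := by linarith
  obtain ⟨Λ, s₁, Λ0, s1, st⟩ := step hE hR hc α0 α1 hb.toAmb
  obtain ⟨θ, θ0, θ1⟩ : ∃ θ, 0 < θ ∧ Λ * (3 * θ) ≤ 1 / 2 := ⟨1 / (6 * (Λ + 1)), by positivity, by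
    rw [mul_one_div, mul_div_assoc', div_le_div_iff₀ (by positivity) two_pos]
    linarith⟩
  obtain ⟨C0, C00, h0⟩ := ve (C := C) (b := b) hA hc β0.le βα.le α1.le
  obtain ⟨C1, s₀, C10, h1⟩ := lw (C := C) (b := b) hA hL hc β0.le βα α1 θ0
  obtain ⟨C6, C60, h6⟩ := (hA n k M c hc _ hc.ker.set.continuous hc.ker.et0).2 α α0.le α1.le
  have c0 := abs_nonneg C
  refine ⟨C6 * (2 * (Λ * C1)), max s₀ s₁, by positivity, fun s hs => ?_⟩
  have e3 := (le_max_right _ _).trans hs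
  have hs1 : 1 ≤ s := s1.trans e3
  have s0 : 0 < s := by linarith
  obtain ⟨C2, C20, h2⟩ := h1 s hs1 ((le_max_left _ _).trans hs)
  have t0 : 0 < s ^ (α / 2) := by positivity
  have P0 : 0 < s ^ (1 + α / 2) := by positivity
  obtain ⟨Q₁, hQ₁⟩ : ∃ Q, Q = Λ * C1 * s ^ (1 + α / 2) := ⟨_, rfl⟩
  obtain ⟨Q₂, hQ₂⟩ : ∃ Q, Q = Λ * (C2 + (s ^ (α / 2) + 1)) := ⟨_, rfl⟩
  have q1 : 0 ≤ Q₁ := by rw [hQ₁]; positivity
  have q2 : 0 ≤ Q₂ := by rw [hQ₂]; positivity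
  refine ⟨(C6 + 2 + C0) * (2 * (Q₁ + Q₂)) + |C| + 1, by positivity,
    fun δ R hR D hD cC TT hS x U hU hW hV => ?_⟩
  have v2 := f2_cd x.1
  have n1 := norm_nonneg (TT x)
  have n2 := norm_nonneg x.2.2.1
  have n3 := norm_nonneg x.2.2.2
  have h3 := h2 δ R hR D hD cC TT hS x U hU hW hV
  obtain ⟨d, hd⟩ : ∃ d, d = ‖TT x‖ + ‖x.2.2.1‖ + ‖x.2.2.2‖ := ⟨_, rfl⟩
  have d0 : 0 ≤ d := by linarith
  rw [show U + ‖TT x‖ + ‖x.2.2.1‖ + ‖x.2.2.2‖ = U + d by linarith, ← hd]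
  rw [← hd] at h3
  have key : RB α s (2 * (Q₁ * U + Q₂ * d)) (f2 x.1) := by
    refine rb_abs (mul_nonneg (norm_nonneg x.1) P0.le) (by positivity) s0
      (rb_of hs1 α0.le (b2_f2 x.1)) fun N hN h => rb_mono s0
        (st s e3 _ _ _ _ (by positivity) v2 ⟨_, h.zero.sup⟩ (h3 N hN h) (hS.core x)) ?_
    have p4 : ‖(TT x).1‖ ≤ d := (norm_fst_le _).trans (by linarith)
    have p5 := mul_le_mul_of_nonneg_left p4 (show 0 ≤ Λ * (s ^ (α / 2) + 1) by positivity)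
    have p7 := mul_le_mul_of_nonneg_right θ1 hN
    rw [hQ₁, hQ₂]
    linarith
  obtain ⟨N, hN⟩ : ∃ N, N = 2 * (Q₁ * U + Q₂ * d) := ⟨_, rfl⟩
  rw [← hN] at key
  have N0 : 0 ≤ N := by rw [hN]; positivity
  refine ⟨fun y => ?_, ?_⟩
  · have k1 : 0 ≤ (2 + C0) * (2 * (Q₁ + Q₂)) * d := by positivity
    have k2 : 0 ≤ C6 * (2 * Q₁) * d := by positivity
    have k3 : 0 ≤ (|C| + 1) * d := by positivity
    have a1 := ((h6 _ _ _ (by positivity)).1 v2.continuous key.zero).sup y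
    have a2 : s ^ (1 + α / 2) * s ^ (-(1 + α / 2)) = 1 := by
      rw [Real.rpow_neg s0.le, mul_inv_cancel₀ P0.ne']
    have a3 := pw_one hs1 (show 0 ≤ C6 * (2 * Q₂) * d by positivity)
      (show -(1 + α / 2) ≤ 0 by linarith)
    calc _ ≤ _ := a1
      _ = C6 * (2 * (Λ * C1)) * U * (s ^ (1 + α / 2) * s ^ (-(1 + α / 2)))
          + C6 * (2 * Q₂) * d * s ^ (-(1 + α / 2)) := by
        rw [hN, hQ₁]
        ring
      _ ≤ _ := by
        rw [a2]
        linarith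
  · have a1 : ‖x.1‖ ≤ 2 * N := norm_le_b2 ⟨v2, fun i j =>
      (rb_all hs1 N0 key i j).mono (pw_one hs1 N0 (by linarith)) le_rfl⟩
    have a2 := h0 s hs1 δ R D hD cC TT hS x N N0 key
    have a3 := pw_one hs1 (mul_nonneg C00 N0) (show -((α - β) / 2) ≤ 0 by linarith)
    have a4 : N ≤ 2 * (Q₁ + Q₂) * (U + d) := by
      linarith [mul_nonneg q1 d0, mul_nonneg q2 hU]
    have a5 := mul_le_mul_of_nonneg_left a4 (show 0 ≤ 2 + C0 by positivity)
    have a6 : 0 ≤ C6 * (2 * (Q₁ + Q₂)) * (U + d) := by positivity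
    have a7 : ‖x‖ ≤ ‖x.1‖ + ‖x.2.1‖ + ‖x.2.2.1‖ + ‖x.2.2.2‖ := by
      have n4 := norm_nonneg x.1
      have n5 := norm_nonneg x.2.1
      simp only [Prod.norm_def, max_le_iff]
      refine ⟨?_, ?_, ?_, ?_⟩ <;> linarith
    have a8 : |C| * ‖TT x‖ ≤ |C| * (U + d) := mul_le_mul_of_nonneg_left (by linarith) c0
    linarith

end Vale.Agent.P218H
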