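import Vale.Agent.P218H.Apr

/-!
# P218, block LIN: the uniform a priori estimate (helper21)
-/

open scoped NNReal Topology ContDiff
open Filter Set Metric MeasureTheory

noncomputable section

namespace Vale.Agent.P218H

variable {n k : ℕ} {M : Type} {c : Core n k M}

namespace Cn

variable {p : En n} {f g : En n → ℂ}

theorem dd_add_at (hf : DifferentiableAt ℝ f p) (hg : DifferentiableAt ℝ g p) (i : J1 n) :
    dd i (fun y => f y + g y) p = dd i f p + dd i g p := by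
  cases i with
  | none => rfl
  | some i => simp [dd, fderiv_fun_add hf hg]

theorem dd_sum_at [Fintype M] {Y : M → En n → ℂ} (h : ∀ j, DifferentiableAt ℝ (Y j) p) (m : M → ℂ)
    (i : J1 n) : dd i (fun y => ∑ j, m j * Y j y) p = ∑ j, m j * dd i (Y j) p := by
  cases i with
  | none => rfl
  | some i =>
    simp [dd, (HasFDerivAt.fun_sum fun j _ => (h j).hasFDerivAt.const_mul (m j)).fderiv]

theorem dd_smul_le {χ : En n → ℝ} {A B : ℝ} (hχ : DifferentiableAt ℝ χ p)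
    (hf : DifferentiableAt ℝ f p) (hA : ∀ i, ‖dd i χ p‖ ≤ A) (hB : ∀ i, ‖dd i f p‖ ≤ B) (i : J1 n) :
    ‖dd i (fun y => χ y • f y) p‖ ≤ 2 * (A * B) := by
  have h : ∀ i j, ‖dd i χ p • dd j f p‖ ≤ A * B := fun i j => by
    rw [norm_smul]
    exact mul_le_mul (hA i) (hB j) (norm_nonneg _) ((norm_nonneg _).trans (hA i))
  cases i with
  | none => exact (h none none).trans (by linarith [(norm_nonneg _).trans (h none none)])
  | some i =>
    rw [show dd (some i) (fun y => χ y • f y) p = dd none χ p • dd (some i) f p +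
      dd (some i) χ p • dd none f p by simp only [dd, fderiv_fun_smul hχ hf]; rfl, two_mul]
    exact (norm_add_le _ _).trans (add_le_add (h _ _) (h _ _))

theorem cut_bd {χ : En n → ℝ} (hχ : ContDiff ℝ ∞ χ) {S : Set (En n)} {ρ t : ℝ}
    (h : ∀ p ∈ S, ρ ≤ ‖p‖ → ∀ᶠ y in 𝓝 p, χ y = t) :
    ∃ A, 0 ≤ A ∧ ∀ p ∈ S, ∀ i, ‖dd i χ p‖ ≤ A := by
  obtain ⟨A, hA⟩ := (isCompact_closedBall (0 : En n) ρ).exists_bound_of_continuousOn
    (f := fun p i => dd i χ p) (continuous_pi fun i => (dd_smooth hχ i).continuous).continuousOn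
  refine ⟨max A ‖t‖, le_max_of_le_right (norm_nonneg t), fun p hp i => ?_⟩
  rcases le_total ρ ‖p‖ with e | e
  · rw [(dd_ev (g := fun _ => t) (h p hp e) i).eq_of_nhds]
    cases i <;> simp [dd]
  · exact le_max_of_le_left ((norm_le_pi_norm (fun i => dd i χ p) i).trans (hA p (by simpa using e)))

theorem sum_le [Fintype M] (m : M → ℂ) {y : M → ℂ} {B : ℝ} (h : ∀ j, ‖y j‖ ≤ B) :
    ‖∑ j, m j * y j‖ ≤ Fintype.card M * (‖m‖ * B) := by
  refine (norm_sum_le _ _).trans ((Finset.sum_le_card_nsmul _ _ (‖m‖ * B) fun j _ => ?_).trans_eq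
    (by simp))
  rw [norm_mul]
  exact mul_le_mul (norm_le_pi_norm m j) (h j) (norm_nonneg _) (norm_nonneg _)

variable [Fintype M] {α β s C δ R : ℝ} {b : J1 n → J1 n → En n → ℝ} {D : EndD n M β}
  {cC : C2a n α →L[ℂ] C1a n β} {TT : D.XX α k →L[ℂ] D.YY α k}

/-- the corrected function -/
def WW (c : Core n k M) (x : D.XX α k) (p : En n) : ℂ := D.uu c x p + ∑ i, x.2.2.1 i * c.Y i p

theorem grow (av : AVG) (h : c.Ok) (hα : 0 < α) (h1 : α < 1) (C : ℝ) : ∃ G : ℝ,
    ∀ (δ R : ℝ) (D : EndD n M β), D.Ok c C δ R → ∀ x : D.XX α k, ‖x‖ ≤ 1 → ∀ p ∈ c.S, ‖p‖ < R →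
      ContDiffAt ℝ 2 (D.uu c x) p → ∀ i, ‖dd i (WW c x) p‖ ≤ G * (1 + ‖p‖) ^ c.N := by
  obtain ⟨A, hA, -, hv⟩ := h.wf_bd av hα h1
  obtain ⟨A₁, p1, h₁⟩ := cut_bd h.scc fun p hp e => (h.cc0 p hp e).1
  obtain ⟨A₂, p2, h₂⟩ := cut_bd h.sce fun p hp e => (h.cc0 p hp e).2
  obtain ⟨B, hB⟩ := h.yy
  refine ⟨2 * (A₁ * A) + 2 * (A₂ * |C|) + Fintype.card M * |B|,
    fun δ R D ok x hx p hp hR cu i => ?_⟩
  obtain ⟨t1, t2, t3, -⟩ := nrm4 x
  have w : 1 ≤ (1 + ‖p‖) ^ c.N := one_le_pow₀ (by linarith [norm_nonneg p])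
  have dY := fun j => (hB j p hp).1.differentiableAt two_ne_zero
  have dW := (h.wf_cd av (f2_cd x.1)).differentiable two_ne_zero p
  have dc := h.scc.differentiable (by simp) p
  have a1 := dd_smul_le dc dW (h₁ p hp) (fun i => (hv x.1 i p).trans
    (mul_le_of_le_one_right hA (t1.trans hx))) i
  have a2 : DifferentiableAt ℝ (fun y => c.ce y • D.ev x.2.1 y) p ∧
      ‖dd i (fun y => c.ce y • D.ev x.2.1 y) p‖ ≤ 2 * (A₂ * (|C| * (1 + ‖p‖) ^ c.N)) := by
    rcases le_total ‖p‖ c.r₀ with e | e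
    · have : (fun y => c.ce y • D.ev x.2.1 y) =ᶠ[𝓝 p] 0 :=
        (h.ce0 p hp e).1.mono fun y hy => by simp [hy]
      rw [(dd_ev this i).eq_of_nhds, dd_zero, this.differentiableAt_iff]
      exact ⟨differentiableAt_const _, by simp only [Pi.zero_apply, norm_zero]; positivity⟩
    · have d := (ok.reg x.2.1 p (h.far p hp (by linarith)) hR).differentiableAt two_ne_zero
      have d' := h.sce.differentiable (by simp) p
      refine ⟨d'.smul d, dd_smul_le d' d (h₂ p hp) (fun i => ?_) i⟩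
      refine (ok.jet x.2.1 p hp (by linarith) hR none i).trans ?_
      rw [← mul_one (|C| * _)]
      gcongr
      exacts [le_abs_self C, t2.trans hx]
  have a3 := (sum_le x.2.2.1 fun j => (hB j p hp).2.2.1 i).trans
    (show _ ≤ Fintype.card M * (|B| * (1 + ‖p‖) ^ c.N) by
      rw [← one_mul (|B| * _)]
      exact mul_le_mul_of_nonneg_left ((mul_le_mul_of_nonneg_left (by gcongr; exact le_abs_self B)
        (norm_nonneg _)).trans (mul_le_mul_of_nonneg_right (t3.trans hx) (by positivity)))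
        (Nat.cast_nonneg _))
  rw [show WW c x = fun y => D.uu c x y + ∑ j, x.2.2.1 j * c.Y j y from rfl,
    dd_add_at (cu.differentiableAt two_ne_zero) (.fun_sum fun j _ => (dY j).const_mul _),
    show D.uu c x = fun y => c.cc y • c.wf c.et (f2 x.1) y + c.ce y • D.ev x.2.1 y from rfl,
    dd_add_at (f := fun y => c.cc y • c.wf c.et (f2 x.1) y) (dc.smul dW) a2.1, dd_sum_at dY]
  refine norm_add₃_le.trans ?_
  linarith [a2.2, mul_le_mul_of_nonneg_left w (mul_nonneg p1 hA)]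

theorem eqn (snd : SND) (h : c.Ok) (hα : 0 < α) {A : ℝ}
    (hF : ∀ (F : HH α (En n)) p, ‖c.wf c.et F p‖ ≤ A * ‖F‖) (hA : 0 ≤ A) (hR : c.r + 8 ≤ R)
    (hb : c.AmbOf b) (ok : D.Ok c C δ R) (sy : D.Sys c b s cC TT) (hδ : 0 ≤ δ) (x : D.XX α k)
    (hp : p ∈ c.S) (h1 : ‖p‖ < R) {ρ : ℝ} (h2 : ‖p‖ ≤ ρ) :
    ‖op c.a (WW c x) p - ∑ i, x.2.2.2 i * c.ψ i p‖ ≤
      (A + |C| * (1 + ρ) ^ c.N) * ‖TT x‖ + δ * ‖x‖ := by
  obtain ⟨B, hB⟩ := h.yy
  obtain ⟨cu, e⟩ := (snd n k M c h.1 α β s C δ R hα hR b hb D ok cC TT sy x).2.1 p hp h1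
  obtain ⟨t1, t2, -⟩ := nrm4 (TT x)
  have c0 : 0 ≤ |C| * (1 + ρ) ^ c.N := by
    have := (norm_nonneg p).trans h2
    positivity
  rw [show WW c x = fun y => D.uu c x y + ∑ j, x.2.2.1 j * c.Y j y from rfl,
    op_add cu (.sum fun j _ => contDiffAt_const.mul (hB j p hp).1),
    op_sum _ fun j _ => contDiffAt_const.mul (hB j p hp).1]
  simp only [fun j => op_cmul (a := c.a) (hB j p hp).1, fun j => (hB j p hp).2.1]
  rw [e, add_mul, add_assoc]
  refine (norm_add_le _ _).trans (add_le_add ?_ ?_)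
  · rcases le_total ‖p‖ (c.r + 3) with e | e
    · rw [neg_smul, norm_neg, ← h.wf_eq _ _ (by linarith)]
      exact (nrm_smul (h.ccb p) _).trans ((hF _ p).trans (mul_le_mul_of_nonneg_left t1 hA))
    · simp only [(h.out hp e).1, neg_zero, zero_smul, norm_zero]
      positivity
  · rcases le_total ‖p‖ c.r₀ with e | e
    · simp only [(h.inn hp e).1, zero_smul, norm_zero]
      positivity
    · have q := h.far p hp (by linarith)
      exact (nrm_smul (h.ceb p) _).trans ((norm_sub_le _ _).trans (add_le_add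
        ((ok.dat' _ q h1 h2).trans (mul_le_mul_of_nonneg_left t2 c0))
        ((ok.eqn _ p q h1).trans (mul_le_mul_of_nonneg_left (nrm4 x).2.1 hδ))))

end Cn

open Cn in
theorem con (av : AVG) (snd : SND) (ap : APR) : CON := by
  intro n k M _ c h α β C hβ hβα hα1 b hb
  have hα := hβ.trans hβα
  obtain ⟨s₀, AP⟩ := ap n k M c h.1 α β C hβ hβα hα1 b hb
  refine ⟨s₀, fun s hs => ?_⟩
  obtain ⟨C₂, hC₂, AP⟩ := AP s hs
  by_contra! H
  have H' : ∀ j : ℕ, ∃ R, c.r + 8 + j ≤ R ∧ ∃ D : EndD n M β, D.Ok c C (1 / (j + 1)) R ∧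
      ∃ cC TT, D.Sys c b s cC TT ∧ ∃ x : D.XX α k, ‖x‖ = 1 ∧ ‖TT x‖ ≤ 1 / (j + 1) := fun j => by
    obtain ⟨R, hR, D, ok, cC, TT, sy, x, hx⟩ :=
      H (j + 1) (1 / (j + 1)) (c.r + 8 + j) (by positivity) (by simp)
    have x0 : 0 < ‖x‖ := lt_of_le_of_lt (by positivity) hx
    refine ⟨R, hR, D, ok, cC, TT, sy, ((‖x‖⁻¹ : ℝ) : ℂ) • x, ?_, ?_⟩
    · rw [norm_smul, Complex.norm_real, norm_inv, norm_norm, inv_mul_cancel₀ x0.ne']
    · rw [map_smul, norm_smul, Complex.norm_real, norm_inv, norm_norm, inv_mul_le_iff₀ x0,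
        mul_one_div, le_div_iff₀ (by positivity), mul_comm]
      exact hx.le
  choose R hR D ok cC TT sy x hx hT using H'
  have hR' : ∀ j, c.r + 8 ≤ R j := fun j => le_trans (by simp) (hR j)
  have tR : Tendsto R atTop atTop :=
    tendsto_atTop_mono hR (tendsto_atTop_add_const_left _ _ tendsto_natCast_atTop_atTop)
  have t0 : Tendsto (fun j : ℕ => 1 / ((j : ℝ) + 1)) atTop (𝓝 0) :=
    tendsto_one_div_add_atTop_nhds_zero_nat
  have d0 : ∀ j : ℕ, 0 ≤ 1 / ((j : ℝ) + 1) := fun j => by positivity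
  have tT : Tendsto (fun j => ‖TT j (x j)‖) atTop (𝓝 0) :=
    squeeze_zero (fun _ => norm_nonneg _) hT t0
  have S := fun j => snd n k M c h.1 α β s C _ _ hα (hR' j) b hb _ (ok j) _ _ (sy j) (x j)
  obtain ⟨G, hG⟩ := grow (β := β) av h hα hα1 C
  obtain ⟨A, hA, hF, -⟩ := h.wf_bd av hα hα1
  obtain ⟨B, hB⟩ := h.yy
  obtain ⟨tl, tW⟩ := h.nq (max G 1) c.N (fun j => WW c (x j)) (fun j => (x j).2.2.2) R tR
    (fun j p hp h1 => ⟨((S j).2.1 p hp h1).1.add
      (.sum fun i _ => contDiffAt_const.mul (hB i p hp).1), fun i =>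
        (hG _ _ _ (ok j) _ (hx j).le p hp h1 ((S j).2.1 p hp h1).1 i).trans
          (mul_le_mul_of_nonneg_right (le_max_left _ _) (by positivity))⟩)
    (fun j => le_max_of_le_right ((nrm4 (x j)).2.2.2.trans (hx j).le))
    (fun ρ ε hε => by
      have := (tT.const_mul (A + |C| * (1 + ρ) ^ c.N)).add t0
      rw [mul_zero, zero_add] at this
      filter_upwards [this.eventually (ge_mem_nhds hε), tR.eventually_gt_atTop ρ]
        with j h1 h2 p hp h3
      refine (eqn snd h hα hF hA (hR' j) hb (ok j) (sy j) (d0 j) (x j) hp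
        (h3.trans_lt h2) h3).trans ?_
      rwa [hx, mul_one])
    fun i => by
      refine (squeeze_zero_norm (fun j => (norm_le_pi_norm _ i).trans
        (nrm4 (TT j (x j))).2.2.2) tT).congr fun j => ?_
      rw [(S j).2.2 i]
      refine integral_congr_ae (mem_of_superset (mem_ae_iff.2 h.supp) fun p hp => ?_)
      simp [WW, add_mul, Finset.sum_mul, mul_assoc, fun j => (hB j p hp).2.2.2 i]
  have tm : Tendsto (fun j => ‖(x j).2.2.1‖) atTop (𝓝 0) := by
    refine tendsto_order.2 ⟨fun a ha => .of_forall fun _ => ha.trans_le (norm_nonneg _),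
      fun a ha => ?_⟩
    set r := c.mo (a / 3)
    have e0 : 0 < a / (3 * (|r| + 1)) := by positivity
    filter_upwards [tR.eventually_gt_atTop r, tW r _ e0,
      (t0.mul_const r).eventually (ge_mem_nhds (by simp : 0 * r < 1)),
      (tT.const_mul |r|).eventually (gt_mem_nhds (by simpa using ha : |r| * 0 < a / 3))]
      with j h1 h2 h3 h4
    have := (ok j).ind (a / 3) (by positivity) h1 h3 (x j).2.1 (cC j (x j).1) (x j).2.2.1 _
      ((sy j).van h.1 _) e0.le fun p hp e1 e2 => by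
        simpa [WW, EndD.uu, h.out hp e1] using h2 p hp e2
    rw [← (sy j).ends] at this
    have a1 : r * (‖(TT j (x j)).2.1‖ + a / (3 * (|r| + 1))) ≤
        (|r| * ‖TT j (x j)‖ + (|r| + 1) * (a / (3 * (|r| + 1)))) := by
      nlinarith [mul_le_mul (le_abs_self r) (nrm4 (TT j (x j))).2.1 (norm_nonneg _) (abs_nonneg r),
        le_abs_self r]
    rw [show (|r| + 1) * (a / (3 * (|r| + 1))) = a / 3 by field_simp] at a1
    linarith [mul_le_of_le_one_right (by positivity : 0 ≤ a / 3) ((nrm4 (x j)).2.1.trans (hx j).le)]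
  have e0 : 0 < 1 / (2 * (C₂ + 1)) := by positivity
  set Q := |B| * (1 + (c.r + 7)) ^ c.N
  have tt := ((((((tm.mul_const Q).const_mul (Fintype.card M : ℝ)).const_add
    (1 / (2 * (C₂ + 1)))).add tT).add tm).add tl.norm).add t0 |>.const_mul C₂
  have lt : C₂ * (1 / (2 * (C₂ + 1))) < 1 := by
    rw [mul_one_div, div_lt_one (by positivity)]
    linarith
  obtain ⟨j, h1, h2⟩ := ((tW (c.r + 7) _ e0).and (tt.eventually (gt_mem_nhds
    (by simpa using lt)))).exists
  have r0 := h.r0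
  have := AP _ _ (d0 j) (hR' j) _ (ok j) _ _ (sy j) (x j)
    (1 / (2 * (C₂ + 1)) + Fintype.card M * (‖(x j).2.2.1‖ * Q)) (by positivity) fun p hp e => by
      rw [eq_sub_of_add_eq (rfl : (D j).uu c (x j) p + _ = WW c (x j) p)]
      refine (norm_sub_le _ _).trans (add_le_add (h1 p hp e) (sum_le _ fun i => ?_))
      exact ((hB i p hp).2.2.1 none).trans (by simp only [Q]; gcongr; exact le_abs_self B)
  rw [hx, mul_one] at this
  exact this.not_gt h2

end Vale.Agent.P218H
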