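import Vale.Agent.P218H.Avg

/-!
# P218, block LIN: the extension
-/

open scoped NNReal Topology ContDiff
open Filter Set Metric MeasureTheory

noncomputable section

namespace Vale.Agent.P218H

open Av

theorem ext' : EXT := by
  intro n k M c hc
  have hr : 0 ≤ c.r + 5 := by linarith [hc.one_le, hc.r_le]
  have hde := hc.tube.pos
  obtain ⟨g, hg⟩ : ∃ g : En n → ℝ, g = fun x => (1 - st (c.r + 5) (c.pr x)) * c.eh (c.ta x) :=
    ⟨_, rfl⟩
  have he : ∀ f x, c.ext f x = g x • f (c.pr x) := fun f x => by rw [hg]; rfl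
  have h1 : ∀ x, g x ≠ 0 → c.pr x ∈ c.K ∧ |c.ta x| < c.de := fun x hx => by
    rw [hg] at hx
    have h2 : |c.ta x| < c.de := by
      have := not_le.1 fun h => right_ne_zero_of_mul hx (hc.ker.eh0 _ h)
      linarith
    refine ⟨⟨(hc.tube.foot x h2).1, mem_closedBall_zero_iff.2 (not_lt.1 fun h => ?_)⟩, h2⟩
    exact left_ne_zero_of_mul hx (by rw [st_one hr (by linarith), sub_self])
  obtain ⟨N, hN⟩ := hc.compact.exists_bound_of_continuousOn hc.tube.snu.continuous.continuousOn
  obtain ⟨R, hR⟩ : ∃ R, R = c.r + 6 + c.de * max N 0 := ⟨_, rfl⟩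
  have hR0 : 0 ≤ R := by linarith [mul_nonneg hde.le (le_max_right N 0)]
  have h2 : ∀ x, g x ≠ 0 → ‖x‖ ≤ R := fun x hx => by
    obtain ⟨h3, h4⟩ := h1 x hx
    rw [(hc.tube.foot x h4).2, hR]
    refine (norm_add_le _ _).trans (add_le_add (mem_closedBall_zero_iff.1 h3.2) ?_)
    rw [norm_smul]
    exact mul_le_mul h4.le ((hN _ h3).trans (le_max_left _ _)) (norm_nonneg _) hde.le
  have h3 : ∀ x, R < ‖x‖ → g x = 0 := fun x hx => by_contra fun h => (h2 x h).not_gt hx
  refine ⟨⟨R + 1, fun f x hx => by rw [he, h3 x (by linarith), zero_smul]⟩, fun f p hp hpr => ?_,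
    fun f f' hf => funext fun x => ?_, fun γ g0 g1 => ?_⟩
  · have h4 : ∀ t, c.et t • c.ext f (c.pr p + t • c.nu (c.pr p)) = c.et t • f p := fun t => by
      rcases le_total (c.de / 4) |t| with ht | ht
      · rw [hc.ker.et0 t ht, zero_smul, zero_smul]
      · obtain ⟨h5, h6⟩ := hc.tube.ray p hp t (by linarith)
        rw [hc.tube.pr_self hp, Core.ext, h5, h6, st_zero hr hpr, hc.ker.eh1 t ht]
        simp
    simp only [avg, h4]
    rw [integral_smul_const, hc.ker.one, one_smul]
  · rw [he, he]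
    by_cases hx : g x = 0
    · rw [hx, zero_smul, zero_smul]
    · rw [hf _ (h1 x hx).1]
  · have hg1 : Gd R fun q : En n × ℝ => g q.1 := ⟨by
      rw [hg]
      exact ((contDiff_const.sub ((st_smooth _).comp hc.tube.spr)).mul
        (hc.ker.seh.comp hc.tube.sta)).comp contDiff_fst, fun q => h3 q.1⟩
    obtain ⟨L, hL, hl⟩ := hg1.lip 0
    obtain ⟨K, hK, hk⟩ := (gd_cut hR0 (hc.tube.spr.comp contDiff_fst)).lip 0
    have h4 := (hm_lip hL g0 g1 (hl 0 abs_zero.le).1 (hl 0 abs_zero.le).2).hol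
    have h5 : ∀ x, |g x| ≤ 1 := fun x => by
      rw [hg, abs_mul]
      exact mul_le_one₀ (abs_le.2 ⟨by linarith [st_le_one (c := c.r + 5) (x := c.pr x)],
        by linarith [st_nonneg (c := c.r + 5) (x := c.pr x)]⟩) (abs_nonneg _) (hc.ker.ehb _)
    have pK : 0 ≤ K ^ γ := by positivity
    refine ⟨3 * L + K ^ γ, by positivity, fun f A B hA hB h => ⟨fun x => ?_, fun x y => ?_⟩⟩
    · rw [he, norm_smul]
      by_cases hx : g x = 0
      · rwa [hx, norm_zero, zero_mul]
      · exact (mul_le_of_le_one_left (norm_nonneg _) (h5 x)).trans (h.sup ⟨_, (h1 x hx).1⟩)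
    have h6 : ∀ x y, g y ≠ 0 → ‖(g x - g y) • f (c.pr y)‖ ≤ 3 * L * A * dist x y ^ γ :=
      fun x y hy => by
        have h7 := h4 x y
        rw [← Complex.ofReal_sub, Complex.norm_real] at h7
        rw [norm_smul, mul_right_comm]
        exact mul_le_mul h7 (h.sup ⟨_, (h1 y hy).1⟩) (norm_nonneg _) (by positivity)
    have h7 : ∀ x y, g x = 0 → ‖c.ext f x - c.ext f y‖ ≤ 3 * L * A * dist x y ^ γ :=
      fun x y hx => by
        rw [he, he]
        by_cases hy : g y = 0
        · rw [hx, hy, zero_smul, zero_smul, sub_self, norm_zero]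
          positivity
        · simpa only [hx, zero_smul, zero_sub, neg_smul] using h6 x y hy
    have h8 : ‖c.ext f x - c.ext f y‖ ≤ (3 * L * A + B * K ^ γ) * dist x y ^ γ := by
      have p1 : 0 ≤ B * K ^ γ * dist x y ^ γ := by positivity
      rw [add_mul]
      by_cases hx : g x = 0
      · linarith [h7 x y hx]
      by_cases hy : g y = 0
      · have h9 := h7 y x hy
        rw [norm_sub_rev, dist_comm] at h9
        linarith
      have h9 : dist (c.pr x) (c.pr y) ≤ K * dist x y := by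
        simpa only [st_zero hR0 (h2 x hx), st_zero hR0 (h2 y hy), sub_zero, one_smul,
          Function.comp_apply, dist_eq_norm] using (hk 0 abs_zero.le).2 x y
      have h10 := (h.hol ⟨_, (h1 x hx).1⟩ ⟨_, (h1 y hy).1⟩).trans (hol_comp hK g0 hB h9)
      rw [he, he, show g x • f (c.pr x) - g y • f (c.pr y) =
        (g x - g y) • f (c.pr y) + g x • (f (c.pr x) - f (c.pr y)) by module]
      refine (norm_add_le _ _).trans (add_le_add (h6 x y hy) ?_)
      rw [norm_smul]
      exact (mul_le_of_le_one_left (norm_nonneg _) (h5 x)).trans h10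
    exact h8.trans (mul_le_mul_of_nonneg_right
      (by nlinarith [mul_nonneg hL hB, mul_nonneg pK hA]) (by positivity))

end Vale.Agent.P218H
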