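import Vale.Agent.P218H.Basic
import Mathlib.Analysis.Calculus.ContDiff.RCLike
import Mathlib.Topology.Algebra.MetricSpace.Lipschitz
import Mathlib.MeasureTheory.Function.LocallyIntegrable

/-!
# P218, block LIN: the operators used by the nonlinear theory
-/

open scoped NNReal Topology ContDiff Classical
open Filter Set Metric MeasureTheory

noncomputable section

namespace Vale.Agent.P218H

variable {n k : ℕ}

theorem avg_add {η : ℝ → ℝ} (h : Continuous η) {d : ℝ} (h0 : ∀ t, d ≤ |t| → η t = 0)
    (pr nu : En n → En n) {v w : En n → ℂ} (hv : Continuous v) (hw : Continuous w) (x : En n) :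
    avg η pr nu (v + w) x = avg η pr nu v x + avg η pr nu w x := by
  have i : ∀ v : En n → ℂ, Continuous v → Integrable fun t => η t • v (pr x + t • nu (pr x)) :=
    fun v hv => Continuous.integrable_of_hasCompactSupport (by fun_prop)
      (.intro (isCompact_closedBall 0 d) fun t ht => by
        rw [h0 t (by simpa using (not_le.1 (mt mem_closedBall_zero_iff.2 ht)).le), zero_smul])
  simp only [avg, Pi.add_apply, smul_add, integral_add (i v hv) (i w hw)]

theorem avg_smul (η : ℝ → ℝ) (pr nu : En n → En n) (a : ℂ) (v : En n → ℂ) (x : En n) :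
    avg η pr nu (a • v) x = a • avg η pr nu v x := by
  simp only [avg, Pi.smul_apply, smul_comm _ a, integral_smul]

theorem kit (mul : MUL) (av : AVG) (ex : EXT) (lo : LOC) : KIT := fun n k M _ c h α α0 α1 => by
  refine ⟨?_, ?_, ?_, ?_, fun f hf => ?_, fun β C => ?_⟩
  · obtain ⟨C, C0, hC⟩ := (av n k M c h c.et h.ker.set.continuous h.ker.et0).2 α α0.le α1
    exact (ex_L2 (fun v : C2a n α => c.wf c.et (f2 v)) (fun v w => funext fun x => by
      simp only [Core.wf, f2_add, avg_add h.ker.set.continuous h.ker.et0 _ _ (f2_cd v).continuous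
        (f2_cd w).continuous, smul_add, Pi.add_apply]) (fun a v => funext fun x => by
      simp only [Core.wf, f2_smul, avg_smul, Pi.smul_apply, smul_comm _ a]) C0
      fun v => (hC _ _ 0 le_rfl).2.2 (b2_f2 v)).imp fun _ => And.right
  · obtain ⟨-, -, e, b⟩ := ex n k M c h
    obtain ⟨C, C0, hC⟩ := b α α0.le α1
    let u (g : HH α c.K) (y : En n) : ℂ := if hy : y ∈ c.K then g ⟨y, hy⟩ else 0
    have hu : ∀ g (p : c.K), u g p = g p := fun g p => dif_pos p.2
    obtain ⟨L, -, hL⟩ := ex_L0 (α := α) (fun g => c.ext (u g)) (fun g g' => funext fun x => by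
      by_cases hx : c.pr x ∈ c.K <;> simp [Core.ext, u, hx]) (fun a g => funext fun x => by
      by_cases hx : c.pr x ∈ c.K <;> simp [Core.ext, u, hx, mul_left_comm])
      (C := 1 + 2 * C) (by positivity) fun g => (hC _ _ _ (norm_nonneg g) (norm_nonneg g)
        (by simpa only [hu] using hm_hol g)).mono (by nlinarith [norm_nonneg g])
          (by nlinarith [norm_nonneg g])
    exact ⟨L, fun g f hf y => (hL g y).trans
      (congrFun (e _ _ fun p hp => (hu g ⟨p, hp⟩).trans (hf ⟨p, hp⟩).symm) y)⟩
  · exact (ex_L0 (fun (g : HH α (En n)) (p : c.K) => g p) (fun _ _ => rfl) (fun _ _ => rfl)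
      zero_le_one fun g => by simpa using (hm_hol g).restr c.K).imp fun _ => And.right
  · obtain ⟨-, ⟨C, C0, hC⟩, -⟩ := mul n α α0.le α1
    refine (ex_L1 (fun v : C2a n 0 => f2 v) (fun _ _ => rfl) (fun _ _ => rfl) (C := 2 + C)
      (by positivity) fun v => ⟨(f2_cd v).of_le one_le_two, fun i => ⟨fun x => ?_, fun x y => ?_⟩⟩).imp
        fun _ => And.right
    · exact (((b2_f2 v).2 none i).sup x).trans (by nlinarith [norm_nonneg v])
    · simpa [add_mul] using hC _ _ _ ((dd_cd (f2_cd v) i).differentiable one_ne_zero) (norm_nonneg v)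
        (fun j => ((b2_f2 v).2 (some j) i).sup) 1 one_pos x y (((b2_f2 v).2 none i).sup x)
        (((b2_f2 v).2 none i).sup y)
  · obtain ⟨L, hL⟩ := hf.locallyLipschitz.locallyLipschitzOn.exists_lipschitzOnWith_of_compact
      h.compact
    obtain ⟨A, hA⟩ := h.compact.exists_bound_of_continuousOn hf.continuous.continuousOn
    have : HM 1 (fun p : c.K => f p) A L := ⟨fun p => hA p p.2, fun p q => by
      simpa [dist_eq_norm, Subtype.dist_eq] using hL.dist_le_mul p p.2 q q.2⟩
    exact ⟨mkH _ ⟨_, _, this.lower α0.le α1 L.2 one_pos⟩, fun _ => rfl⟩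
  · obtain ⟨C', C0, hC⟩ := lo n k M c h
    have r := h.r_le.trans' h.one_le
    refine ⟨2 * (C' * (|C| * (c.r + 8) ^ c.N)), fun δ R hR D hD => ex_L2 (fun v => c.lo (D.ev v))
      (fun v w => funext fun x => by simp [Core.lo]) (fun a v => funext fun x => by
        simp [Core.lo, mul_left_comm]) (by positivity) fun v => ?_⟩
    rw [mul_assoc]
    refine (hC _ fun q hq a b => hD.reg v q (h.far q hq a) (by linarith)).2.2.2.2 _ (by positivity)
      fun q hq a b i j => (hD.jet v q hq a (by linarith) i j).trans ?_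
    exact mul_le_mul_of_nonneg_right (mul_le_mul (le_abs_self C)
      (pow_le_pow_left₀ (by positivity) (by linarith) _) (by positivity) (abs_nonneg _)) (norm_nonneg _)

end Vale.Agent.P218H
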