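import Vale.Agent.P218H.Basic

/-!
# P218, block LIN: the extension of the end functions
-/

open scoped NNReal Topology ContDiff
open Filter Set Metric MeasureTheory

noncomputable section

namespace Vale.Agent.P218H

variable {n k : ℕ}

theorem two_le : (2 : WithTop ℕ∞) ≤ ∞ := WithTop.coe_le_coe.2 (le_top : (2 : ℕ∞) ≤ ⊤)

theorem sum_ee (v : En n) : ∑ l, v l • ee l = v := by
  simpa [ee] using (EuclideanSpace.basisFun (Fin n) ℝ).sum_repr v

/-- the chain rule -/
theorem dd_chain {χ : En n → ℝ} {pr : En n → En n} (hχ : ContDiff ℝ ∞ χ) (hp : ContDiff ℝ ∞ pr)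
    (j : J1 n) : ∃ e : J1 n → En n → ℝ, (∀ l, ContDiff ℝ ∞ (e l)) ∧ ∀ (f : En n → ℂ) x,
      DifferentiableAt ℝ f (pr x) →
        dd j (fun y => χ y • f (pr y)) x = ∑ l, e l x • dd l f (pr x) := by
  cases j with
  | none =>
    exact ⟨fun l => l.elim χ fun _ => 0, fun l => by cases l <;> [exact hχ; exact contDiff_const],
      fun f x _ => by simp [dd]⟩
  | some j =>
    refine ⟨fun l => l.elim (dd (some j) χ) fun l x => χ x * dd (some j) pr x l, fun l => ?_,
      fun f x hf => ?_⟩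
    · cases l with
      | none => exact dd_smooth hχ (some j)
      | some l => exact hχ.mul ((EuclideanSpace.proj (𝕜 := ℝ) l).contDiff.comp (dd_smooth hp (some j)))
    · have h := ((hχ.differentiable (by simp) x).hasFDerivAt.smul
        (hf.hasFDerivAt.comp x (hp.differentiable (by simp) x).hasFDerivAt)).fderiv
      refine (congrArg (fun L : En n →L[ℝ] ℂ => L (ee j)) h).trans ?_
      simp only [dd, Fintype.sum_option, Option.elim, add_apply, smul_apply,
        ContinuousLinearMap.comp_apply,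
        ContinuousLinearMap.smulRight_apply, Function.comp, mul_smul, ← Finset.smul_sum,
        ← map_smul, ← map_sum, sum_ee, add_comm]

theorem dd_sum {ι : Type} (s : Finset ι) {F : ι → En n → ℂ} {x : En n}
    (h : ∀ i ∈ s, DifferentiableAt ℝ (F i) x) (j : J1 n) :
    dd j (fun y => ∑ i ∈ s, F i y) x = ∑ i ∈ s, dd j (F i) x := by
  cases j with
  | none => rfl
  | some j => simp [dd, fderiv_fun_sum h]

theorem dd2_chain {χ : En n → ℝ} {pr : En n → En n} (hχ : ContDiff ℝ ∞ χ) (hp : ContDiff ℝ ∞ pr)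
    {T : Set (En n)} (hT : IsCompact T) : ∃ C : ℝ, 0 ≤ C ∧ ∀ (f : En n → ℂ) (A : ℝ), ∀ x ∈ T,
      ContDiffAt ℝ 2 f (pr x) → (∀ i j, ‖dd i (dd j f) (pr x)‖ ≤ A) →
        ∀ i j, ‖dd i (dd j fun y => χ y • f (pr y)) x‖ ≤ C * A := by
  choose e he h using dd_chain hχ hp
  choose e' he' h' using fun j l => dd_chain (he j l) hp
  choose B hB using fun q : J1 n × J1 n × J1 n × J1 n =>
    hT.exists_bound_of_continuousOn (he' q.1 q.2.1 q.2.2.1 q.2.2.2).continuous.continuousOn
  obtain ⟨C, hC⟩ := (finite_range B).bddAbove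
  refine ⟨∑ _l : J1 n, ∑ _m : J1 n, |C|, by positivity, fun f A x hx hf hA i j => ?_⟩
  have d := fun l => (dd_cda1 hf l).differentiableAt one_ne_zero
  rw [(dd_ev ((hp.continuous.tendsto x).eventually (ev_diff hf) |>.mono fun y hy => h j f y hy)
    i).eq_of_nhds, dd_sum (F := fun l y => e j l y • dd l f (pr y)) _ fun l _ => ((he j l).differentiable (by simp) x).smul
      ((d l).comp x (hp.differentiable (by simp) x)), Finset.sum_mul]
  refine norm_sum_le_of_le _ fun l _ => ?_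
  rw [h' j l i _ x (d l), Finset.sum_mul]
  refine norm_sum_le_of_le _ fun m _ => ?_
  rw [norm_smul]
  exact mul_le_mul ((hB (j, l, i, m) x hx).trans ((hC ⟨_, rfl⟩).trans (le_abs_self C))) (hA m l)
    (norm_nonneg _) (abs_nonneg _)

theorem loc (_ : MUL) : LOC := fun n k M c h => by
  have r0 : 0 ≤ c.r₀ - 1 := sub_nonneg.2 h.one_le
  have r1 : 0 ≤ c.r + 6 := by linarith [h.r_le]
  have t := h.tube
  let χ (x : En n) := st (c.r₀ - 1) (c.pr x) * (1 - st (c.r + 6) (c.pr x)) * c.eh (c.ta x)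
  have hχ : ContDiff ℝ ∞ χ := (((st_smooth _).comp t.spr).mul
    (contDiff_const.sub ((st_smooth _).comp t.spr))).mul (h.ker.seh.comp t.sta)
  let T : Set (En n) := {x | |c.ta x| ≤ c.de / 2 ∧ c.r₀ - 1 ≤ ‖c.pr x‖ ∧ ‖c.pr x‖ ≤ c.r + 7}
  have cT : IsClosed T := (isClosed_le t.sta.continuous.abs continuous_const).inter
    ((isClosed_le continuous_const t.spr.continuous.norm).inter
      (isClosed_le t.spr.continuous.norm continuous_const))
  have ft := fun x (hx : x ∈ T) => t.foot x (hx.1.trans_lt (half_lt_self t.pos))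
  have hT : IsCompact T := ((isCompact_closedBall 0 (c.r + 7)).prod
    (isCompact_closedBall (0 : ℝ) (c.de / 2))).image (f := fun q => q.1 + q.2 • c.nu q.1)
    (by have := t.snu.continuous; fun_prop) |>.of_isClosed_subset cT fun x hx =>
      ⟨(c.pr x, c.ta x), ⟨mem_closedBall_zero_iff.2 hx.2.2, mem_closedBall_zero_iff.2 hx.1⟩,
        (ft x hx).2.symm⟩
  have z : ∀ x ∉ T, χ x = 0 := fun x hx => by
    simp only [T, mem_ofPred_eq, not_and_or, not_le] at hx
    rcases hx with a | a | a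
    · simp [χ, h.ker.eh0 _ a.le]
    · simp [χ, st_zero r0 a.le]
    · simp [χ, st_one r1 (x := c.pr x) (by linarith)]
  have z' : ∀ (f : En n → ℂ), ∀ x ∉ T, c.lo f =ᶠ[𝓝 x] 0 := fun f x hx =>
    mem_of_superset (cT.isOpen_compl.mem_nhds hx) fun y hy =>
      (congrArg (· • f (c.pr y)) (z y hy)).trans (zero_smul _ _)
  obtain ⟨C, C0, hC⟩ := dd2_chain hχ t.spr hT
  refine ⟨2 * C, by positivity, fun f hf => ?_⟩
  have hf' := fun x (hx : x ∈ T) => hf _ (ft x hx).1 hx.2.1 hx.2.2
  have s : ContDiff ℝ 2 (c.lo f) := contDiff_iff_contDiffAt.2 fun x => by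
    by_cases hx : x ∈ T
    · exact (hχ.contDiffAt.of_le two_le).smul
        ((hf' x hx).comp x (t.spr.contDiffAt.of_le two_le))
    · exact contDiffAt_const.congr_of_eventuallyEq (z' f x hx)
  have e : ∀ p ∈ c.S, c.r₀ ≤ ‖p‖ → ‖p‖ ≤ c.r + 6 → c.lo f p = f p := fun p hp a b => by
    rw [Core.lo, t.pr_self hp, (t.mem p).1 hp, st_one r0 (by linarith), st_zero r1 b,
      h.ker.eh1 0 (by simpa using (div_pos t.pos four_pos).le)]
    simp
  refine ⟨s, e, fun p hp => ?_, fun A A0 hA x => ?_, fun A A0 hA => ⟨s, fun i j => ?_⟩⟩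
  · rcases le_or_gt ‖p‖ c.r₀ with a | a
    · rw [cm_zero (h.ce0 p hp.1 a).1, cm_zero (h.ce0 p hp.1 a).1]
    rcases le_or_gt (c.r + 3) ‖p‖ with b | b
    · rw [cm_one (h.cc0 p hp.1 b).2, cm_one (h.cc0 p hp.1 b).2]
    have f2 := hf p hp.1 (by linarith) (by linarith)
    have ce2 : ContDiffAt ℝ 2 c.ce p := h.sce.contDiffAt.of_le two_le
    have ev : ∀ᶠ y in 𝓝[c.S] p, f y = c.lo f y := by
      filter_upwards [self_mem_nhdsWithin, mem_nhdsWithin_of_mem_nhds
        (continuous_norm.continuousAt.eventually (Ioo_mem_nhds a b))] with y hy hy'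
      exact (e y hy hy'.1.le (by linarith [hy'.2])).symm
    rw [cm, cm, h.ell.congr hp.1 f2 s.contDiffAt ev, h.ell.congr hp.1
      (f := fun y => c.ce y • f y) (g := fun y => c.ce y • c.lo f y) (ce2.smul f2)
      (ce2.smul s.contDiffAt) (ev.mono fun y hy => by rw [hy])]
  · by_cases hx : x ∈ T
    · rw [Core.lo, norm_smul, ← one_mul A]
      refine mul_le_mul ?_ (hA _ (ft x hx).1 hx.2.1 hx.2.2) (norm_nonneg _) zero_le_one
      rw [norm_mul, norm_mul, Real.norm_of_nonneg st_nonneg,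
        Real.norm_of_nonneg (sub_nonneg.2 st_le_one)]
      exact mul_le_one₀ (mul_le_one₀ st_le_one (sub_nonneg.2 st_le_one)
        (sub_le_self _ st_nonneg)) (norm_nonneg _) (h.ker.ehb _)
    · rwa [(z' f x hx).eq_of_nhds, Pi.zero_apply, norm_zero]
  · have b : ∀ x, ‖dd i (dd j (c.lo f)) x‖ ≤ C * A := fun x => by
      by_cases hx : x ∈ T
      · exact hC f A x hx (hf' x hx) (hA _ (ft x hx).1 hx.2.1 hx.2.2) i j
      · rw [(dd_ev (dd_ev (z' f x hx) j) i).eq_of_nhds, dd_zero, dd_zero, Pi.zero_apply, norm_zero]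
        positivity
    have := mul_nonneg C0 A0
    exact ⟨fun x => by linarith [b x], fun x y => by
      rw [Real.rpow_zero]
      linarith [norm_sub_le (dd i (dd j (c.lo f)) x) (dd i (dd j (c.lo f)) y), b x, b y]⟩

end Vale.Agent.P218H
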