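import Vale.Agent.P218H.Max
import Mathlib.Analysis.Normed.Module.HahnBanach
import Mathlib.MeasureTheory.Function.LocallyIntegrable

/-!
# P218, block LIN: the maximum principle on the strip and the equations on the surface
-/

open scoped NNReal Topology ContDiff
open Filter Set Metric MeasureTheory

noncomputable section

namespace Vale.Agent.P218H

namespace Mp

variable {n k : ℕ} {M : Type} {c : Core n k M}

theorem op_cont {V : Type} [NormedAddCommGroup V] [NormedSpace ℝ V] {a : J1 n → J1 n → En n → ℝ}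
    (ha : ∀ i j, ContDiff ℝ ∞ (a i j)) {f : En n → V} (hf : ContDiff ℝ 2 f) :
    Continuous (op a f) :=
  continuous_finsetSum _ fun i _ => continuous_finsetSum _ fun j _ =>
    (ha i j).continuous.smul (continuous_iff_continuousAt.2 fun _ =>
      (dd_cda (m := 0) (dd_cda1 hf.contDiffAt j) i).continuousAt)

/-- the maximum principle at one point of the surface -/
theorem at_max (h : c.Ok0) {F : En n → ℝ} {p : En n} (hp : p ∈ c.S) (hF : ContDiffAt ℝ 2 F p)
    (h0 : F p = 0) (hm : ∀ᶠ y in 𝓝[c.S] p, F y ≤ 0) : op c.a F p ≤ 0 := by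
  have e := h.tube.pr_self hp
  have hs : ContDiffAt ℝ 2 c.pr p := h.tube.spr.contDiffAt.of_le (by norm_cast)
  have hc : ContDiffAt ℝ 2 (fun y => F (c.pr y)) p := ContDiffAt.comp p (e.symm ▸ hF) hs
  have t : Tendsto c.pr (𝓝 p) (𝓝[c.S] p) := by
    refine tendsto_nhdsWithin_iff.2 ⟨by simpa [e] using hs.continuousAt.tendsto, ?_⟩
    have : |c.ta p| < c.de := by simpa [(h.tube.mem p).1 hp] using h.tube.pos
    exact mem_of_superset ((isOpen_lt h.tube.sta.continuous.abs continuous_const).mem_nhds this)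
      fun y hy => (h.tube.foot y hy).1
  have h1 := op_max (a := c.a) hc ((t.eventually hm).mono fun y hy => by simpa [e, h0] using hy)
    (h.ell.nonneg p hp)
  have h2 := h.ell.int p hp _ (hF.sub hc) (mem_of_superset self_mem_nhdsWithin fun y hy => by
    simp [h.tube.pr_self hy])
  rw [op_sub hF hc] at h2
  rw [e, h0, mul_zero] at h1
  linarith

theorem avg_int (h : c.Ok0) {g : En n → ℂ} (hg : Continuous g) (p : En n) :
    Integrable fun t => c.et t • g (c.pr p + t • c.nu (c.pr p)) := by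
  refine Continuous.integrable_of_hasCompactSupport (h.ker.set.continuous.smul (by fun_prop))
    (HasCompactSupport.intro (isCompact_closedBall 0 (c.de / 4)) fun t ht => ?_)
  rw [h.ker.et0 t (by simpa using (not_le.1 fun h => ht (mem_closedBall_zero_iff.2 h)).le),
    zero_smul]

end Mp

open Mp

/-- **MP** -/
theorem mp : MP := by
  intro n k M c h
  have hK : IsCompact (c.Se ∩ closedBall 0 (c.r + 5)) :=
    (isCompact_closedBall _ _).inter_left h.closed
  have r1 := h.one_le
  have r2 := h.r_le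
  have sm : ContDiff ℝ 2 (st (c.r + 4) : En n → ℝ) :=
    (st_smooth _).of_le (by norm_cast)
  obtain ⟨C, hC⟩ := hK.exists_bound_of_continuousOn h.bar.1.continuous.continuousOn
  obtain ⟨C₁, hC₁⟩ := hK.exists_bound_of_continuousOn (op_cont h.ell.sm sm).continuousOn
  refine ⟨|C|, abs_nonneg _, fun Λ hΛ => ⟨Λ * |C₁|, fun s hs d G H hG hH hd h1 h2 h3 p hp h4 => ?_⟩⟩
  have s0 : 0 ≤ s := le_trans (by positivity) hs
  have m0 : 0 ≤ H / Λ := by positivity
  let Φ : En n → ℝ := fun y => c.φ y + Λ * st (c.r + 4) y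
  have sΦ : ContDiff ℝ 2 Φ := h.bar.1.add (contDiff_const.mul sm)
  have Φ1 : ∀ q ∈ c.Se ∩ closedBall 0 (c.r + 5), 1 + Λ * st (c.r + 4) q ≤ Φ q := fun q hq =>
    add_le_add_left (h.bar.2 q hq.1 (mem_closedBall_zero_iff.1 hq.2)).1 _
  have Φ2 : ∀ q ∈ c.Se ∩ closedBall 0 (c.r + 5), 1 ≤ Φ q := fun q hq =>
    le_trans (le_add_of_nonneg_right (mul_nonneg (by linarith) st_nonneg)) (Φ1 q hq)
  have Φ3 : ∀ q ∈ c.Se ∩ closedBall 0 (c.r + 5), op c.a Φ q - s * c.ka q * Φ q ≤ -1 := by
    intro q hq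
    have e : op c.a Φ q = op c.a c.φ q + Λ * op c.a (st (c.r + 4)) q := by
      rw [op_add h.bar.1.contDiffAt (contDiffAt_const.mul sm.contDiffAt)]
      exact congrArg _ (op_clm (ContinuousLinearMap.mul ℝ ℝ Λ) sm.contDiffAt)
    have b1 := (h.bar.2 q hq.1 (mem_closedBall_zero_iff.1 hq.2)).2
    have b2 := Φ2 q hq
    rcases lt_or_ge ‖q‖ (c.r + 4) with h5 | h5
    · rw [e, op_congr (st_ev_zero (by linarith) h5), op_zero]
      have : 0 ≤ s * c.ka q * Φ q := mul_nonneg (mul_nonneg s0 st_nonneg) (by linarith)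
      linarith
    · have b3 : op c.a (st (c.r + 4)) q ≤ |C₁| :=
        (le_abs_self _).trans ((hC₁ q hq).trans (le_abs_self _))
      rw [e, show c.ka q = 1 from st_one (by linarith) (by linarith)]
      nlinarith [mul_le_mul_of_nonneg_left b3 (show 0 ≤ Λ by linarith)]
  obtain ⟨L, L1, L2⟩ := exists_dual_vector'' ℝ (d p)
  have Lb (z : ℂ) : |L z| ≤ ‖z‖ := (L.le_opNorm z).trans (mul_le_of_le_one_left (norm_nonneg _) L1)
  have pK : p ∈ c.Se ∩ closedBall 0 (c.r + 5) := ⟨hp, mem_closedBall_zero_iff.2 (by linarith)⟩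
  obtain ⟨q, hq, hm⟩ := hK.exists_isMaxOn (f := fun y => L (d y) / Φ y) ⟨p, pK⟩
    ((L.continuous.comp_continuousOn hd).div sΦ.continuous.continuousOn fun y hy => by
      linarith [Φ2 y hy])
  have q1 := Φ2 q hq
  have hle : ∀ y ∈ c.Se ∩ closedBall 0 (c.r + 5), L (d y) - L (d q) / Φ q * Φ y ≤ 0 := fun y hy =>
    sub_nonpos.2 ((div_le_iff₀ (by linarith [Φ2 y hy])).1 (hm hy))
  have key : L (d q) / Φ q ≤ G + H / Λ := by
    by_contra h5
    rw [not_le] at h5
    have h6 := (lt_div_iff₀ (by linarith)).1 h5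
    have h7 := (le_abs_self _).trans (Lb (d q))
    have hB : q ∉ c.B := fun hB => by nlinarith [h2 q hB]
    have hR : ‖q‖ < c.r + 5 := by
      refine lt_of_le_of_ne (mem_closedBall_zero_iff.1 hq.2) fun e => ?_
      have h8 := Φ1 q hq
      rw [st_one (by linarith) (by linarith)] at h8
      have h9 : H / Λ * Λ = H := div_mul_cancel₀ _ (by linarith)
      nlinarith [h3 q hq.1 e]
    obtain ⟨d1, d2⟩ := h1 q ⟨hq.1, hB⟩ hR
    have c1 : ContDiffAt ℝ 2 (fun y => L (d y)) q := L.contDiff.contDiffAt.comp q d1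
    have := at_max h (h.sub hq.1) (c1.sub (contDiffAt_const.mul sΦ.contDiffAt))
      (F := fun y => L (d y) - L (d q) / Φ q * Φ y) (by field_simp; ring) (by
        filter_upwards [h.nhds q ⟨hq.1, hB⟩, mem_nhdsWithin_of_mem_nhds
          (closedBall_mem_nhds_of_mem (mem_ball_zero_iff.2 hR))] with y y1 y2 using hle y ⟨y1, y2⟩)
    rw [op_sub c1 (contDiffAt_const.mul sΦ.contDiffAt), op_clm L d1, show op c.a
      (fun y => L (d q) / Φ q * Φ y) q = L (d q) / Φ q * op c.a Φ q from
        op_clm (ContinuousLinearMap.mul ℝ ℝ _) sΦ.contDiffAt] at this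
    have h8 := (abs_le.1 ((Lb _).trans d2)).1
    rw [map_sub, map_smul, smul_eq_mul] at h8
    have h9 : L (d q) / Φ q * Φ q = L (d q) := div_mul_cancel₀ _ (by linarith)
    have := mul_le_mul_of_nonneg_left (Φ3 q hq) (show 0 ≤ L (d q) / Φ q by linarith)
    have e : L (d q) / Φ q * (s * c.ka q * Φ q) = s * c.ka q * L (d q) := by
      rw [mul_left_comm, h9]
    nlinarith
  have h5 := hle p pK
  have h6 : Φ p ≤ |C| := by
    simp only [Φ, st_zero (show 0 ≤ c.r + 4 by linarith) h4, mul_zero, add_zero]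
    exact (le_abs_self _).trans ((hC p pK).trans (le_abs_self _))
  have h7 := Φ2 p pK
  rw [L2] at h5
  simp only [RCLike.ofReal_real_eq_id, id] at h5
  nlinarith [mul_le_mul_of_nonneg_right key (show 0 ≤ Φ p by linarith)]

/-- **SND** -/
theorem snd (hA : AVG) (hE : EXT) : SND := by
  intro n k M _ c h α β s C δ R hα hR b hb D hD cC TT hS x
  have r1 := h.one_le
  have r2 := h.r_le
  have v2 := f2_cd x.1
  have sm (t : ℝ) : ContDiff ℝ 2 (st t : En n → ℝ) :=
    (st_smooth _).of_le (by norm_cast)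
  have W2 : ContDiff ℝ 2 (c.wf c.et (f2 x.1)) := (contDiff_const.sub (sm _)).smul
    ((hA n k M c h c.et h.ker.set.continuous h.ker.et0).1 _ v2)
  have P1 : ∀ p ∈ c.S, ‖p‖ ≤ c.r + 5 → op c.a (c.wf c.et (f2 x.1)) p
      - (s * c.ka p) • c.wf c.et (f2 x.1) p + cm c.a c.ce (D.ev x.2.1) p
      + ∑ i, x.2.2.1 i * c.b i p - ∑ i, x.2.2.2 i * c.ψ i p
        = - avg c.et c.pr c.nu (TT x).1 p := by
    intro p hp h5
    have w (η : ℝ → ℝ) : c.wf η (f2 x.1) =ᶠ[𝓝 p] avg η c.pr c.nu (f2 x.1) :=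
      (st_ev_zero (c := c.r + 7) (by linarith) (by linarith)).mono fun y hy => by
        simp [Core.wf, hy]
    have c1 := v2.continuous
    have c2 := op_cont hb.sm v2
    have c3 : Continuous (c.ext (D.low c s x)) := by
      have : c.ext (D.low c s x) = fun y => (TT x).1 y - s • f2 x.1 y + op b (f2 x.1) y :=
        funext fun y => by rw [hS.core]; ring
      rw [this]
      exact (((hm_hol (TT x).1).cont hα).sub (c1.const_smul s)).add c2
    have e : avg c.et c.pr c.nu (TT x).1 p = s • avg c.et c.pr c.nu (f2 x.1) p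
        - avg c.et c.pr c.nu (op b (f2 x.1)) p + avg c.et c.pr c.nu (c.ext (D.low c s x)) p := by
      simp only [avg, hS.core, smul_add, smul_sub, smul_comm _ s]
      exact (integral_add (((avg_int h c1 p).smul s).sub (avg_int h c2 p)) (avg_int h c3 p)).trans
        (congrArg (· + _) ((integral_sub ((avg_int h c1 p).smul s) (avg_int h c2 p)).trans
          (congrArg (· - _) (integral_smul s fun t => c.et t • f2 x.1 _))))
    rw [e, (hE n k M c h).2.1 _ p hp h5, hb.comm _ v2 p hp h5, EndD.low, (w _).eq_of_nhds,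
      (w _).eq_of_nhds, op_congr (w _)]
    simp only [Complex.real_smul]
    push_cast
    ring
  have ka0 {p : En n} (hp : ‖p‖ ≤ c.r + 3) : c.ka p = 0 := st_zero (by linarith) hp
  refine ⟨P1, fun p hp h5 => ?_, fun i => (hS.con x i).trans (integral_congr_ae
    (mem_of_superset (compl_mem_ae_iff.2 h.supp) fun p hp => ?_))⟩
  swap
  · rw [compl_compl] at hp
    rcases le_total c.r₀ ‖p‖ with h5 | h5
    · simp [(h.psi i).2 p h5]
    · simp [EndD.uu, (h.ce0 p hp h5).1.self_of_nhds, (h.ce0 p hp h5).2.self_of_nhds]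
  have d1 : ContDiffAt ℝ 2 (fun y => c.cc y • c.wf c.et (f2 x.1) y) p :=
    ((h.scc.of_le (by norm_cast)).smul W2).contDiffAt
  have d2 : ContDiffAt ℝ 2 (fun y => c.ce y • D.ev x.2.1 y) p := by
    rcases le_total ‖p‖ c.r₀ with h6 | h6
    · exact (contDiffAt_const (c := 0)).congr_of_eventuallyEq
        ((h.ce0 p hp h6).1.mono fun y hy => by simp [hy])
    · exact (h.sce.of_le (by norm_cast)).contDiffAt.smul
        (hD.reg _ p (h.far p hp (by linarith)) h5)
  refine ⟨d1.add d2, ?_⟩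
  have z : ∀ y ∈ c.S, c.r + 3 ≤ ‖y‖ → f1 (cC x.1) y = 0 := fun y hy hy' => by
    rw [hS.com]
    exact cm_zero (h.cc0 y hy hy').1
  have e1 : c.ce p • (D.ev' (TT x).2.1 p - (D.ev' (D.T x.2.1) p - op c.a (D.ev x.2.1) p)) =
      c.ce p • (cm c.a c.cc (c.wf c.et (f2 x.1)) p + op c.a (D.ev x.2.1) p) := by
    rcases le_total ‖p‖ c.r₀ with h6 | h6
    · rw [(h.ce0 p hp h6).1.self_of_nhds, zero_smul, zero_smul]
    · rw [hS.ends, map_add, Pi.add_apply, hD.injv _ z p (h.far p hp (by linarith)) h5, hS.com]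
      congr 1
      ring
  have e2 : op c.a (D.uu c x) p = cm c.a c.cc (c.wf c.et (f2 x.1)) p
      + c.cc p • op c.a (c.wf c.et (f2 x.1)) p + cm c.a c.ce (D.ev x.2.1) p
      + c.ce p • op c.a (D.ev x.2.1) p := by
    rw [show op c.a (D.uu c x) p = _ from op_add d1 d2]
    simp only [cm]
    ring
  rw [e1, e2, neg_smul, ← smul_neg]
  have e4 (h6 : c.cc p ≠ 1) (i) : c.b i p = 0 := by_contra fun hb => h6 ((h.bb i).2 p hp hb)
  have e5 (h6 : c.cc p ≠ 1) (i) : c.ψ i p = 0 :=
    (h.psi i).2 p (le_of_not_ge fun h7 => h6 (h.ce0 p hp h7).2.self_of_nhds)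
  rcases le_total ‖p‖ (c.r + 3) with h7 | h7
  · rw [← P1 p hp (by linarith), ka0 h7]
    rcases h.cce p hp with h6 | h6
    · rw [cm_one h6, h6.self_of_nhds]
      simp only [mul_zero, zero_smul, one_smul, zero_add]
      ring
    · rw [cm_one h6, h6.self_of_nhds]
      by_cases h8 : c.cc p = 1
      · rw [h8]
        simp only [mul_zero, zero_smul, one_smul]
        ring
      · simp only [e4 h8, e5 h8, mul_zero, zero_smul, one_smul, Complex.ofReal_zero,
          Finset.sum_const_zero, sub_zero, add_zero]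
        ring
  · have h8 := (h.cc0 p hp h7).1.self_of_nhds
    have h9 : c.cc p ≠ 1 := by rw [h8]; exact zero_ne_one
    simp [e4 h9, e5 h9, h8, cm_one (h.cc0 p hp h7).2, (h.cc0 p hp h7).2.self_of_nhds]

end Vale.Agent.P218H
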