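import Vale.Agent.P218H.Max
import Vale.Agent.P366Z.Lina2

/-! # P218, block LIN: the resolvent on the whole space -/

open scoped Topology ContDiff
open Filter Set Metric
open Vale.Agent.P272.K.LIN (HB ResBd)
open Vale.Agent.P366Z.LinaH

set_option maxSynthPendingDepth 3

noncomputable section

namespace Vale.Agent.P218H

namespace Res

variable {n : ℕ} {b : J1 n → J1 n → En n → ℝ} {α s : ℝ}

theorem real (hb : Amb b) (h0 : 0 < α) (h1 : α < 1) : ∃ C s₀ : ℝ, 0 ≤ C ∧ 1 ≤ s₀ ∧ ∀ s, s₀ ≤ s →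
    ∀ (f : En n → ℝ) (A B : ℝ), 0 ≤ B → HB α f A B → ∃ v : En n → ℝ, ContDiff ℝ 2 v ∧
      ResBd α s C (s ^ (α / 2) * A + B) v ∧ ∀ x, s * v x - op b v x = f x := by
  obtain ⟨R, hR⟩ := hb.out
  have sm : ∀ i j, ContDiff ℝ 1 (b i j) := fun i j => (hb.sm i j).of_le (by simp)
  have R0 : 0 < max R 1 := lt_max_of_lt_right one_pos
  have e1 : ∀ x, max R 1 ≤ ‖x‖ → pa b x = pa (fun i j _ => lapc i j) 0 := fun x hx => by
    simp only [pa, hR x ((le_max_left _ _).trans hx)]
  have ap := ap_univ h0 h1 (a := pa b) (ContDiff.sum fun i _ => ContDiff.sum fun j _ =>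
    (sm _ _).smul contDiff_const) R0 e1 (fun ξ hξ => by
      obtain ⟨y, hy⟩ := DFunLike.ne_iff.1 hξ
      have y0 : 0 < ‖y‖ := norm_pos_iff.2 fun h => hy (by simp [h])
      rw [← e1 ((max R 1 / ‖y‖) • y) (by
        rw [norm_smul, Real.norm_of_nonneg (by positivity), div_mul_cancel₀ _ y0.ne']), pa_sym]
      exact hb.pos _ ξ hξ) fun x ξ hξ => pa_sym (a := b) ξ ▸ hb.pos x ξ hξ
  have hp : Hb α (pb b) := Hb.of_K h0 h1.le (((sm _ _).smul contDiff_const).add
    (ContDiff.sum fun i _ => ((sm _ _).add (sm _ _)).smul contDiff_const))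
    (isCompact_closedBall 0 R) (pb (fun i j _ => lapc i j) 0) fun y hy => by
      simp only [pb, hR y (not_le.1 (mem_closedBall_zero_iff.not.1 hy)).le]
  obtain ⟨C, s₀, hC, hs₀, h⟩ := sys (ι := Unit) h0 ap
    ((Hb.const (ContinuousLinearMap.pi fun _ : Unit => -ContinuousLinearMap.id ℝ ℝ)).comp
      (hp.comp (Hb.const (ContinuousLinearMap.proj ()))))
  refine ⟨C, s₀, hC, hs₀, fun s hs f A B hB hf => ?_⟩
  have s0 : 0 < s := by linarith
  have A0 : 0 ≤ A := (norm_nonneg _).trans (hf.sup 0)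
  have e : A ≤ (s ^ (α / 2) * A + B) * s ^ (-(α / 2)) := by
    rw [add_mul, mul_right_comm, ← Real.rpow_add s0, add_neg_cancel, Real.rpow_zero, one_mul]
    exact le_add_of_nonneg_right (by positivity)
  obtain ⟨v, k1, k2⟩ := h s hs (fun x _ => f x) (s ^ (α / 2) * A + B) (by positivity)
    (hb_pi (by positivity) (by positivity) fun _ =>
      hf.mono' e (le_add_of_nonneg_left (by positivity)))
  refine ⟨v (), (k1 ()).1, (k1 ()).2, fun x => ?_⟩
  rw [op_eq (k1 ()).1.contDiffAt, ← k2 x ()]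
  simp [sub_eq_add_neg, add_assoc, add_comm]

theorem hm_hb {W : Type} [NormedAddCommGroup W] [NormedSpace ℝ W] {g : En n → W} {A B : ℝ}
    (L : W →L[ℝ] ℝ) (hL : ∀ w, ‖L w‖ ≤ ‖w‖) (h : HB α g A B) :
    HM α (fun x => (L (g x) : ℂ)) A B :=
  ⟨fun x => by rw [Complex.norm_real]; exact (hL _).trans (h.sup x), fun x y => by
    rw [← Complex.ofReal_sub, Complex.norm_real, ← map_sub, dist_eq_norm]
    exact (hL _).trans (h.hol x y)⟩

theorem norm_ee (i : Fin n) : ‖ee i‖ = 1 := by simp [ee]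

theorem rb {C N : ℝ} {v : En n → ℝ} (hv : ContDiff ℝ 2 v) (h : ResBd α s C N v) :
    RB α s (C * N) fun x => (v x : ℂ) := by
  refine ⟨hm_hb (ContinuousLinearMap.id ℝ ℝ) (fun _ => le_rfl) h.zero, fun i => ?_, fun i j => ?_⟩
  · rw [show dd (some i) (fun x => (v x : ℂ)) = _ from funext fun x =>
      dd_clm Complex.ofRealCLM (hv.differentiable two_ne_zero x) (some i)]
    exact hm_hb (ContinuousLinearMap.apply ℝ ℝ (ee i))
      (fun w => w.unit_le_opNorm _ (norm_ee i).le) h.one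
  · rw [show dd (some i) (dd (some j) fun x => (v x : ℂ)) = _ from funext fun x =>
      (dd2_clm Complex.ofRealCLM hv.contDiffAt (some i) (some j)).trans
        (congrArg _ (dd_dd hv.contDiffAt i j))]
    exact hm_hb ((ContinuousLinearMap.apply ℝ ℝ (ee j)).comp
      (ContinuousLinearMap.apply ℝ (En n →L[ℝ] ℝ) (ee i))) (fun w =>
        ((w (ee i)).unit_le_opNorm _ (norm_ee j).le).trans (w.unit_le_opNorm _ (norm_ee i).le))
      h.two

theorem hm_I {f g : En n → ℂ} {A B : ℝ} (hf : HM α f A B) (hg : HM α g A B) :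
    HM α (f + Complex.I • g) (2 * A) (2 * B) :=
  (hf.add (hg.cmul Complex.I)).mono (by simp [two_mul]) (by simp [two_mul])

theorem rb_I {N : ℝ} {v w : En n → ℂ} (hv : ContDiff ℝ 2 v) (hw : ContDiff ℝ 2 w)
    (h : RB α s N v) (h' : RB α s N w) : RB α s (2 * N) (v + Complex.I • w) := by
  have e : ∀ (v w : En n → ℂ) i, Differentiable ℝ v → Differentiable ℝ w →
      dd i (v + Complex.I • w) = dd i v + Complex.I • dd i w := fun v w i hv hw => by
    rw [dd_add hv (hw.const_smul _), dd_smul hw]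
  have d1 := hv.differentiable two_ne_zero
  have d2 := hw.differentiable two_ne_zero
  refine ⟨?_, fun i => ?_, fun i j => ?_⟩
  · simpa only [mul_assoc] using hm_I h.zero h'.zero
  · simpa only [mul_assoc, e v w _ d1 d2] using hm_I (h.one i) (h'.one i)
  · rw [e v w _ d1 d2, e _ _ _ ((dd_cd hv _).differentiable one_ne_zero)
      ((dd_cd hw _).differentiable one_ne_zero)]
    simpa only [mul_assoc] using hm_I (h.two i j) (h'.two i j)

theorem bdd {g : En n → ℝ} (hg : Continuous g) {R c : ℝ} (h : ∀ x, R ≤ ‖x‖ → g x = c) :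
    ∃ K, 0 ≤ K ∧ ∀ x, g x ≤ K := by
  obtain ⟨K, hK⟩ := (isCompact_closedBall (0 : En n) R).bddAbove_image hg.continuousOn
  refine ⟨max 0 (max K c), le_max_left _ _, fun x => le_max_of_le_right ?_⟩
  rcases le_total R ‖x‖ with k | k
  · exact le_max_of_le_right (h x k).le
  · exact le_max_of_le_left (hK ⟨x, mem_closedBall_zero_iff.2 k, rfl⟩)

theorem uniq (hb : Amb b) : ∃ K : ℝ, ∀ s, K < s → ∀ v : En n → ℝ, ContDiff ℝ 2 v →
    (∃ A, ∀ x, v x ≤ A) → (∀ x, s * v x - op b v x = 0) → ∀ x, v x ≤ 0 := by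
  obtain ⟨R, hR⟩ := hb.out
  set w : En n → ℝ := fun x => 1 + ‖x‖ ^ 2 with hw
  have ws : ContDiff ℝ ∞ w := contDiff_const.add (contDiff_norm_sq ℝ)
  have w2 : ContDiff ℝ 2 w := ws.of_le (WithTop.coe_le_coe.2 le_top : ((2 : ℕ∞) : WithTop ℕ∞) ≤ ∞)
  have w1 : ∀ x, 1 ≤ w x := fun x => le_add_of_nonneg_right (sq_nonneg _)
  have d1 : ∀ j, dd (some j) w = fun x => (2 • innerSL ℝ (ee j)) x := fun j => funext fun x => by
    simp only [dd, hw, fderiv_const_add, fderiv_norm_sq_apply]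
    simp [real_inner_comm]
  obtain ⟨K₁, k1, hK₁⟩ := bdd (hb.sm none none).continuous fun x hx => hR x hx none none
  obtain ⟨K₂, k2, hK₂⟩ := bdd (g := op b w) (R := R) (c := op (fun i j _ => lapc i j) w 0)
    (continuous_finsetSum _ fun i _ => continuous_finsetSum _ fun j _ =>
      (hb.sm i j).continuous.smul (dd_smooth (dd_smooth ws j) i).continuous) fun x hx => by
    simp only [op, hR x hx, Fintype.sum_option, lapc, zero_smul, d1]
    simp only [dd, ContinuousLinearMap.fderiv]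
  refine ⟨K₁ + K₂, fun s hs v hv ⟨A, hA⟩ he x₀ => not_lt.1 fun h0 => ?_⟩
  set ε := v x₀ / (2 * w x₀) with hε
  have w0 : 0 < w x₀ := one_pos.trans_le (w1 _)
  have ε0 : 0 < ε := by positivity
  have u2 : ContDiff ℝ 2 fun x => v x - ε * w x := hv.sub (contDiff_const.mul w2)
  obtain ⟨x, hx⟩ := u2.continuous.exists_forall_ge (tendsto_atBot_mono
    (fun x => sub_le_sub_right (hA x) _) (tendsto_atBot_add_const_left _ A
      (tendsto_neg_atTop_atBot.comp (Tendsto.const_mul_atTop ε0 (tendsto_atTop_add_const_left _ 1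
        ((tendsto_pow_atTop two_ne_zero).comp tendsto_norm_cocompact_atTop))))))
  have p1 : 0 < v x - ε * w x := by
    refine lt_of_lt_of_le ?_ (hx x₀)
    rw [hε]
    field_simp
    linarith
  have p2 := op_max (a := b) u2.contDiffAt (.of_forall hx : IsLocalMax _ x) fun ξ => by
    rcases eq_or_ne ξ 0 with rfl | h
    · simp [sym]
    · exact (hb.pos x ξ h).le
  have p3 : op b (fun x => ε * w x) x = ε * op b w x :=
    op_clm (ContinuousLinearMap.mul ℝ ℝ ε) w2.contDiffAt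
  rw [op_sub hv.contDiffAt (contDiff_const.mul w2).contDiffAt, p3] at p2
  have p4 := mul_le_mul_of_nonneg_right ((hK₁ x).trans (le_add_of_nonneg_right k2)) p1.le
  have p5 : op b w x ≤ (K₁ + K₂) * w x := by nlinarith [hK₂ x, w1 x]
  have p6 : 0 < v x := by nlinarith [w1 x]
  nlinarith [he x, mul_le_mul_of_nonneg_left p5 ε0.le, mul_pos (sub_pos.2 hs) p6]

end Res

open Res in
/-- **RES** -/
theorem res : RES := by
  intro n b α hb h0 h1
  obtain ⟨C, s₀, hC, hs₀, h⟩ := real hb h0 h1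
  obtain ⟨K, hK⟩ := uniq hb
  refine ⟨2 * C, max s₀ (K + 1), by positivity, le_max_of_le_left hs₀, fun s hs =>
    ⟨fun f A B hB hf => ?_, fun v hv ⟨A, hA⟩ he => ?_⟩⟩
  · have k : ∀ L : ℂ →L[ℝ] ℝ, (∀ z, ‖L z‖ ≤ ‖z‖) → HB α (fun x => L (f x)) A B := fun L hL =>
      ⟨fun x => (hL _).trans (hf.sup x), fun x y => by
        rw [← map_sub, ← dist_eq_norm x]
        exact (hL _).trans (hf.hol x y)⟩
    obtain ⟨v, v1, v2, v3⟩ := h s ((le_max_left _ _).trans hs) _ A B hB
      (k Complex.reCLM Complex.abs_re_le_norm)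
    obtain ⟨w, w1, w2, w3⟩ := h s ((le_max_left _ _).trans hs) _ A B hB
      (k Complex.imCLM Complex.abs_im_le_norm)
    have cv : ContDiff ℝ 2 fun x => (v x : ℂ) := Complex.ofRealCLM.contDiff.comp v1
    have cw : ContDiff ℝ 2 fun x => (w x : ℂ) := Complex.ofRealCLM.contDiff.comp w1
    refine ⟨_, cv.add (cw.const_smul Complex.I), mul_assoc 2 C _ ▸ rb_I cv cw (rb v1 v2) (rb w1 w2),
      fun x => ?_⟩
    have e1 : op b (fun x => (v x : ℂ)) x = (op b v x : ℝ) := op_clm Complex.ofRealCLM v1.contDiffAt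
    have e2 : op b (fun x => (w x : ℂ)) x = (op b w x : ℝ) := op_clm Complex.ofRealCLM w1.contDiffAt
    have e3 := op_add (a := b) (x := x) cv.contDiffAt (contDiff_const.mul cw).contDiffAt
      (g := fun x => Complex.I * w x)
    rw [op_cmul cw.contDiffAt, e1, e2] at e3
    change s • ((v x : ℂ) + Complex.I * w x) - op b (fun x => (v x : ℂ) + Complex.I * w x) x = _
    rw [e3]
    apply Complex.ext
    · simpa using v3 x
    · simpa using w3 x
  · have k : ∀ L : ℂ →L[ℝ] ℝ, ∀ x, L (v x) ≤ 0 := fun L =>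
      hK s ((lt_add_one K).trans_le ((le_max_right _ _).trans hs)) _ (L.contDiff.comp hv)
        ⟨‖L‖ * A, fun x => (le_abs_self _).trans (L.le_opNorm_of_le (hA x))⟩ fun x => by
          have := congrArg L (he x)
          rwa [map_sub, map_smul, map_zero, ← op_clm L hv.contDiffAt] at this
    funext x
    exact Complex.ext (le_antisymm (k Complex.reCLM x) (neg_nonpos.1 (k (-Complex.reCLM) x)))
      (le_antisymm (k Complex.imCLM x) (neg_nonpos.1 (k (-Complex.imCLM) x)))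

end Vale.Agent.P218H
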