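import Vale.Agent.P218H.Sys0
import Mathlib.Analysis.Normed.Operator.Compact.FredholmAlternative

/-!
# P218, block LIN: rows SYS and LIN (helper39)
-/

open scoped NNReal Topology ContDiff
open Filter Set Metric MeasureTheory
open Vale.Agent.P272.K.LIN (Hol)

noncomputable section

namespace Vale.Agent.P218H

section fred
variable {E F G : Type} [NormedAddCommGroup E] [NormedSpace ℂ E] [NormedAddCommGroup F]
  [NormedSpace ℂ F] [NormedAddCommGroup G] [NormedSpace ℂ G]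

/-- a bijection as an equivalence -/
theorem ex_cle [CompleteSpace E] [CompleteSpace F] (B : E →L[ℂ] F) (h : Function.Bijective B) :
    ∃ e : E ≃L[ℂ] F, (e : E →L[ℂ] F) = B :=
  ⟨ContinuousLinearEquiv.ofBijective B (LinearMap.ker_eq_bot.2 h.1) (LinearMap.range_eq_top.2 h.2),
    ContinuousLinearEquiv.coe_ofBijective _ _ _⟩

/-- the Fredholm alternative for compact perturbations of isomorphisms -/
theorem fred [CompleteSpace E] [CompleteSpace F] {B K : E →L[ℂ] F} (hB : Function.Bijective B)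
    (hK : IsCompactOperator K) (h : Function.Injective (B + K)) : Function.Surjective (B + K) := by
  obtain ⟨e, rfl⟩ := ex_cle B hB
  have hS : IsCompactOperator ((e.symm : F →L[ℂ] E) ∘L K) := hK.clm_comp (e.symm : F →L[ℂ] E)
  rcases hS.hasEigenvalue_or_mem_resolventSet (μ := -1) (by norm_num) with h1 | h1
  · obtain ⟨x, hx⟩ := h1.exists_hasEigenvector
    refine absurd (h (a₂ := 0) ?_) hx.2
    have h2 : e.symm (K x) = (-1 : ℂ) • x := hx.apply_eq_smul
    rw [ContinuousLinearEquiv.symm_apply_eq] at h2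
    simp [h2]
  · intro y
    obtain ⟨x, hx⟩ := (ContinuousLinearMap.isUnit_iff_bijective.1 h1).2 (-e.symm y)
    refine ⟨x, ?_⟩
    have h2 : -x - e.symm (K x) = -e.symm y := by simpa [Algebra.algebraMap_eq_smul_one] using hx
    have h3 := congrArg e h2
    simp only [map_sub, map_neg, ContinuousLinearEquiv.apply_symm_apply] at h3
    show e x + K x = y
    rw [← neg_inj, ← h3, neg_add, sub_eq_add_neg]

theorem cpt_prod {K : E →L[ℂ] F} {K' : E →L[ℂ] G} (h : IsCompactOperator K)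
    (h' : IsCompactOperator K') : IsCompactOperator (K.prod K') := by
  have e : ⇑(K.prod K') = ContinuousLinearMap.inl ℂ F G ∘ K + ContinuousLinearMap.inr ℂ F G ∘ K' :=
    funext fun x => by simp
  rw [e]
  exact (h.clm_comp _).add (h'.clm_comp _)

end fred

variable {n k : ℕ} {M : Type} {c : Core n k M} {X : Type} [NormedAddCommGroup X] [NormedSpace ℂ X]

theorem H0.int {T : X → En n → ℂ} (h : H0 1 T) {ψ : En n → ℝ} {R : ℝ} (hψ : Continuous ψ)
    (hR : ∀ x, R ≤ ‖x‖ → ψ x = 0) (ν : Measure (En n)) [IsFiniteMeasureOnCompacts ν] :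
    ∃ l : X →L[ℂ] ℂ, ∀ x, l x = ∫ p, T x p * ψ p ∂ν := by
  obtain ⟨l, C, hC, h⟩ := h
  have hc : HasCompactSupport fun p => (ψ p : ℂ) :=
    HasCompactSupport.intro (isCompact_closedBall 0 R) fun x hx => by
      rw [hR x (by simpa using (not_le.1 (mt mem_closedBall_zero_iff.2 hx)).le), Complex.ofReal_zero]
  have h1 : Continuous fun p => (ψ p : ℂ) := Complex.continuous_ofReal.comp hψ
  have i : ∀ x, Integrable (fun p => T x p * ψ p) ν := fun x =>
    (((h x).cont one_pos).mul h1).integrable_of_hasCompactSupport hc.mul_left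
  let L : X →ₗ[ℂ] ℂ :=
    { toFun := fun x => ∫ p, T x p * ψ p ∂ν
      map_add' := fun x x' => by simp only [l.add, Pi.add_apply, add_mul, integral_add (i x) (i x')]
      map_smul' := fun a x => by
        simp only [l.smul, Pi.smul_apply, smul_eq_mul, mul_assoc, integral_const_mul,
          RingHom.id_apply] }
  refine ⟨L.mkContinuous (C * ∫ p, ‖(ψ p : ℂ)‖ ∂ν) fun x => ?_, fun _ => rfl⟩
  rw [mul_right_comm, ← integral_const_mul]
  exact norm_integral_le_of_norm_le ((h1.integrable_of_hasCompactSupport hc).norm.const_mul _)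
    (.of_forall fun p => (norm_mul_le _ _).trans
      (mul_le_mul_of_nonneg_right ((h x).sup p) (norm_nonneg _)))

theorem h2_lo [Fintype M] (loc : LOC) (hc : c.Ok0) {β C δ R : ℝ} (hR : c.r + 8 ≤ R)
    {D : EndD n M β} (hD : D.Ok c C δ R) : H2 0 (fun w => c.lo (D.ev w)) ∧
      ∀ w, ∀ p ∈ c.K, cm c.a c.ce (D.ev w) p = cm c.a c.ce (c.lo (D.ev w)) p := by
  obtain ⟨C', hC', h⟩ := loc n k M c hc
  have h1 := fun w => h (D.ev w) fun q hq h1 h2 => hD.reg w q (hc.far q hq h1) (by linarith)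
  have h2 := hc.one_le.trans hc.r_le
  refine ⟨⟨Ln.pull ⟨D.ev.map_add, D.ev.map_smul⟩ _ _, C' * (|C| * (1 + (c.r + 7)) ^ c.N),
    by positivity, fun w => ?_⟩, fun w => (h1 w).2.2.1⟩
  rw [mul_assoc]
  refine (h1 w).2.2.2.2 _ (by positivity) fun q hq h3 h4 i j =>
    (hD.jet w q hq h3 (by linarith) i j).trans ?_
  gcongr
  exact le_abs_self C

theorem RB.b2 {α s N : ℝ} {v : En n → ℂ} (h : RB α s N v) (hv : ContDiff ℝ 2 v) :
    ∃ A, B2 α v A := by
  refine ⟨max (max (max (N * s ^ (-(1 + α / 2))) (N * s ^ (-1 : ℝ)))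
    (max (N * s ^ (-((1 + α) / 2))) (N * s ^ (-(1 / 2) : ℝ)))) (max (N * s ^ (-(α / 2))) N),
    hv, fun i j => ?_⟩
  rcases i with _ | i <;> rcases j with _ | j
  · exact h.zero.mono (by simp) (by simp)
  · exact (h.one j).mono (by simp) (by simp)
  · exact (h.one i).mono (by simp) (by simp)
  · exact (h.two i j).mono (by simp) (by simp)

theorem h2_wf (av : AVG) (hc : c.Ok0) {α : ℝ} (h0 : 0 ≤ α) (h1 : α ≤ 1) :
    H2 α (fun v : C2a n α => c.wf c.et (f2 v)) ∧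
      H2 α fun v : C2a n α => c.wf (deriv (deriv c.et)) (f2 v) :=
  ⟨h2_f2.wf av hc h0 h1 hc.ker.set.continuous hc.ker.et0,
    h2_f2.wf av hc h0 h1 (hc.ker.two hc.tube.pos).1 (hc.ker.two hc.tube.pos).2⟩

theorem ex_cC (aa : AA) (cmf : CMF) (mul : MUL) (av : AVG) (hc : c.Ok0) {α β : ℝ} (hβ : 0 ≤ β)
    (hβα : β < α) (hα : α ≤ 1) : ∃ cC : C2a n α →L[ℂ] C1a n β, IsCompactOperator cC ∧
      ∀ v, f1 (cC v) = cm c.a c.cc (c.wf c.et (f2 v)) := by
  have h0 : 0 ≤ α := hβ.trans hβα.le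
  have hr := hc.one_le.trans hc.r_le
  have cc0 : ∀ (v : En n → ℂ) (x : En n), c.r + 9 ≤ ‖x‖ → cm c.a c.cc (c.wf c.et v) x = 0 :=
    fun v x hx => cm_nil ((st_ev_one (c := c.r + 7) (by linarith) (by linarith)).mono
      fun y hy => by rw [Core.wf, hy, sub_self, zero_smul])
  have hcm : H1 α fun v : C2a n α => cm c.a c.cc (c.wf c.et (f2 v)) := by
    refine (congrArg (H1 α) (funext fun v => funext fun y => ?_)).mp
      ((h2_wf av hc h0 hα).1.cm cmf mul h0 hα hc.ell.sm hc.scc (R := c.r + 9) (by linarith))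
    rcases le_total ‖y‖ (c.r + 9) with e | e
    · rw [st_zero (by linarith) e, sub_zero, one_smul]
    · rw [cc0 _ y e, smul_zero]
  obtain ⟨l1, C1, hC1, hb1⟩ := hcm.low hβ hβα.le
  obtain ⟨cC, -, hcC⟩ := ex_L1 _ l1.add l1.smul hC1 hb1
  obtain ⟨-, C, -, h⟩ := hcm
  exact ⟨cC, (aa _ α β C hβ hβα).2 n (c.r + 9) cC
    (fun x y hy => by rw [hcC, cc0 _ y hy]) fun x => hcC x ▸ h x, hcC⟩

theorem ex_P (mul : MUL) (res : RES) {b : J1 n → J1 n → En n → ℝ} (hb : Amb b) {α : ℝ}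
    (h0 : 0 < α) (hα : α < 1) : ∃ s₀ : ℝ, ∀ s, s₀ ≤ s → ∃ P : C2a n α →L[ℂ] HH α (En n),
      Function.Bijective P ∧ ∀ v y, P v y = s • f2 v y - op b (f2 v) y := by
  obtain ⟨Cr, s₀, -, -, hres⟩ := res n b α hb h0 hα
  refine ⟨s₀, fun s hs => ?_⟩
  have t0 : H2 α (f2 : C2a n α → En n → ℂ) := h2_f2
  have t1 : H0 α (f2 : C2a n α → En n → ℂ) := (t0.dd none).dd none
  have t := (t1.cmul s).sub (t0.op mul h0.le hα.le hb)
  obtain ⟨l2, C2, hC2, hb2⟩ := t
  obtain ⟨P, -, hP⟩ := ex_L0 _ l2.add l2.smul hC2 hb2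
  simp only [← Complex.real_smul] at hP
  refine ⟨P, ⟨(injective_iff_map_eq_zero P).2 fun v hv => f2_ext ?_, fun f => ?_⟩, hP⟩
  · exact (hres s hs).2 _ (f2_cd v) ⟨_, ((b2_f2 v).2 none none).sup⟩ fun x => by
      rw [← hP, hv, Hol.zero_apply]
  obtain ⟨v, h1, h2, h3⟩ := (hres s hs).1 f _ _ (norm_nonneg _) (hm_hol f)
  obtain ⟨A, hA⟩ := h2.b2 h1
  obtain ⟨V, rfl⟩ := hA.ex
  exact ⟨V, Hol.ext fun x => (hP V x).trans (h3 x)⟩

open ContinuousLinearMap in
theorem h0_low [Fintype M] (cmf : CMF) (mul : MUL) (av : AVG) (ex : EXT) (loc : LOC) (hc : c.Ok0)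
    {α β C δ R : ℝ} (h0 : 0 ≤ α) (hα : α ≤ 1) (hR : c.r + 8 ≤ R) {D : EndD n M β}
    (hD : D.Ok c C δ R) (s : ℝ) : H0 1 fun x : D.XX α k => c.ext (D.low c s x) := by
  have hr := hc.one_le.trans hc.r_le
  obtain ⟨W, W'⟩ := h2_wf av hc h0 hα
  obtain ⟨lo1, lo2⟩ := h2_lo loc hc hR hD
  have t1 := (W'.lip mul).comp (fst ℂ _ (D.X × (M → ℂ) × (Fin k → ℂ)))
  have t2 := ((W.lip mul).comp (fst ℂ _ (D.X × (M → ℂ) × (Fin k → ℂ)))).cut mul zero_le_one
    le_rfl (χ := fun p => s * (1 - c.ka p)) (R := c.r + 4) (κ := 0)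
    (contDiff_const.mul (contDiff_const.sub (st_smooth _))) fun x hx => by
      rw [Core.ka, st_one (by linarith) (by linarith), sub_self, mul_zero]
  have t3 := ((lo1.cm cmf mul le_rfl zero_le_one hc.ell.sm hc.sce (R := c.r + 6)
    (by linarith)).lip mul).comp (fst ℂ _ ((M → ℂ) × (Fin k → ℂ)) ∘L snd ℂ (C2a n α) _)
  have t4 := H0.sum Finset.univ fun i => H0.fix (X := D.XX α k) (R := c.r + 6 + 1)
    (g := fun p => (1 - st (c.r + 6) p) • c.b i p) mul
    (((contDiff_const.sub (st_smooth _)).of_le (by simp)).smul (hc.bb i).1)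
    (fun x hx => by rw [st_one (by linarith) hx, sub_self, zero_smul])
    (proj i ∘L fst ℂ _ _ ∘L snd ℂ _ _ ∘L snd ℂ _ _)
  have t5 := H0.sum Finset.univ fun i => H0.fix (X := D.XX α k) (g := fun p => (c.ψ i p : ℂ)) mul
    (Complex.ofRealCLM.contDiff.comp (hc.psi i).1)
    (fun x hx => by rw [(hc.psi i).2 x hx, Complex.ofReal_zero])
    (proj i ∘L snd ℂ _ _ ∘L snd ℂ _ _ ∘L snd ℂ _ _)
  have t6 := ((((t1.sub t2).sub t3).sub t4).add t5).ext ex hc zero_le_one le_rfl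
  refine (congrArg (H0 1) (funext fun x => (ex n k M c hc).2.2.1 _ _ fun p hp => ?_)).mp t6
  rw [EndD.low, lo2 _ p hp]
  simp only [st_zero (by linarith) (mem_closedBall_zero_iff.1 hp.2), sub_zero, one_smul]
  rfl

open ContinuousLinearMap in
/-- **row SYS** -/
theorem sys (cmp : CMP) (aa : AA) (cmf : CMF) (mul : MUL) (av : AVG) (ex : EXT) (loc : LOC)
    (res : RES) : SYS := by
  intro n k M _ c hc α β hβ hβα hα b hb
  have h0 : 0 < α := hβ.trans hβα
  haveI := hc.fin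
  haveI : CompleteSpace (C2a n α) := (cmp n α).2.completeSpace_coe
  obtain ⟨s₀, hP⟩ := ex_P mul res hb.toAmb h0 hα
  refine ⟨s₀, fun s hs => ?_⟩
  obtain ⟨P, bP, hP⟩ := hP s hs
  obtain ⟨cC, kC, hcC⟩ := ex_cC aa cmf mul av hc hβ.le hβα hα.le
  refine ⟨cC, fun C δ R hR D hD => ?_⟩
  have t6 := h0_low cmf mul av ex loc hc h0.le hα.le hR hD s
  obtain ⟨l3, C3, hC3, hb3⟩ := t6.low h0.le hα.le
  obtain ⟨K1, -, hK1⟩ := ex_L0 _ l3.add l3.smul hC3 hb3
  have k1 : IsCompactOperator K1 := by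
    obtain ⟨-, C, -, h⟩ := t6
    obtain ⟨R', hR'⟩ := (ex n k M c hc).1
    refine (aa _ 1 α C h0.le hα).1 _ _ (isCompact_closedBall 0 R') K1 (fun x y hy => ?_)
      fun x => (funext (hK1 x)).symm ▸ h x
    rw [hK1, hR' _ y (by simpa using (not_le.1 (mt mem_closedBall_zero_iff.2 hy)).le)]
  choose K4 hK4 using fun i => ((h2_wf av hc h0.le hα.le).1.lip mul).int (hc.psi i).1.continuous
    (hc.psi i).2 c.ν
  have bT : Function.Bijective D.T := ⟨(injective_iff_map_eq_zero D.T).2 fun v hv =>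
    norm_le_zero_iff.1 (by simpa [hv] using hD.apr v), hD.surj⟩
  let K3 : D.XX α k →L[ℂ] (M → ℂ) × (Fin k → ℂ) :=
    (D.γ ∘L fst ℂ _ _ ∘L snd ℂ _ _ + LinearMap.toContinuousLinearMap c.Mm ∘L fst ℂ _ _ ∘L
      snd ℂ _ _ ∘L snd ℂ _ _).prod (pi K4 ∘L fst ℂ _ _) - snd ℂ _ _ ∘L snd ℂ _ _
  have k2 : IsCompactOperator (D.inj ∘L cC ∘L fst ℂ _ (D.X × (M → ℂ) × (Fin k → ℂ))) :=
    (kC.comp_clm (fst ℂ _ _)).clm_comp D.inj
  refine ⟨P.prodMap (D.T.prodMap 1) + K1.prod ((D.inj ∘L cC ∘L fst ℂ _ _).prod K3),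
    ⟨hcC, fun x y => ?_, fun x => rfl, fun x => add_sub_cancel _ _, fun x i => ?_⟩,
    fred (bP.prodMap (bT.prodMap Function.bijective_id)) (cpt_prod k1 (cpt_prod k2
      (isCompactOperator_of_locallyCompactSpace_dom K3)))⟩
  · rw [← hP, ← hK1]
    rfl
  · exact (add_sub_cancel _ _).trans (hK4 i x.1)

/-- **the theorem of the block** -/
theorem lin (cmp : CMP) (amb : AMB) (con : CON) (sys : SYS) : LIN := by
  intro n k M _ c hc α β C hβ hβα hα
  haveI : CompleteSpace (C2a n α) := (cmp n α).2.completeSpace_coe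
  obtain ⟨b, hb⟩ := amb n k M c hc.toOk0
  obtain ⟨s₁, h1⟩ := con n k M c hc α β C hβ hβα hα b hb
  obtain ⟨s₂, h2⟩ := sys n k M c hc.toOk0 α β hβ hβα hα b hb
  obtain ⟨C', δ, R₀, hδ, hR₀, h1⟩ := h1 _ (le_max_left s₁ s₂)
  obtain ⟨cC, h2⟩ := h2 _ (le_max_right s₁ s₂)
  refine ⟨b, max s₁ s₂, cC, C', δ, R₀, hb, hδ, hR₀, fun R hR D hD => ?_⟩
  obtain ⟨TT, h3, h4⟩ := h2 C δ R (hR₀.trans hR) D hD
  have h5 := h1 R hR D hD cC TT h3
  have h6 : Function.Injective TT := (injective_iff_map_eq_zero TT).2 fun v hv =>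
    norm_le_zero_iff.1 (by simpa [hv] using h5 v)
  obtain ⟨e, rfl⟩ := ex_cle TT ⟨h6, h4 h6⟩
  exact ⟨e, h3, fun y => by simpa using h5 (e.symm y)⟩

end Vale.Agent.P218H
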