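import Vale.Agent.P218H.Aa
import Vale.Agent.P218H.Amb
import Vale.Agent.P218H.Apr1
import Vale.Agent.P218H.Cona
import Vale.Agent.P218H.Ext
import Vale.Agent.P218H.Kit
import Vale.Agent.P218H.Loc
import Vale.Agent.P218H.Mp
import Vale.Agent.P218H.Res
import Vale.Agent.P218H.Sys

/-!
# P218, blocks HSP and LIN: the rows without hypotheses
-/

namespace Vale.Agent.P218H

theorem kit' : KIT := kit mul avg_row ext' (loc mul)

theorem snd' : SND := snd avg_row ext'

theorem con' : CON :=
  con avg_row snd' (apr avg_row mp snd' (apr1 avg_row ext' (loc mul) res))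

theorem lin' : LIN :=
  lin cmp amb con' (sys cmp (aa cmp) cmf mul avg_row ext' (loc mul) res)

end Vale.Agent.P218H
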