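import Vale.Agent.P218H.Basic
import Mathlib.MeasureTheory.Integral.IntegralEqImproper
import Mathlib.Analysis.Calculus.ParametricIntegral

/-!
# P218, block LIN: calculus for the ambient operator
-/

open scoped NNReal Topology ContDiff
open Filter Set Metric MeasureTheory Function

noncomputable section

namespace Vale.Agent.P218H.AmbL

variable {n : ℕ} {V : Type} [NormedAddCommGroup V] [NormedSpace ℝ V]

theorem clm_sum (L : En n →L[ℝ] V) (v : En n) : L v = ∑ l, v l • L (ee l) := by
  have h : v = ∑ l, v l • (ee l : En n) := by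
    ext j
    simp [ee, Pi.single_apply]
  conv_lhs => rw [h]
  simp

theorem clm_ext {L : En n →L[ℝ] V} (h : ∀ l, L (ee l) = 0) : L = 0 := by
  ext v
  rw [clm_sum]
  simp [h]

/-- jets of functions with a parameter -/
theorem cd_dd {m : WithTop ℕ∞} {F : ℝ → En n → V} (h : ContDiff ℝ (m + 1) (uncurry F))
    (I : J1 n) : ContDiff ℝ m (uncurry fun t => dd I (F t)) := by
  cases I with
  | none => exact h.of_le le_self_add
  | some i =>
    have h1 : ContDiff ℝ (m + 1) (uncurry fun (q : ℝ × En n) (y : En n) => F q.1 y) :=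
      h.comp (contDiff_fst.fst.prodMk contDiff_snd)
    exact (h1.fderiv contDiff_snd le_rfl).clm_apply contDiff_const

/-- differentiation under the integral sign -/
theorem dd_int [CompleteSpace V] {F : ℝ → En n → V} (h : ContDiff ℝ 1 (uncurry F)) {η : ℝ → ℝ}
    (hη : Continuous η) (hs : HasCompactSupport η) (I : J1 n) :
    dd I (fun x => ∫ t, η t • F t x) = fun x => ∫ t, η t • dd I (F t) x := by
  cases I with
  | none => rfl
  | some i =>
    funext x₀
    have h1 : ContDiff ℝ 1 (uncurry fun (q : ℝ × En n) (y : En n) => F q.1 y) :=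
      h.comp (contDiff_fst.fst.prodMk contDiff_snd)
    have hc : Continuous fun q : ℝ × En n => fderiv ℝ (F q.1) q.2 :=
      (h1.fderiv (n := 0) contDiff_snd (by norm_num)).continuous
    obtain ⟨C, hC⟩ := (hs.isCompact.prod (isCompact_closedBall x₀ 1)).exists_bound_of_continuousOn
      hc.continuousOn
    have c1 : ∀ x, Continuous fun t => η t • F t x := fun x =>
      hη.smul (h.continuous.comp (continuous_id.prodMk continuous_const))
    have c2 : ∀ x, Continuous fun t => η t • fderiv ℝ (F t) x := fun x =>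
      hη.smul (hc.comp (continuous_id.prodMk continuous_const))
    have hd := hasFDerivAt_integral_of_dominated_of_fderiv_le (𝕜 := ℝ) (μ := volume)
      (F := fun x t => η t • F t x) (F' := fun x t => η t • fderiv ℝ (F t) x)
      (bound := fun t => ‖η t‖ * C) (closedBall_mem_nhds x₀ one_pos)
      (Eventually.of_forall fun x => (c1 x).aestronglyMeasurable)
      ((c1 x₀).integrable_of_hasCompactSupport hs.smul_right) (c2 x₀).aestronglyMeasurable
      (Eventually.of_forall fun t x hx => by
        rw [norm_smul]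
        by_cases ht : t ∈ tsupport η
        · exact mul_le_mul_of_nonneg_left (hC (t, x) ⟨ht, hx⟩) (norm_nonneg _)
        · simp [image_eq_zero_of_notMem_tsupport ht])
      ((hη.norm.mul continuous_const).integrable_of_hasCompactSupport hs.norm.mul_right)
      (Eventually.of_forall fun t x _ => by
        have h2 : Differentiable ℝ (F t) :=
          (h.comp (contDiff_const.prodMk contDiff_id)).differentiable one_ne_zero
        exact (h2 x).hasFDerivAt.const_smul (η t))
    show fderiv ℝ _ x₀ (ee i) = _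
    rw [hd.fderiv, ContinuousLinearMap.integral_apply
      ((c2 x₀).integrable_of_hasCompactSupport hs.smul_right)]
    rfl

theorem op_int [CompleteSpace V] {F : ℝ → En n → V} (h : ContDiff ℝ 2 (uncurry F)) {η : ℝ → ℝ}
    (hη : Continuous η) (hs : HasCompactSupport η) (a : J1 n → J1 n → En n → ℝ) (x : En n) :
    op a (fun x => ∫ t, η t • F t x) x = ∫ t, η t • op a (F t) x := by
  have h1 : ∀ J, ContDiff ℝ 1 (uncurry fun t => dd J (F t)) := fun J => cd_dd (m := 1) h J
  have h2 : ∀ I J, Integrable fun t => a I J x • η t • dd I (dd J (F t)) x := fun I J => by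
    have := (cd_dd (m := 0) (h1 J) I).continuous.comp (continuous_id.prodMk (continuous_const (y := x)))
    exact ((hη.smul this).integrable_of_hasCompactSupport hs.smul_right).smul (a I J x)
  simp only [op, dd_int (h.of_le (by norm_num)) hη hs, dd_int (h1 _) hη hs, Finset.smul_sum,
    smul_comm (η _)]
  rw [integral_finsetSum _ fun I _ => integrable_finsetSum _ fun J _ => h2 I J]
  refine Finset.sum_congr rfl fun I _ => ?_
  rw [integral_finsetSum _ fun J _ => h2 I J]
  exact Finset.sum_congr rfl fun J _ => (integral_smul _ _).symm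

/-- the action of a map on one-jets -/
def G (Φ : En n → En n) : J1 n → J1 n → En n → ℝ
  | none, none => fun _ => 1
  | some j, some l => dd (some j) fun z => Φ z l
  | _, _ => fun _ => 0

/-- zero, or a partial derivative -/
def D : J1 n → (En n → ℝ) → En n → ℝ
  | none, _ => fun _ => 0
  | some i, g => dd (some i) g

/-- the indicator of `none` -/
def dl : J1 n → ℝ
  | none => 1
  | some _ => 0

/-- the components of a vector -/
def nv (ν : En n) : J1 n → ℝ
  | none => 0
  | some l => ν l

theorem G_some {Φ : En n → En n} {x : En n} (hΦ : DifferentiableAt ℝ Φ x) (j l : Fin n) :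
    G Φ (some j) (some l) x = fderiv ℝ Φ x (ee j) l :=
  dd_clm (EuclideanSpace.proj l : En n →L[ℝ] ℝ) hΦ (some j)

theorem dd_comp {Φ : En n → En n} {v : En n → V} {x : En n} (hΦ : DifferentiableAt ℝ Φ x)
    (hv : DifferentiableAt ℝ v (Φ x)) (J : J1 n) :
    dd J (fun y => v (Φ y)) x = ∑ L, G Φ J L x • dd L v (Φ x) := by
  rw [Fintype.sum_option]
  cases J with
  | none => simp [G, dd]
  | some j =>
    simp only [G_some hΦ]
    show fderiv ℝ (v ∘ Φ) x (ee j) = _
    rw [fderiv_comp x hv hΦ, ContinuousLinearMap.comp_apply, clm_sum]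
    simp [G, dd]

theorem dd_smul' {g : En n → ℝ} {f : En n → V} {x : En n} (hg : DifferentiableAt ℝ g x)
    (hf : DifferentiableAt ℝ f x) (I : J1 n) :
    dd I (fun y => g y • f y) x = g x • dd I f x + D I g x • f x := by
  cases I with
  | none => simp [D, dd]
  | some i =>
    show fderiv ℝ (fun y => g y • f y) x (ee i) = _
    rw [fderiv_fun_smul hg hf]
    rfl

theorem dd_sum {ι : Type} [Fintype ι] {f : ι → En n → V} {x : En n}
    (hf : ∀ i, DifferentiableAt ℝ (f i) x) (I : J1 n) :
    dd I (fun y => ∑ i, f i y) x = ∑ i, dd I (f i) x := by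
  cases I with
  | none => rfl
  | some i =>
    show fderiv ℝ (fun y => ∑ i, f i y) x (ee i) = _
    rw [fderiv_fun_sum fun i _ => hf i]
    simp [dd]

theorem G_par {Φ : ℝ → En n → En n} (h : ContDiff ℝ ∞ (uncurry Φ)) (J L : J1 n) :
    ContDiff ℝ ∞ (uncurry fun t => G (Φ t) J L) := by
  rcases J with _ | j <;> rcases L with _ | l
  · exact contDiff_const
  · exact contDiff_const
  · exact contDiff_const
  · exact cd_dd (m := ∞) (F := fun t z => Φ t z l)
      ((EuclideanSpace.proj l : En n →L[ℝ] ℝ).contDiff.comp h) (some j)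

theorem D_par {g : ℝ → En n → ℝ} (h : ContDiff ℝ ∞ (uncurry g)) (I : J1 n) :
    ContDiff ℝ ∞ (uncurry fun t => D I (g t)) := by
  cases I with
  | none => exact contDiff_const
  | some i => exact cd_dd (m := ∞) h (some i)

theorem G_smooth {Φ : En n → En n} (h : ContDiff ℝ ∞ Φ) (J L : J1 n) : ContDiff ℝ ∞ (G Φ J L) :=
  (G_par (Φ := fun _ => Φ) (h.comp contDiff_snd) J L).comp
    ((contDiff_const (c := (0 : ℝ))).prodMk contDiff_id)

theorem dd1 {v : En n → V} (hv : ContDiff ℝ 2 v) (L : J1 n) : Differentiable ℝ (dd L v) :=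
  fun _ => (dd_cda1 hv.contDiffAt L).differentiableAt one_ne_zero

theorem dd2_comp {Φ : En n → En n} {v : En n → V} (hΦ : ContDiff ℝ ∞ Φ) (hv : ContDiff ℝ 2 v)
    (I J : J1 n) (x : En n) : dd I (dd J fun y => v (Φ y)) x =
      ∑ K, ∑ L, (G Φ I K x * G Φ J L x + dl K * D I (G Φ J L) x) • dd K (dd L v) (Φ x) := by
  have d1 := hΦ.differentiable (by simp)
  have d2 := fun L => (G_smooth hΦ J L).differentiable (by simp) x
  have d3 : ∀ L, DifferentiableAt ℝ (fun y => dd L v (Φ y)) x := fun L =>
    (dd1 hv L _).comp x (d1 x)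
  have e : (dd J fun y => v (Φ y)) = fun y => ∑ L, G Φ J L y • dd L v (Φ y) :=
    funext fun y => dd_comp (d1 y) (hv.differentiable two_ne_zero _) J
  rw [e, dd_sum fun L => (d2 L).fun_smul (d3 L), Finset.sum_comm]
  refine Finset.sum_congr rfl fun L _ => ?_
  rw [dd_smul' (d2 L) (d3 L), dd_comp (d1 x) (dd1 hv L _)]
  simp only [add_smul, Finset.sum_add_distrib, Finset.smul_sum, smul_smul, mul_comm (G Φ J L x)]
  congr 1
  rw [Fintype.sum_option]
  simp [dl, dd]

/-- the coefficients of the transported operator -/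
def cf (a : J1 n → J1 n → En n → ℝ) (Φ : En n → En n) (K L : J1 n) (x : En n) : ℝ :=
  ∑ I, ∑ J, a I J x * (G Φ I K x * G Φ J L x + dl K * D I (G Φ J L) x)

theorem op_comp (a : J1 n → J1 n → En n → ℝ) {Φ : En n → En n} {v : En n → V}
    (hΦ : ContDiff ℝ ∞ Φ) (hv : ContDiff ℝ 2 v) (x : En n) :
    op a (fun y => v (Φ y)) x = ∑ K, ∑ L, cf a Φ K L x • dd K (dd L v) (Φ x) := by
  simp only [op, cf, dd2_comp hΦ hv, Finset.smul_sum, Finset.sum_smul, smul_smul]
  rw [Finset.sum_congr rfl fun I _ => Finset.sum_comm, Finset.sum_comm]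
  refine Finset.sum_congr rfl fun K _ => ?_
  rw [Finset.sum_congr rfl fun I _ => Finset.sum_comm, Finset.sum_comm]

theorem cf_par {a : J1 n → J1 n → En n → ℝ} (ha : ∀ I J, ContDiff ℝ ∞ (a I J))
    {Φ : ℝ → En n → En n} (h : ContDiff ℝ ∞ (uncurry Φ)) (K L : J1 n) :
    ContDiff ℝ ∞ (uncurry fun t => cf a (Φ t) K L) := by
  have := ContDiff.sum (s := Finset.univ) fun I _ => ContDiff.sum (s := Finset.univ) fun J _ =>
    ((ha I J).comp contDiff_snd).mul (((G_par h I K).mul (G_par h J L)).add
      ((contDiff_const (c := dl K)).mul (D_par (G_par h J L) I)))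
  exact this

theorem sym_cf (a : J1 n → J1 n → En n → ℝ) {Φ : En n → En n} {x : En n}
    (hΦ : DifferentiableAt ℝ Φ x) (ξ : En n →L[ℝ] ℝ) :
    ∑ k, ∑ l, cf a Φ (some k) (some l) x * (ξ (ee k) * ξ (ee l)) =
      sym a x (ξ.comp (fderiv ℝ Φ x)) := by
  have e : ∀ k l, cf a Φ (some k) (some l) x = ∑ i, ∑ j, a (some i) (some j) x *
      (fderiv ℝ Φ x (ee i) k * fderiv ℝ Φ x (ee j) l) := fun k l => by
    simp only [cf, Fintype.sum_option, G_some hΦ]
    simp [G, dl]
  simp only [e, sym, ContinuousLinearMap.comp_apply, clm_sum ξ (fderiv ℝ Φ x _), Finset.sum_mul,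
    Finset.mul_sum, smul_eq_mul]
  rw [Finset.sum_congr rfl fun k _ => Finset.sum_comm, Finset.sum_comm]
  refine Finset.sum_congr rfl fun i _ => ?_
  rw [Finset.sum_congr rfl fun k _ => Finset.sum_comm, Finset.sum_comm]
  refine Finset.sum_congr rfl fun j _ => ?_
  rw [Finset.sum_comm]
  exact Finset.sum_congr rfl fun _ _ => Finset.sum_congr rfl fun _ _ => by ring

theorem sym_nv (ν : En n) (ξ : En n →L[ℝ] ℝ) :
    ∑ k, ∑ l, nv ν (some k) * nv ν (some l) * (ξ (ee k) * ξ (ee l)) = ξ ν ^ 2 := by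
  rw [sq, clm_sum ξ ν, Finset.sum_mul_sum]
  exact Finset.sum_congr rfl fun _ _ => Finset.sum_congr rfl fun _ _ => by
    simp only [nv, smul_eq_mul]
    ring

theorem sym_lap (ξ : En n →L[ℝ] ℝ) :
    ∑ k, ∑ l, lapc (some k) (some l) * (ξ (ee k) * ξ (ee l)) = ∑ k, ξ (ee k) ^ 2 := by
  simp [lapc, sq]

theorem sq_pos {ξ : En n →L[ℝ] ℝ} (h : ξ ≠ 0) : 0 < ∑ k, ξ (ee k) ^ 2 := by
  obtain ⟨l, hl⟩ := not_forall.1 (mt clm_ext h)
  exact Finset.sum_pos' (fun _ _ => sq_nonneg _) ⟨l, Finset.mem_univ _, sq_pos_of_ne_zero hl⟩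

/-- the derivative along a ray -/
theorem ray_deriv {f : En n → V} (hf : Differentiable ℝ f) (p ν : En n) (t : ℝ) :
    HasDerivAt (fun t : ℝ => f (p + t • ν)) (∑ L, nv ν L • dd L f (p + t • ν)) t := by
  have h1 : HasDerivAt (fun t : ℝ => p + t • ν) ν t := by
    simpa using ((hasDerivAt_id t).smul_const ν).const_add p
  have h2 := (hf (p + t • ν)).hasFDerivAt.comp_hasDerivAt t h1
  rw [clm_sum] at h2
  simpa [Fintype.sum_option, nv, dd, Function.comp_def] using h2

theorem ibp [CompleteSpace V] {η : ℝ → ℝ} (hη : ContDiff ℝ 1 η) (hs : HasCompactSupport η)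
    {g g' : ℝ → V} (hg : ∀ t, HasDerivAt g (g' t) t) (hg' : Continuous g') :
    ∫ t, η t • g' t = -∫ t, deriv η t • g t := by
  have c : Continuous g := continuous_iff_continuousAt.2 fun t => (hg t).continuousAt
  exact integral_bilinear_hasDerivAt_right_eq_neg_left_of_integrable
    (L := ContinuousLinearMap.lsmul ℝ ℝ) (u := η) (v := g)
    (fun t _ => (hη.differentiable one_ne_zero t).hasDerivAt) (fun t _ => hg t)
    ((hη.continuous.smul hg').integrable_of_hasCompactSupport hs.smul_right)
    (((hη.continuous_deriv le_rfl).smul c).integrable_of_hasCompactSupport hs.deriv.smul_right)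
    ((hη.continuous.smul c).integrable_of_hasCompactSupport hs.smul_right)

theorem cont_ray {v : En n → V} (hv : ContDiff ℝ 2 v) (K L : J1 n) (p ν : En n) :
    Continuous fun t : ℝ => dd K (dd L v) (p + t • ν) :=
  (contDiff_iff_contDiffAt.2 fun _ => dd_cda (m := 0) (dd_cda1 hv.contDiffAt L) K).continuous.comp
    (by fun_prop)

theorem ibp2 [CompleteSpace V] {η : ℝ → ℝ} (hη : ContDiff ℝ ∞ η) (hs : HasCompactSupport η)
    {v : En n → V} (hv : ContDiff ℝ 2 v) (p ν : En n) :
    ∫ t, η t • ∑ K, ∑ L, (nv ν K * nv ν L) • dd K (dd L v) (p + t • ν) =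
      ∫ t, deriv (deriv η) t • v (p + t • ν) := by
  have h1 := ray_deriv (hv.differentiable two_ne_zero) p ν
  have h2 : ∀ t : ℝ, HasDerivAt (fun t : ℝ => ∑ L, nv ν L • dd L v (p + t • ν))
      (∑ K, ∑ L, (nv ν K * nv ν L) • dd K (dd L v) (p + t • ν)) t := fun t => by
    have := HasDerivAt.fun_sum (u := Finset.univ) fun L _ =>
      (ray_deriv (dd1 hv L) p ν t).const_smul (nv ν L)
    rw [Finset.sum_comm]
    simpa only [Finset.smul_sum, smul_smul, mul_comm, Pi.smul_apply] using this
  have c2 : Continuous fun t : ℝ => ∑ K, ∑ L, (nv ν K * nv ν L) • dd K (dd L v) (p + t • ν) :=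
    continuous_finsetSum _ fun K _ => continuous_finsetSum _ fun L _ =>
      (cont_ray hv K L p ν).const_smul _
  have c1 : Continuous fun t : ℝ => ∑ L, nv ν L • dd L v (p + t • ν) :=
    continuous_iff_continuousAt.2 fun t => (h2 t).continuousAt
  have hd : ContDiff ℝ ∞ (deriv η) := (contDiff_infty_iff_deriv.1 hη).2
  rw [ibp (hη.of_le (by simp)) hs h2 c2, ibp (hd.of_le (by simp)) hs.deriv h1 c1, neg_neg]

end Vale.Agent.P218H.AmbL
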