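import Vale.Agent.P218H.Basic

/-!
# P218, block LIN: the a priori estimate modulo compact terms (helper21)
-/

open scoped NNReal Topology ContDiff
open Filter Set Metric MeasureTheory

noncomputable section

namespace Vale.Agent.P218H

variable {n k : ℕ} {M : Type} {c : Core n k M}

namespace Core.Ok0

theorem r0 (h : c.Ok0) : 0 ≤ c.r := by linarith [h.one_le, h.r_le]

theorem out (h : c.Ok0) {p : En n} (hp : p ∈ c.S) (hr : c.r + 3 ≤ ‖p‖) :
    c.cc p = 0 ∧ c.ce p = 1 := ⟨(h.cc0 p hp hr).1.self_of_nhds, (h.cc0 p hp hr).2.self_of_nhds⟩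

theorem inn (h : c.Ok0) {p : En n} (hp : p ∈ c.S) (hr : ‖p‖ ≤ c.r₀) :
    c.ce p = 0 ∧ c.cc p = 1 := ⟨(h.ce0 p hp hr).1.self_of_nhds, (h.ce0 p hp hr).2.self_of_nhds⟩

theorem wf_eq (h : c.Ok0) (η : ℝ → ℝ) (v : En n → ℂ) {p : En n} (hp : ‖p‖ ≤ c.r + 7) :
    c.wf η v p = avg η c.pr c.nu v p := by
  rw [Core.wf, st_zero (by linarith [h.r0]) hp, sub_zero, one_smul]

theorem wf_cd (h : c.Ok0) (av : AVG) {v : En n → ℂ} (hv : ContDiff ℝ 2 v) :
    ContDiff ℝ 2 (c.wf c.et v) :=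
  (contDiff_const.sub ((st_smooth _).of_le (by norm_cast))).smul
    ((av n k M c h _ h.ker.set.continuous h.ker.et0).1 v hv)

/-- bounds for the average -/
theorem wf_bd (h : c.Ok0) (av : AVG) {α : ℝ} (h0 : 0 < α) (h1 : α < 1) : ∃ A : ℝ, 0 ≤ A ∧
    (∀ (F : HH α (En n)) p, ‖c.wf c.et F p‖ ≤ A * ‖F‖) ∧
    ∀ (v : C2a n α) i p, ‖dd i (c.wf c.et (f2 v)) p‖ ≤ A * ‖v‖ := by
  obtain ⟨A, hA, H⟩ := (av n k M c h _ h.ker.set.continuous h.ker.et0).2 α h0.le h1.le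
  exact ⟨A, hA, fun F => ((H F _ _ (norm_nonneg F)).1 ((hm_hol F).cont h0) (hm_hol F)).sup,
    fun v => (H _ _ 0 le_rfl).2.1 (f2_cd v) fun i => ((b2_f2 v).2 i none).sup⟩

end Core.Ok0

variable [Fintype M] {α β s C δ R : ℝ} {b : J1 n → J1 n → En n → ℝ} {D : EndD n M β}
  {cC : C2a n α →L[ℂ] C1a n β} {TT : D.XX α k →L[ℂ] D.YY α k}

theorem EndD.Sys.van (sy : D.Sys c b s cC TT) (h : c.Ok0) (v : C2a n α) :
    ∀ y ∈ c.S, c.r + 3 ≤ ‖y‖ → f1 (cC v) y = 0 := fun y hy hr => by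
  rw [sy.com, cm_zero (h.cc0 y hy hr).1]

theorem nrm4 {A B C D : Type*} [SeminormedAddCommGroup A] [SeminormedAddCommGroup B]
    [SeminormedAddCommGroup C] [SeminormedAddCommGroup D] (x : A × B × C × D) :
    ‖x.1‖ ≤ ‖x‖ ∧ ‖x.2.1‖ ≤ ‖x‖ ∧ ‖x.2.2.1‖ ≤ ‖x‖ ∧ ‖x.2.2.2‖ ≤ ‖x‖ :=
  ⟨norm_fst_le x, (norm_fst_le _).trans (norm_snd_le x),
    (norm_fst_le _).trans ((norm_snd_le _).trans (norm_snd_le x)),
    (norm_snd_le _).trans ((norm_snd_le _).trans (norm_snd_le x))⟩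

theorem nrm_smul {t : ℝ} (h : 0 ≤ t ∧ t ≤ 1) (z : ℂ) : ‖t • z‖ ≤ ‖z‖ := by
  rw [norm_smul, Real.norm_of_nonneg h.1]
  exact mul_le_of_le_one_left (norm_nonneg z) h.2

theorem EndD.Ok.dat' (ok : D.Ok c C δ R) (g : D.Y) {q : En n} (hq : q ∈ c.Se \ c.B) (h : ‖q‖ < R)
    {ρ : ℝ} (hρ : ‖q‖ ≤ ρ) : ‖D.ev' g q‖ ≤ |C| * (1 + ρ) ^ c.N * ‖g‖ :=
  (ok.dat g q hq h).trans (by gcongr; exact le_abs_self C)

/-- the equation on the strip -/
theorem strip (av : AVG) (snd : SND) (h : c.Ok0) (hα : 0 < α) (hR : c.r + 8 ≤ R) (hb : c.AmbOf b)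
    (ok : D.Ok c C δ R) (sy : D.Sys c b s cC TT) (x : D.XX α k) {p : En n} (hp : p ∈ c.Se \ c.B)
    (h5 : ‖p‖ ≤ c.r + 5) :
    ContDiffAt ℝ 2 (fun y => (1 - c.cc y) • c.wf c.et (f2 x.1) y - D.ev x.2.1 y) p ∧
    op c.a (fun y => (1 - c.cc y) • c.wf c.et (f2 x.1) y - D.ev x.2.1 y) p -
      (s * c.ka p) • ((1 - c.cc p) • c.wf c.et (f2 x.1) p - D.ev x.2.1 p) =
      -((1 - c.cc p) • c.wf c.et (TT x).1 p) - D.ev' (TT x).2.1 p +
        (D.ev' (D.T x.2.1) p - op c.a (D.ev x.2.1) p) + s • c.ka p • D.uu c x p := by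
  have hS := h.sub hp.1
  have e1 := (snd n k M c h α β s C δ R hα hR b hb D ok cC TT sy x).1 p hS h5
  have cW := (h.wf_cd av (f2_cd x.1)).contDiffAt (x := p)
  have cv := ok.reg x.2.1 p hp (by linarith)
  have c1 : ContDiffAt ℝ 2 c.cc p := h.scc.contDiffAt.of_le (by norm_cast)
  refine ⟨((contDiffAt_const.sub c1).smul cW).sub cv, ?_⟩
  have e2 : D.ev' (TT x).2.1 p = D.ev' (D.T x.2.1) p + cm c.a c.cc (c.wf c.et (f2 x.1)) p := by
    rw [sy.ends, map_add, Pi.add_apply, ok.injv _ (sy.van h _) p hp (by linarith), sy.com]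
  have e3 : (1 - c.cc p) • cm c.a c.ce (D.ev x.2.1) p = 0 := by
    rcases h.cce p hS with e | e
    · simp [e.self_of_nhds]
    · simp [cm_one e]
  have e4 : (1 - c.cc p) • ∑ i, x.2.2.1 i * c.b i p = 0 := by
    rw [Finset.smul_sum]
    refine Finset.sum_eq_zero fun i _ => ?_
    by_cases e : c.b i p = 0
    · simp [e]
    · simp [(h.bb i).2 p hS e]
  have e5 : (1 - c.cc p) • ∑ i, x.2.2.2 i * (c.ψ i p : ℂ) = 0 := by
    rcases le_total c.r₀ ‖p‖ with e | e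
    · simp [fun i => (h.psi i).2 p e]
    · simp [(h.inn hS e).2]
  have e6 : c.ka p • D.uu c x p = c.ka p • D.ev x.2.1 p := by
    rcases le_total ‖p‖ (c.r + 3) with e | e
    · simp [Core.ka, st_zero (by linarith [h.r0] : 0 ≤ c.r + 3) e]
    · simp [EndD.uu, h.out hS e]
  rw [op_sub (f := fun y => (1 - c.cc y) • c.wf c.et (f2 x.1) y)
    ((contDiffAt_const.sub c1).smul cW) cv, e2, e6, h.wf_eq _ (TT x).1 (by linarith)]
  simp only [sub_smul, one_smul]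
  rw [op_sub (g := fun y => c.cc y • c.wf c.et (f2 x.1) y) cW (c1.smul cW)]
  simp only [cm, Complex.real_smul] at *
  push_cast at *
  linear_combination (1 - (c.cc p : ℂ)) * e1 - e3 - e4 + e5

theorem arith {C₁ C₂ P K U μ E Z₁ Z₂ Z₃ N : ℝ} (hC₁ : 0 ≤ C₁) (hC₂ : 0 ≤ C₂) (hP : 0 ≤ P)
    (hU : 0 ≤ U) (m0 : 0 ≤ μ) (hE : U ≤ E ∧ Z₁ + Z₂ + Z₃ ≤ E ∧ U + Z₁ + Z₂ + Z₃ ≤ E)
    (a : μ ≤ C₁ * (U + 2 * (P * (K * E + (μ + U) / max 1 (4 * C₁ * P)))) + C₂ * (Z₁ + Z₂ + Z₃))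
    (a' : N ≤ C₂ * (U + 2 * (P * (K * E + (μ + U) / max 1 (4 * C₁ * P))) + Z₁ + Z₂ + Z₃)) :
    N ≤ C₂ * (1 + 2 * P * (K + 1 + 2 * (C₁ * (1 + 2 * P * (K + 1)) + C₂))) * E := by
  have l0 : (0 : ℝ) < max 1 (4 * C₁ * P) := by positivity
  have l1 : ∀ t, 0 ≤ t → t / max 1 (4 * C₁ * P) ≤ t := fun t ht => div_le_self ht (le_max_left _ _)
  have l2 : 4 * C₁ * P * (μ / max 1 (4 * C₁ * P)) ≤ μ := by
    rw [mul_comm, div_mul_eq_mul_div, div_le_iff₀ l0]
    exact mul_le_mul_of_nonneg_left (le_max_right _ _) m0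
  have m2 : μ ≤ 2 * (C₁ * (1 + 2 * P * (K + 1)) + C₂) * E := by
    rw [add_div] at a
    linarith [mul_le_mul_of_nonneg_left hE.1 hC₁, mul_le_mul_of_nonneg_left hE.2.1 hC₂,
      mul_le_mul_of_nonneg_left ((l1 U hU).trans hE.1) (mul_nonneg hC₁ hP)]
  refine a'.trans ?_
  rw [mul_assoc C₂]
  refine mul_le_mul_of_nonneg_left ?_ hC₂
  linarith [mul_le_mul_of_nonneg_left ((l1 _ (add_nonneg m0 hU)).trans (add_le_add m2 hE.1)) hP,
    hE.2.2]

theorem apr (av : AVG) (mp : MP) (snd : SND) (a1 : APR1) : APR := by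
  intro n k M _ c h α β C hβ hβα hα1 b hb
  have hα := hβ.trans hβα
  obtain ⟨C₁, s₁, hC₁, A1⟩ := a1 n k M c h α β C hβ hβα hα1 b hb
  obtain ⟨P, hP, MP⟩ := mp n k M c h
  obtain ⟨s₂, MP⟩ := MP (max 1 (4 * C₁ * P)) (le_max_left _ _)
  obtain ⟨A, hA, hF, hv⟩ := h.wf_bd av hα hα1
  refine ⟨max 0 (max s₁ s₂), fun s hs => ?_⟩
  simp only [max_le_iff] at hs
  obtain ⟨C₂, hC₂, A1⟩ := A1 s hs.2.1
  have r0 := h.r0
  have h0 := hs.1
  set K := A + |C| * (1 + (c.r + 5)) ^ c.N + 1 + s +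
    |C| * (1 + ‖LinearMap.toContinuousLinearMap c.Mm‖) with hK
  refine ⟨C₂ * (1 + 2 * P * (K + 1 + 2 * (C₁ * (1 + 2 * P * (K + 1)) + C₂))), by positivity,
    fun δ R hδ hR D ok cC TT sy x U hU hu => ?_⟩
  set E := U + ‖TT x‖ + ‖x.2.2.1‖ + ‖x.2.2.2‖ + δ * ‖x‖ with hE
  set W := c.wf c.et (f2 x.1) with hW
  have bW : BddAbove (range fun y => ‖W y‖) := ⟨_, forall_mem_range.2 (hv x.1 none)⟩
  set μ := ⨆ y, ‖W y‖
  have m1 : ∀ y, ‖W y‖ ≤ μ := le_ciSup bW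
  have m0 : 0 ≤ μ := (norm_nonneg _).trans (m1 0)
  obtain ⟨t1, t2, t3, -⟩ := nrm4 (TT x)
  have n1 := norm_nonneg (TT x)
  have n2 := norm_nonneg x.2.2.1
  have n3 := norm_nonneg x.2.2.2
  have n4 : 0 ≤ δ * ‖x‖ := by positivity
  have E0 : 0 ≤ E := by positivity
  have E1 : ‖TT x‖ ≤ E := by linarith
  have k1 : 0 ≤ |C| * (1 + (c.r + 5)) ^ c.N := by positivity
  have k2 : 0 ≤ |C| * (1 + ‖LinearMap.toContinuousLinearMap c.Mm‖) := by positivity
  have key := MP s hs.2.2 (fun y => (1 - c.cc y) • W y - D.ev x.2.1 y) (K * E) (μ + U)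
    (by positivity) (by positivity)
    (((continuous_const.sub h.scc.continuous).smul
      (h.wf_cd av (f2_cd x.1)).continuous).continuousOn.sub ((ok.cont _).mono
        (inter_subset_inter_right _ (closedBall_subset_ball (by linarith)))))
    (fun p hp h5 => by
      obtain ⟨e1, e2⟩ := strip av snd h hα hR hb ok sy x hp h5.le
      refine ⟨e1, e2.symm ▸ ?_⟩
      have b1 := (nrm_smul (t := 1 - c.cc p) ⟨by linarith [h.ccb p], by linarith [h.ccb p]⟩ _).trans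
        ((hF (TT x).1 p).trans (mul_le_mul_of_nonneg_left (t1.trans E1) hA))
      have b2 := (ok.dat' (TT x).2.1 hp (by linarith) h5.le).trans
        (mul_le_mul_of_nonneg_left (t2.trans E1) k1)
      have b3 := (ok.eqn x.2.1 p hp (by linarith)).trans
        (mul_le_mul_of_nonneg_left (nrm4 x).2.1 hδ)
      have b4 : ‖s • c.ka p • D.uu c x p‖ ≤ s * E := by
        rw [norm_smul, Real.norm_of_nonneg h0]
        exact mul_le_mul_of_nonneg_left ((nrm_smul ⟨st_nonneg, st_le_one⟩ _).trans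
          ((hu p (h.sub hp.1) (by linarith)).trans (by linarith))) h0
      refine norm_add₃_le.trans ((add_le_add_left (add_le_add_left (norm_sub_le _ _) _) _).trans ?_)
      rw [norm_neg, hK]
      linarith [mul_nonneg k2 E0])
    (fun p hp => by
      have hS := h.sub (h.bsub hp)
      have : ‖p‖ ≤ c.r₀ := by_contra fun e => (h.far p hS (by linarith)).2 hp
      simp only [(h.inn hS this).2, sub_self, zero_smul, zero_sub, norm_neg]
      have b1 : ‖D.γ x.2.1‖ ≤ (1 + ‖LinearMap.toContinuousLinearMap c.Mm‖) * E := by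
        rw [eq_sub_of_add_eq (sy.gam x).symm, add_mul, one_mul]
        exact (norm_sub_le _ _).trans (add_le_add (t3.trans E1)
          (((LinearMap.toContinuousLinearMap c.Mm).le_opNorm _).trans
            (mul_le_mul_of_nonneg_left (by linarith) (norm_nonneg _))))
      refine (ok.gamv _ p hp).trans ((mul_le_mul (le_abs_self C) b1 (norm_nonneg _)
        (abs_nonneg C)).trans ?_)
      rw [← mul_assoc]
      exact mul_le_mul_of_nonneg_right (by linarith) E0)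
    (fun p hp h5 => by
      have e := h.out (h.sub hp) (by linarith)
      have := hu p (h.sub hp) (by linarith)
      simp only [EndD.uu, e, zero_smul, one_smul, zero_add, sub_zero] at this ⊢
      exact (norm_sub_le _ _).trans (add_le_add (m1 p) this))
  set B := P * (K * E + (μ + U) / max 1 (4 * C₁ * P)) with hB
  have B0 : 0 ≤ B := by positivity
  have w1 : ∀ p ∈ c.S, ‖p‖ ≤ c.r + 4 → ‖W p‖ ≤ U + B := fun p hp h4 => by
    have u := hu p hp (by linarith)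
    rcases le_total ‖p‖ c.r₀ with e | e
    · simp only [EndD.uu, h.inn hp e, zero_smul, one_smul, add_zero] at u
      linarith
    · rw [show W p = D.uu c x p + c.ce p • ((1 - c.cc p) • W p - D.ev x.2.1 p) by
        rcases h.cce p hp with e | e <;> simp [EndD.uu, e.self_of_nhds, hW, sub_smul]]
      exact (norm_add_le _ _).trans (add_le_add u ((nrm_smul (h.ceb p) _).trans
        (key p (h.far p hp (by linarith)).1 h4)))
  obtain ⟨a, a'⟩ := A1 δ R hR D ok cC TT sy x (U + 2 * B) (by positivity)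
    (fun p hp h4 => (w1 p hp h4).trans (by linarith)) fun p hp h1 h7 => by
      rcases le_total ‖p‖ (c.r + 3) with e | e
      · rw [← sub_sub_cancel ((1 - c.cc p) • W p) (D.ev x.2.1 p)]
        refine (norm_sub_le _ _).trans ?_
        linarith [key p (h.far p hp h1).1 (by linarith), w1 p hp (by linarith),
          nrm_smul (t := 1 - c.cc p) ⟨by linarith [h.ccb p], by linarith [h.ccb p]⟩ (W p)]
      · have := hu p hp h7
        simp only [EndD.uu, h.out hp e, zero_smul, one_smul, zero_add] at this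
        linarith
  exact arith hC₁ hC₂ hP hU m0 ⟨by linarith, by linarith, by linarith⟩ (ciSup_le a) a'

end Vale.Agent.P218H
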