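import Vale.Agent.P218H.Basic
import Mathlib.Analysis.Calculus.ParametricIntegral
import Mathlib.Analysis.Calculus.MeanValue
import Mathlib.MeasureTheory.Function.LocallyIntegrable
import Mathlib.MeasureTheory.Integral.Bochner.ContinuousLinearMap

/-!
# P218, block LIN: the average along the rays
-/

open scoped NNReal Topology ContDiff
open Filter Set Metric MeasureTheory

noncomputable section

namespace Vale.Agent.P218H

variable {n k : ℕ}

namespace Av

section par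
variable {V : Type} [NormedAddCommGroup V] [NormedSpace ℝ V] {η : ℝ → ℝ} {d : ℝ}
  {F : En n × ℝ → V}

/-- integrals with a parameter -/
def fi (η : ℝ → ℝ) (F : En n × ℝ → V) (x : En n) : V := ∫ t, η t • F (x, t)

/-- partial derivatives in the first variable -/
def pd (i : J1 n) (F : En n × ℝ → V) (q : En n × ℝ) : V := dd i (fun y => F (y, q.2)) q.1

theorem hcs (h0 : ∀ t, d ≤ |t| → η t = 0) : HasCompactSupport η :=
  HasCompactSupport.intro (isCompact_Icc (a := -d) (b := d)) fun t ht =>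
    h0 t (not_lt.1 fun h => ht ⟨(abs_lt.1 h).1.le, (abs_lt.1 h).2.le⟩)

theorem intg (hη : Continuous η) (h0 : ∀ t, d ≤ |t| → η t = 0) {g : ℝ → V} (hg : Continuous g) :
    Integrable fun t => η t • g t :=
  (hη.smul hg).integrable_of_hasCompactSupport (hcs h0).smul_right

theorem intg' (hη : Continuous η) (h0 : ∀ t, d ≤ |t| → η t = 0) (hF : Continuous F) (x : En n) :
    Integrable fun t => η t • F (x, t) := intg hη h0 (hF.comp (Continuous.prodMk_right x))

theorem two_le : (2 : WithTop ℕ∞) ≤ ∞ := WithTop.coe_le_coe.2 le_top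

theorem fi_cont (hη : Continuous η) (h0 : ∀ t, d ≤ |t| → η t = 0) (hF : Continuous F) :
    Continuous (fi η F) := by
  rw [← continuousOn_univ]
  refine continuousOn_integral_of_compact_support (f := fun x t => η t • F (x, t)) (hcs h0)
    ((hη.comp continuous_snd).smul hF).continuousOn fun x t _ ht => ?_
  rw [image_eq_zero_of_notMem_tsupport ht, zero_smul]

theorem hfd_slice (hF : Differentiable ℝ F) (x : En n) (t : ℝ) : HasFDerivAt (fun y => F (y, t))
    (fderiv ℝ F (x, t) ∘L ContinuousLinearMap.inl ℝ (En n) ℝ) x :=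
  (hF (x, t)).hasFDerivAt.comp x (hasFDerivAt_prodMk_left x t)

theorem fi_hfd (hη : Continuous η) (h0 : ∀ t, d ≤ |t| → η t = 0) (hF : ContDiff ℝ 1 F)
    (x : En n) : HasFDerivAt (fi η F)
      (fi η (fun q => fderiv ℝ F q ∘L ContinuousLinearMap.inl ℝ (En n) ℝ) x) x := by
  have hc : Continuous fun q => fderiv ℝ F q ∘L ContinuousLinearMap.inl ℝ (En n) ℝ :=
    (hF.continuous_fderiv one_ne_zero).clm_comp continuous_const
  obtain ⟨M, hM⟩ := ((isCompact_closedBall x 1).prod (hcs h0).isCompact).exists_bound_of_continuousOn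
    hc.continuousOn
  have h1 := intg' hη h0 hF.continuous
  refine hasFDerivAt_integral_of_dominated_of_fderiv_le (bound := fun t => ‖η t‖ * M)
    (F' := fun y t => η t • (fderiv ℝ F (y, t) ∘L ContinuousLinearMap.inl ℝ (En n) ℝ))
    (closedBall_mem_nhds x one_pos) (Eventually.of_forall fun y => (h1 y).1) (h1 x)
    (intg' hη h0 hc x).1
    (Eventually.of_forall fun t y hy => ?_)
    ((hη.integrable_of_hasCompactSupport (hcs h0)).norm.mul_const M)
    (Eventually.of_forall fun t y _ =>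
      (hfd_slice (hF.differentiable one_ne_zero) y t).const_smul (η t))
  rw [norm_smul]
  by_cases ht : η t = 0
  · simp [ht]
  · exact mul_le_mul_of_nonneg_left (hM (y, t) ⟨hy, subset_tsupport _ ht⟩) (norm_nonneg _)

theorem fi_cd (hη : Continuous η) (h0 : ∀ t, d ≤ |t| → η t = 0) (m : ℕ) :
    ∀ {V : Type} [NormedAddCommGroup V] [NormedSpace ℝ V] {F : En n × ℝ → V}, ContDiff ℝ m F →
      ContDiff ℝ m (fi η F) := by
  induction m with
  | zero => exact fun hF => contDiff_zero.2 (fi_cont hη h0 hF.continuous)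
  | succ m ih =>
    intro V _ _ F hF
    have h1 := fi_hfd hη h0 (hF.of_le (by exact_mod_cast Nat.le_add_left 1 m))
    rw [Nat.cast_succ, contDiff_succ_iff_fderiv]
    refine ⟨fun x => (h1 x).differentiableAt, by simp, ?_⟩
    rw [funext fun x => (h1 x).fderiv]
    exact ih ((hF.fderiv_right (by rw [Nat.cast_succ])).clm_comp contDiff_const)

theorem pd_some (hF : Differentiable ℝ F) (i : Fin n) :
    pd (some i) F = fun q => fderiv ℝ F q (ee i, 0) :=
  funext fun q => congrArg (fun L : En n →L[ℝ] V => L (ee i)) (hfd_slice hF q.1 q.2).fderiv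

theorem pd_cd {m : WithTop ℕ∞} (hF : ContDiff ℝ (m + 1) F) (i : J1 n) :
    ContDiff ℝ m (pd i F) := by
  cases i with
  | none => exact hF.of_le le_self_add
  | some i =>
    rw [pd_some (hF.differentiable (by simp))]
    exact (hF.fderiv_right le_rfl).clm_apply contDiff_const

theorem dd_fi (hη : Continuous η) (h0 : ∀ t, d ≤ |t| → η t = 0) (hF : ContDiff ℝ 1 F)
    (i : J1 n) : dd i (fi η F) = fi η (pd i F) := by
  cases i with
  | none => rfl
  | some i =>
    funext x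
    rw [pd_some (hF.differentiable one_ne_zero)]
    show fderiv ℝ (fi η F) x (ee i) = _
    rw [(fi_hfd hη h0 hF x).fderiv]
    have hc : Continuous fun q => fderiv ℝ F q ∘L ContinuousLinearMap.inl ℝ (En n) ℝ :=
      (hF.continuous_fderiv one_ne_zero).clm_comp continuous_const
    exact ContinuousLinearMap.integral_apply (intg' hη h0 hc x) _

theorem dd2_fi (hη : Continuous η) (h0 : ∀ t, d ≤ |t| → η t = 0) (hF : ContDiff ℝ 2 F)
    (i j : J1 n) : dd i (dd j (fi η F)) = fi η (pd i (pd j F)) := by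
  rw [dd_fi hη h0 (hF.of_le one_le_two), dd_fi hη h0 (pd_cd (m := 1) hF j)]

theorem fi_le (hη : Continuous η) (h0 : ∀ t, d ≤ |t| → η t = 0) {g : ℝ → V} {A : ℝ}
    (h : ∀ t, |t| ≤ d → ‖g t‖ ≤ A) : ‖∫ t, η t • g t‖ ≤ (∫ t, ‖η t‖) * A := by
  rw [← integral_mul_const]
  refine norm_integral_le_of_norm_le
    ((hη.integrable_of_hasCompactSupport (hcs h0)).norm.mul_const A)
    (Eventually.of_forall fun t => ?_)
  rw [norm_smul]
  rcases le_total d |t| with ht | ht
  · simp [h0 t ht]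
  · exact mul_le_mul_of_nonneg_left (h t ht) (norm_nonneg _)

theorem fi_hm (hη : Continuous η) (h0 : ∀ t, d ≤ |t| → η t = 0) {F : En n × ℝ → ℂ}
    (hF : Continuous F) {γ A B : ℝ} (h : ∀ t, |t| ≤ d → HM γ (fun x => F (x, t)) A B) :
    HM γ (fi η F) ((∫ t, ‖η t‖) * A) ((∫ t, ‖η t‖) * B) := by
  refine ⟨fun x => fi_le hη h0 fun t ht => (h t ht).sup x, fun x y => ?_⟩
  rw [fi, fi, ← integral_sub (intg' hη h0 hF x) (intg' hη h0 hF y), mul_assoc]
  simp only [← smul_sub]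
  exact fi_le hη h0 fun t ht => (h t ht).hol x y

theorem pd_sum {ι : Type} [Fintype ι] {G : ι → En n × ℝ → V} (hG : ∀ l, Differentiable ℝ (G l))
    (i : J1 n) : pd i (fun q => ∑ l, G l q) = fun q => ∑ l, pd i (G l) q := by
  cases i with
  | none => rfl
  | some i =>
    funext q
    simp only [pd_some (hG _), pd_some (Differentiable.fun_sum fun l _ => hG l),
      fderiv_fun_sum fun l _ => hG l q, sum_apply]

/-- smooth, and zero outside a ball -/
def Gd (R : ℝ) (F : En n × ℝ → V) : Prop := ContDiff ℝ ∞ F ∧ ∀ q, R < ‖q.1‖ → F q = 0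

theorem Gd.fderiv {R : ℝ} (h : Gd R F) (q : En n × ℝ) (hq : R < ‖q.1‖) : fderiv ℝ F q = 0 := by
  have h1 : F =ᶠ[𝓝 q] fun _ => 0 :=
    mem_of_superset ((isOpen_lt continuous_const continuous_fst.norm).mem_nhds hq) h.2
  rw [h1.fderiv_eq, fderiv_fun_const]
  rfl

theorem Gd.pd {R : ℝ} (h : Gd R F) (i : J1 n) : Gd R (pd i F) := by
  refine ⟨pd_cd (m := ∞) h.1 i, fun q hq => ?_⟩
  cases i with
  | none => exact h.2 q hq
  | some i =>
    rw [pd_some (h.1.differentiable (by simp))]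
    simp only [h.fderiv q hq, zero_apply]

theorem Gd.lip {R : ℝ} (h : Gd R F) (d : ℝ) : ∃ L : ℝ, 0 ≤ L ∧ ∀ t, |t| ≤ d →
    (∀ x, ‖F (x, t)‖ ≤ L) ∧ ∀ x y, ‖F (x, t) - F (y, t)‖ ≤ L * dist x y := by
  have hK := (isCompact_closedBall (0 : En n) R).prod (isCompact_Icc (a := -d) (b := d))
  have hb : ∀ {W : Type} [NormedAddCommGroup W] (G : En n × ℝ → W), Continuous G →
      (∀ q, R < ‖q.1‖ → G q = 0) → ∃ M, 0 ≤ M ∧ ∀ t, |t| ≤ d → ∀ x, ‖G (x, t)‖ ≤ M := by
    intro W _ G hG hG0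
    obtain ⟨M, hM⟩ := hK.exists_bound_of_continuousOn hG.continuousOn
    refine ⟨max M 0, le_max_right _ _, fun t ht x => ?_⟩
    rcases le_or_gt ‖x‖ R with hx | hx
    · exact (hM (x, t) ⟨mem_closedBall_zero_iff.2 hx, abs_le.1 ht⟩).trans (le_max_left _ _)
    · rw [hG0 (x, t) hx, norm_zero]
      exact le_max_right _ _
  obtain ⟨M, p1, h1⟩ := hb F h.1.continuous h.2
  obtain ⟨L, p2, h2⟩ := hb
    (fun q => _root_.fderiv ℝ F q ∘L ContinuousLinearMap.inl ℝ (En n) ℝ)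
    ((h.1.continuous_fderiv (by simp)).clm_comp continuous_const) fun q hq => by
      simp only [h.fderiv q hq, ContinuousLinearMap.zero_comp]
  refine ⟨M + L, by positivity, fun t ht => ⟨fun x => by linarith [h1 t ht x], fun x y => ?_⟩⟩
  rw [dist_eq_norm]
  exact convex_univ.norm_image_sub_le_of_norm_hasFDerivWithin_le
    (fun z _ => (hfd_slice (h.1.differentiable (by simp)) z t).hasFDerivWithinAt)
    (fun z _ => (h2 t ht z).trans (le_add_of_nonneg_left p1)) (mem_univ y) (mem_univ x)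

end par

section tw
variable {V : Type} [NormedAddCommGroup V] [NormedSpace ℝ V] {Φ : En n × ℝ → En n}
  {e : En n × ℝ → ℝ} {v : En n → V} {R : ℝ}

/-- weighted composition -/
def tw (Φ : En n × ℝ → En n) (e : En n × ℝ → ℝ) (v : En n → V) (q : En n × ℝ) : V :=
  e q • v (Φ q)

/-- the coefficients in the chain rule -/
def de (Φ : En n × ℝ → En n) : J1 n → J1 n → (En n × ℝ → ℝ) → En n × ℝ → ℝ
  | none, none, e => e
  | none, some _, _ => 0
  | some i, none, e => pd (some i) e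
  | some i, some l, e => fun q => e q * pd (some i) Φ q l

theorem Gd.de (h : Gd R e) (hΦ : ContDiff ℝ ∞ Φ) (i l : J1 n) : Gd R (de Φ i l e) := by
  rcases i with _ | i <;> rcases l with _ | l
  · exact h
  · exact ⟨contDiff_const, fun _ _ => rfl⟩
  · exact h.pd _
  · exact ⟨h.1.mul (contDiff_euclidean.1 (pd_cd (m := ∞) hΦ _) l),
      fun q hq => mul_eq_zero_of_left (h.2 q hq) _⟩

theorem clm_eq (L : En n →L[ℝ] V) (w : En n) : L w = ∑ l, w l • L (ee l) := by
  simp only [← map_smul, ← map_sum]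
  congr 1
  simpa [ee] using ((EuclideanSpace.basisFun (Fin n) ℝ).sum_repr w).symm

theorem pd_tw (hΦ : Differentiable ℝ Φ) (he : Differentiable ℝ e) (hv : Differentiable ℝ v)
    (i : J1 n) : pd i (tw Φ e v) = fun q => ∑ l, tw Φ (de Φ i l e) (dd l v) q := by
  funext q
  rw [Fintype.sum_option]
  cases i with
  | none => simp [pd, dd, tw, de]
  | some i =>
    have h1 := ((he q).hasFDerivAt.smul ((hv (Φ q)).hasFDerivAt.comp q (hΦ q).hasFDerivAt)).fderiv
    rw [pd_some (F := tw Φ e v) (he.smul (hv.comp hΦ))]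
    simp only [tw, de, dd, pd_some he, pd_some hΦ, mul_smul, ← Finset.smul_sum, ← clm_eq]
    exact (congrArg (fun L : En n × ℝ →L[ℝ] V => L (ee i, 0)) h1).trans (add_comm _ _)

theorem tw_cd {m : WithTop ℕ∞} (hΦ : ContDiff ℝ m Φ) (he : ContDiff ℝ m e) (hv : ContDiff ℝ m v) :
    ContDiff ℝ m (tw Φ e v) := he.smul (hv.comp hΦ)

theorem pd2_tw (hΦ : ContDiff ℝ ∞ Φ) (he : Gd R e) (hv : ContDiff ℝ 2 v) (i j : J1 n) :
    pd i (pd j (tw Φ e v)) =
      fun q => ∑ l, ∑ m, tw Φ (de Φ i m (de Φ j l e)) (dd m (dd l v)) q := by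
  have h1 := hΦ.differentiable (by simp)
  have h2 := fun l => (he.de hΦ j l).1.differentiable (by simp)
  have h3 : ∀ l, Differentiable ℝ (dd l v) := fun l x =>
    (dd_cda1 hv.contDiffAt l).differentiableAt one_ne_zero
  rw [pd_tw h1 (he.1.differentiable (by simp)) (hv.differentiable two_ne_zero),
    pd_sum (G := fun l => tw Φ (de Φ j l e) (dd l v)) fun l => (h2 l).smul ((h3 l).comp h1)]
  funext q
  exact Finset.sum_congr rfl fun l _ => congrFun (pd_tw h1 (h2 l) (h3 l) i) q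

theorem hm_lip {Y : Type} [PseudoMetricSpace Y] {g : Y → ℝ} {L γ : ℝ} (hL : 0 ≤ L) (h0 : 0 ≤ γ)
    (h1 : γ ≤ 1) (hb : ∀ x, ‖g x‖ ≤ L) (hl : ∀ x y, ‖g x - g y‖ ≤ L * dist x y) :
    HM γ (fun x => (g x : ℂ)) L (3 * L) := by
  have h2 : HM 1 (fun x => (g x : ℂ)) L L :=
    ⟨fun x => by simpa using hb x, fun x y => by
      rw [← Complex.ofReal_sub, Complex.norm_real, Real.rpow_one]
      exact hl x y⟩
  refine (h2.lower h0 h1 hL one_pos).mono le_rfl ?_
  rw [Real.one_rpow, Real.one_rpow]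
  linarith

theorem hol_comp {Y Z : Type} [PseudoMetricSpace Y] [PseudoMetricSpace Z] {a b : Y} {x y : Z}
    {L γ B : ℝ} (hL : 0 ≤ L) (h0 : 0 ≤ γ) (hB : 0 ≤ B) (h : dist a b ≤ L * dist x y) :
    B * dist a b ^ γ ≤ B * L ^ γ * dist x y ^ γ := by
  rw [mul_assoc, ← Real.mul_rpow hL dist_nonneg]
  exact mul_le_mul_of_nonneg_left (Real.rpow_le_rpow dist_nonneg h h0) hB

/-- the cut-off of a smooth map -/
theorem gd_cut (hR : 0 ≤ R) {F : En n × ℝ → V} (hF : ContDiff ℝ ∞ F) :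
    Gd (R + 1) fun q => (1 - st R q.1) • F q :=
  ⟨(contDiff_const.sub ((st_smooth R).comp contDiff_fst)).smul hF, fun q hq => by
    simp only [st_one hR hq.le, sub_self, zero_smul]⟩

theorem tw_hm (hR : 0 ≤ R) (hΦ : ContDiff ℝ ∞ Φ) (he : Gd R e) (d : ℝ) {γ : ℝ} (h0 : 0 ≤ γ)
    (h1 : γ ≤ 1) : ∃ C : ℝ, 0 ≤ C ∧ ∀ t, |t| ≤ d → ∀ (v : En n → ℂ) (A B : ℝ), 0 ≤ B →
      HM γ v A B → HM γ (fun x => tw Φ e v (x, t)) (C * A) (C * (A + B)) := by
  obtain ⟨L, hL, hl⟩ := he.lip d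
  obtain ⟨K, hK, hk⟩ := (gd_cut hR hΦ).lip d
  have p1 : 0 ≤ L * K ^ γ := by positivity
  refine ⟨3 * L + L * K ^ γ, by positivity, fun t ht v A B hB hv => ?_⟩
  have hA := hv.nonneg
  have h2 : HM γ (fun x => v ((1 - st R x) • Φ (x, t))) A (B * K ^ γ) :=
    ⟨fun x => hv.sup _, fun x y => (hv.hol _ _).trans (hol_comp hK h0 hB
      ((dist_eq_norm _ _).trans_le ((hk t ht).2 x y)))⟩
  have h3 := ((hm_lip hL h0 h1 (hl t ht).1 (hl t ht).2).mul h2 (by positivity)).mono
    (A' := (3 * L + L * K ^ γ) * A) (B' := (3 * L + L * K ^ γ) * (A + B))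
    (by nlinarith) (by nlinarith [mul_nonneg hL hB])
  refine (funext fun x => ?_ : (fun x => tw Φ e v (x, t)) = _) ▸ h3
  rcases le_or_gt ‖x‖ R with hx | hx
  · rw [st_zero hR hx, sub_zero, one_smul, tw, Complex.real_smul]
  · rw [tw, he.2 (x, t) hx, zero_smul, Complex.ofReal_zero, zero_mul]

theorem tw_hm' {ι : Type} [Fintype ι] {e : ι → En n × ℝ → ℝ} (hR : 0 ≤ R) (hΦ : ContDiff ℝ ∞ Φ)
    (he : ∀ i, Gd R (e i)) (d : ℝ) {γ : ℝ} (h0 : 0 ≤ γ) (h1 : γ ≤ 1) :
    ∃ C : ℝ, 0 ≤ C ∧ ∀ i t, |t| ≤ d → ∀ (v : En n → ℂ) (A B : ℝ), 0 ≤ B →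
      HM γ v A B → HM γ (fun x => tw Φ (e i) v (x, t)) (C * A) (C * (A + B)) := by
  choose C hC h using fun i => tw_hm hR hΦ (he i) d h0 h1
  have h2 := fun i => Finset.single_le_sum (fun j _ => hC j) (Finset.mem_univ i)
  exact ⟨∑ i, C i, Finset.sum_nonneg fun i _ => hC i, fun i t ht v A B hB hv =>
    (h i t ht v A B hB hv).mono (mul_le_mul_of_nonneg_right (h2 i) hv.nonneg)
      (mul_le_mul_of_nonneg_right (h2 i) (add_nonneg hv.nonneg hB))⟩

theorem hm0 {v : En n → ℂ} {A : ℝ} (h : ∀ x, ‖v x‖ ≤ A) : HM 0 v A (2 * A) :=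
  ⟨h, fun x y => by
    rw [Real.rpow_zero]
    linarith [norm_sub_le (v x) (v y), h x, h y]⟩

end tw

end Av

open Av

section
variable {V : Type} [NormedAddCommGroup V] [NormedSpace ℝ V] {η : ℝ → ℝ} {d : ℝ}
  {pr nu : En n → En n} {v : En n → V}

/-- the parametrisation of the rays -/
def ray (pr nu : En n → En n) (q : En n × ℝ) : En n := pr q.1 + q.2 • nu (pr q.1)

theorem ray_cd (hp : ContDiff ℝ ∞ pr) (hn : ContDiff ℝ ∞ nu) : ContDiff ℝ ∞ (ray pr nu) :=
  (hp.comp contDiff_fst).add (contDiff_snd.smul (hn.comp (hp.comp contDiff_fst)))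

theorem avg_cd (hη : Continuous η) (h0 : ∀ t, d ≤ |t| → η t = 0) (hp : ContDiff ℝ ∞ pr)
    (hn : ContDiff ℝ ∞ nu) (m : ℕ) (hv : ContDiff ℝ m v) : ContDiff ℝ m (avg η pr nu v) :=
  fi_cd hη h0 m (hv.comp ((ray_cd hp hn).of_le (by exact_mod_cast le_top)))

/-- differentiation under the integral -/
theorem dd_avg (hη : Continuous η) (h0 : ∀ t, d ≤ |t| → η t = 0) (hp : ContDiff ℝ ∞ pr)
    (hn : ContDiff ℝ ∞ nu) (hv : ContDiff ℝ 2 v) (i j : J1 n) (x : En n) :
    dd i (dd j (avg η pr nu v)) x =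
      ∫ t, η t • dd i (dd j fun y => v (pr y + t • nu (pr y))) x :=
  congrFun (dd2_fi hη h0 (hv.comp ((ray_cd hp hn).of_le two_le)) i j) x

/-- continuity of the integrand -/
theorem dd_ray_cont (hp : ContDiff ℝ ∞ pr) (hn : ContDiff ℝ ∞ nu) (hv : ContDiff ℝ 2 v)
    (i j : J1 n) :
    Continuous fun q : En n × ℝ => dd i (dd j fun y => v (pr y + q.2 • nu (pr y))) q.1 :=
  (pd_cd (m := 0) (pd_cd (m := 1) (F := v ∘ ray pr nu)
    (hv.comp ((ray_cd hp hn).of_le two_le)) j) i).continuous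

/-- the operator under the integral -/
theorem op_avg [CompleteSpace V] (hη : Continuous η) (h0 : ∀ t, d ≤ |t| → η t = 0)
    (hp : ContDiff ℝ ∞ pr) (hn : ContDiff ℝ ∞ nu) (hv : ContDiff ℝ 2 v)
    (a : J1 n → J1 n → En n → ℝ) (x : En n) :
    op a (avg η pr nu v) x = ∫ t, η t • op a (fun y => v (pr y + t • nu (pr y))) x := by
  have h1 : ∀ i j, Integrable fun t => a i j x • η t •
      dd i (dd j fun y => v (pr y + t • nu (pr y))) x := fun i j =>
    (intg' hη h0 (dd_ray_cont hp hn hv i j) x).smul (a i j x)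
  simp only [op, dd_avg hη h0 hp hn hv, Finset.smul_sum, ← integral_smul, smul_comm (η _)]
  rw [integral_finsetSum _ fun i _ => integrable_finsetSum _ fun j _ => h1 i j]
  exact Finset.sum_congr rfl fun i _ => (integral_finsetSum _ fun j _ => h1 i j).symm

end

theorem avg_row : AVG := by
  intro n k M c hc η hη h0
  have hΦ := ray_cd hc.tube.spr hc.tube.snu
  refine ⟨fun v hv => avg_cd hη h0 hc.tube.spr hc.tube.snu 2 hv, fun γ g0 g1 => ?_⟩
  have hR : 0 ≤ c.r + 7 := by linarith [hc.one_le, hc.r_le]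
  have hR' : 0 ≤ c.r + 7 + 1 := by linarith
  have he : Gd (c.r + 7 + 1) fun q : En n × ℝ => (1 - st (c.r + 7) q.1) • (1 : ℝ) :=
    gd_cut hR contDiff_const
  obtain ⟨e, hee⟩ : ∃ e, e = fun q : En n × ℝ => (1 - st (c.r + 7) q.1) • (1 : ℝ) := ⟨_, rfl⟩
  rw [← hee] at he
  have hw : ∀ v, c.wf η v = fi η (tw (ray c.pr c.nu) e v) := fun v => funext fun x => by
    simp only [Core.wf, avg, fi, tw, ray, hee, ← integral_smul, smul_comm (η _), smul_eq_mul,
      mul_one]
  obtain ⟨C0, p0, q0⟩ := tw_hm hR' hΦ he (c.de / 4) g0 g1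
  obtain ⟨C1, p1, q1⟩ := tw_hm' (e := fun i : J1 n × J1 n => de (ray c.pr c.nu) i.1 i.2 e) hR' hΦ
    (fun i => he.de hΦ _ _) (c.de / 4) le_rfl zero_le_one
  obtain ⟨C2, p2, q2⟩ := tw_hm' (e := fun i : (J1 n × J1 n) × J1 n × J1 n =>
    de (ray c.pr c.nu) i.1.1 i.1.2 (de (ray c.pr c.nu) i.2.1 i.2.2 e)) hR' hΦ
    (fun i => (he.de hΦ _ _).de hΦ _ _) (c.de / 4) g0 g1
  obtain ⟨I, hI⟩ : ∃ I, I = ∫ t, ‖η t‖ := ⟨_, rfl⟩
  have pI : 0 ≤ I := hI ▸ integral_nonneg fun _ => norm_nonneg _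
  obtain ⟨N, hN⟩ : ∃ N : ℝ, N = Fintype.card (J1 n) := ⟨_, rfl⟩
  have pN : 0 ≤ N := hN ▸ Nat.cast_nonneg _
  refine ⟨I * (C0 + N * C1 + N * (N * (C2 * 2))), by positivity, fun v A B hB =>
    ⟨fun hv h => ?_, fun hv h i x => ?_, fun hv => ?_⟩⟩
  · have hA := h.nonneg
    rw [hw]
    refine (fi_hm hη h0 (he.1.continuous.smul (hv.comp hΦ.continuous))
      fun t ht => q0 t ht v A B hB h).mono ?_ ?_ <;> rw [← hI, mul_assoc] <;> gcongr <;>
      nlinarith [mul_nonneg pN p1, mul_nonneg pN (mul_nonneg pN p2)]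
  · have hA := (norm_nonneg _).trans (h i x)
    rw [hw, dd_fi hη h0 ((tw_cd (hΦ.of_le two_le) (he.1.of_le two_le) hv).of_le one_le_two),
      pd_tw (hΦ.differentiable (by simp)) (he.1.differentiable (by simp))
        (hv.differentiable two_ne_zero)]
    refine (fi_le hη h0 (A := N * (C1 * A)) fun t ht => ?_).trans ?_
    · refine (norm_sum_le_of_le _ fun l _ =>
        (q1 (i, l) t ht _ A _ (by positivity) (hm0 (h l))).sup x).trans_eq ?_
      rw [Finset.sum_const, Finset.card_univ, nsmul_eq_mul, hN]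
    · rw [← hI, mul_assoc, ← mul_assoc N]
      gcongr
      nlinarith [mul_nonneg pN (mul_nonneg pN p2)]
  · have hA := hv.nonneg
    have h2 := tw_cd (hΦ.of_le two_le) (he.1.of_le two_le) hv.1
    rw [hw]
    refine ⟨fi_cd hη h0 2 h2, fun i j => ?_⟩
    rw [dd2_fi hη h0 h2]
    have h3 := fi_hm hη h0 (pd_cd (m := 0) (pd_cd (m := 1) h2 j) i).continuous (γ := γ)
      (A := N * (N * (C2 * A))) (B := N * (N * (C2 * (A + A)))) fun t ht => by
        rw [pd2_tw hΦ he hv.1]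
        simpa only [Finset.sum_const, Finset.card_univ, nsmul_eq_mul, hN] using
          HM.sum Finset.univ fun l _ => HM.sum Finset.univ fun m _ =>
            q2 ((i, m), j, l) t ht _ A A hA (hv.2 m l)
    refine h3.mono ?_ ?_ <;> rw [← hI, mul_assoc] <;> refine mul_le_mul_of_nonneg_left ?_ pI <;>
      nlinarith [mul_nonneg p0 hA, mul_nonneg (mul_nonneg pN p1) hA,
        mul_nonneg pN (mul_nonneg pN (mul_nonneg p2 hA))]

theorem avg' (_ : MUL) : AVG := avg_row

end Vale.Agent.P218H
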