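import Vale.Agent.P218H.Spec
import Mathlib.Analysis.InnerProductSpace.Calculus

/-!
# P218, blocks HSP and LIN: basic lemmas
-/

open scoped NNReal Topology ContDiff
open Filter Set Metric MeasureTheory
open Vale.Agent.P272.K.LIN (Hol)

noncomputable section

namespace Vale.Agent.P218H

variable {n k : ℕ} {α : ℝ}

/-! ### Hölder bounds -/

section hm
variable {Y : Type} [PseudoMetricSpace Y] {f g : Y → ℂ} {A B A' B' : ℝ}

theorem hw_coe (x y : Y) : (hw α Y x y : ℝ) = dist x y ^ α := by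
  simp [hw, NNReal.coe_rpow]

theorem HM.mono (h : HM α f A B) (hA : A ≤ A') (hB : B ≤ B') : HM α f A' B' :=
  ⟨fun x => (h.sup x).trans hA, fun x y => (h.hol x y).trans
    (mul_le_mul_of_nonneg_right hB (Real.rpow_nonneg dist_nonneg _))⟩

theorem HM.nonneg [Nonempty Y] (h : HM α f A B) : 0 ≤ A :=
  (norm_nonneg _).trans (h.sup (Classical.arbitrary Y))

theorem HM.add (h : HM α f A B) (h' : HM α g A' B') :
    HM α (fun x => f x + g x) (A + A') (B + B') :=
  ⟨fun x => (norm_add_le _ _).trans (add_le_add (h.sup x) (h'.sup x)), fun x y => by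
    rw [add_sub_add_comm, add_mul]
    exact (norm_add_le _ _).trans (add_le_add (h.hol x y) (h'.hol x y))⟩

theorem HM.neg (h : HM α f A B) : HM α (fun x => -f x) A B :=
  ⟨fun x => by simpa using h.sup x, fun x y => by
    rw [neg_sub_neg, norm_sub_rev]
    exact h.hol x y⟩

theorem HM.sub (h : HM α f A B) (h' : HM α g A' B') :
    HM α (fun x => f x - g x) (A + A') (B + B') := by
  simpa only [sub_eq_add_neg] using h.add h'.neg

theorem HM.cmul (h : HM α f A B) (c : ℂ) : HM α (fun x => c * f x) (‖c‖ * A) (‖c‖ * B) :=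
  ⟨fun x => by
    rw [norm_mul]
    exact mul_le_mul_of_nonneg_left (h.sup x) (norm_nonneg _), fun x y => by
    rw [← mul_sub, norm_mul, mul_assoc]
    exact mul_le_mul_of_nonneg_left (h.hol x y) (norm_nonneg _)⟩

theorem HM.mul (h : HM α f A B) (h' : HM α g A' B') (hB : 0 ≤ B) :
    HM α (fun x => f x * g x) (A * A') (A * B' + B * A') :=
  ⟨fun x => by
    rw [norm_mul]
    exact mul_le_mul (h.sup x) (h'.sup x) (norm_nonneg _) ((norm_nonneg _).trans (h.sup x)),
    fun x y => by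
    have e : f x * g x - f y * g y = f x * (g x - g y) + (f x - f y) * g y := by ring
    have h0 : 0 ≤ dist x y ^ α := Real.rpow_nonneg dist_nonneg _
    rw [e, add_mul]
    refine (norm_add_le _ _).trans (add_le_add ?_ ?_)
    · rw [norm_mul, mul_assoc]
      exact mul_le_mul (h.sup x) (h'.hol x y) (norm_nonneg _) ((norm_nonneg _).trans (h.sup x))
    · rw [norm_mul, mul_right_comm]
      exact mul_le_mul (h.hol x y) (h'.sup y) (norm_nonneg _) (mul_nonneg hB h0)⟩

theorem HM.zero : HM α (fun _ : Y => (0 : ℂ)) 0 0 := ⟨fun _ => by simp, fun _ _ => by simp⟩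

theorem HM.sum {ι : Type} (s : Finset ι) {F : ι → Y → ℂ} {P Q : ι → ℝ}
    (h : ∀ i ∈ s, HM α (F i) (P i) (Q i)) :
    HM α (fun x => ∑ i ∈ s, F i x) (∑ i ∈ s, P i) (∑ i ∈ s, Q i) := by
  classical
  induction s using Finset.induction_on with
  | empty => simpa using HM.zero
  | insert a s ha ih =>
    simp only [Finset.sum_insert ha]
    exact (h a (Finset.mem_insert_self _ _)).add
      (ih fun i hi => h i (Finset.mem_insert_of_mem hi))

theorem HM.restr (h : HM α f A B) (K : Set Y) : HM α (fun p : K => f p) A B :=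
  ⟨fun x => h.sup x, fun x y => h.hol x y⟩

theorem HM.cont (h : HM α f A B) (hα : 0 < α) : Continuous f := by
  refine continuous_iff_continuousAt.2 fun x => tendsto_iff_norm_sub_tendsto_zero.2 ?_
  refine squeeze_zero (fun _ => norm_nonneg _) (fun y => h.hol y x) ?_
  have h1 : Continuous fun y => B * dist y x ^ α :=
    continuous_const.mul ((continuous_id.dist continuous_const).rpow_const fun _ => Or.inr hα.le)
  simpa [Real.zero_rpow hα.ne'] using h1.tendsto x

/-- lowering the exponent -/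
theorem HM.lower {β : ℝ} (h : HM α f A B) (hβ : 0 ≤ β) (hβα : β ≤ α) (hB : 0 ≤ B) {lam : ℝ}
    (hl : 0 < lam) : HM β f A (2 * A * lam ^ (-β) + B * lam ^ (α - β)) := by
  refine ⟨h.sup, fun x y => ?_⟩
  have hA : 0 ≤ A := (norm_nonneg _).trans (h.sup x)
  have h0 : 0 ≤ dist x y ^ β := Real.rpow_nonneg dist_nonneg _
  have p1 : 0 ≤ lam ^ (-β) := Real.rpow_nonneg hl.le _
  have p2 : 0 ≤ lam ^ (α - β) := Real.rpow_nonneg hl.le _
  rw [add_mul]
  rcases le_total lam (dist x y) with e | e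
  · have h1 : 1 ≤ lam ^ (-β) * dist x y ^ β := by
      rw [Real.rpow_neg hl.le, ← div_eq_inv_mul, le_div_iff₀ (Real.rpow_pos_of_pos hl _), one_mul]
      exact Real.rpow_le_rpow hl.le e hβ
    have h2 : ‖f x - f y‖ ≤ 2 * A := by
      linarith [norm_sub_le (f x) (f y), h.sup x, h.sup y]
    have h3 : 0 ≤ B * lam ^ (α - β) * dist x y ^ β := by positivity
    nlinarith
  · have h1 : dist x y ^ α ≤ lam ^ (α - β) * dist x y ^ β := by
      have : dist x y ^ α = dist x y ^ (α - β) * dist x y ^ β := by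
        rw [← Real.rpow_add_of_nonneg dist_nonneg (by linarith) hβ, sub_add_cancel]
      rw [this]
      exact mul_le_mul_of_nonneg_right (Real.rpow_le_rpow dist_nonneg e (by linarith)) h0
    have h3 : 0 ≤ 2 * A * lam ^ (-β) * dist x y ^ β := by positivity
    have h4 := mul_le_mul_of_nonneg_left h1 hB
    have h5 := h.hol x y
    rw [mul_assoc B]
    linarith

theorem hm_hol (F : HH α Y) : HM α F ‖F‖ ‖F‖ :=
  ⟨F.norm_apply_le, fun x y => by simpa only [hw_coe] using F.norm_sub_le' x y⟩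

/-- the element of `HH` defined by a function with bounds -/
def mkH (f : Y → ℂ) (h : ∃ A B, HM α f A B) : HH α Y :=
  ⟨f, let ⟨A, _, h⟩ := h; ⟨A, h.sup⟩, let ⟨_, B, h⟩ := h;
    ⟨B, fun x y => by simpa only [hw_coe] using h.hol x y⟩⟩

@[simp] theorem mkH_apply (h : ∃ A B, HM α f A B) (x : Y) : mkH f h x = f x := rfl

theorem norm_le_hm {F : HH α Y} (h : HM α F A B) (hA : 0 ≤ A) (hB : 0 ≤ B) : ‖F‖ ≤ A + B :=
  Hol.norm_le_of hA hB h.sup fun x y => by simpa only [hw_coe] using h.hol x y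

variable {X : Type} [NormedAddCommGroup X] [NormedSpace ℂ X]

/-- bounded operators with values in `HH` -/
theorem ex_L0 (T : X → Y → ℂ) (h1 : ∀ x x', T (x + x') = T x + T x')
    (h2 : ∀ (c : ℂ) x, T (c • x) = c • T x) {C : ℝ} (hC : 0 ≤ C)
    (h : ∀ x, HM α (T x) (C * ‖x‖) (C * ‖x‖)) :
    ∃ L : X →L[ℂ] HH α Y, ‖L‖ ≤ 2 * C ∧ ∀ x y, L x y = T x y := by
  let L₀ : X →ₗ[ℂ] HH α Y :=
    { toFun := fun x => mkH (T x) ⟨_, _, h x⟩
      map_add' := fun x x' => Hol.ext fun y => congrFun (h1 x x') y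
      map_smul' := fun c x => Hol.ext fun y => congrFun (h2 c x) y }
  have hb : ∀ x, ‖L₀ x‖ ≤ 2 * C * ‖x‖ := fun x =>
    (norm_le_hm (F := L₀ x) (h x) (by positivity) (by positivity)).trans_eq (by ring)
  exact ⟨L₀.mkContinuous _ hb, L₀.mkContinuous_norm_le (by positivity) hb, fun _ _ => rfl⟩

end hm

/-! ### the spaces of jets -/

section jets
variable {f : En n → ℂ} {A A' : ℝ}

theorem B1.mono (h : B1 α f A) (hA : A ≤ A') : B1 α f A' := ⟨h.1, fun i => (h.2 i).mono hA hA⟩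

theorem B2.mono (h : B2 α f A) (hA : A ≤ A') : B2 α f A' :=
  ⟨h.1, fun i j => (h.2 i j).mono hA hA⟩

theorem B1.nonneg (h : B1 α f A) : 0 ≤ A := (h.2 none).nonneg

theorem B2.nonneg (h : B2 α f A) : 0 ≤ A := (h.2 none none).nonneg

theorem B2.dd (h : B2 α f A) (j : J1 n) : B1 α (dd j f) A := ⟨dd_cd h.1 j, fun i => h.2 i j⟩

theorem f1_cd (F : C1a n α) : ContDiff ℝ 1 (f1 F) := F.2.1

theorem f2_cd (F : C2a n α) : ContDiff ℝ 2 (f2 F) := F.2.1

theorem f1_dd (F : C1a n α) (i : J1 n) : (F.1 i : En n → ℂ) = dd i (f1 F) := F.2.2 i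

theorem f2_dd (F : C2a n α) (i j : J1 n) : (F.1 i j : En n → ℂ) = dd i (dd j (f2 F)) := F.2.2 i j

theorem f1_ext {F G : C1a n α} (h : f1 F = f1 G) : F = G :=
  Subtype.ext (funext fun i => Hol.coe_injective (by
    show (F.1 i : En n → ℂ) = G.1 i
    rw [f1_dd, f1_dd, h]))

theorem f2_ext {F G : C2a n α} (h : f2 F = f2 G) : F = G :=
  Subtype.ext (funext fun i => funext fun j => Hol.coe_injective (by
    show (F.1 i j : En n → ℂ) = G.1 i j
    rw [f2_dd, f2_dd, h]))

theorem f1_add (F G : C1a n α) : f1 (F + G) = f1 F + f1 G := rfl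

theorem f2_add (F G : C2a n α) : f2 (F + G) = f2 F + f2 G := rfl

theorem f1_smul (c : ℂ) (F : C1a n α) : f1 (c • F) = c • f1 F := rfl

theorem f2_smul (c : ℂ) (F : C2a n α) : f2 (c • F) = c • f2 F := rfl

theorem f2_sub (F G : C2a n α) : f2 (F - G) = f2 F - f2 G := rfl

theorem b1_f1 (F : C1a n α) : B1 α (f1 F) ‖F‖ :=
  ⟨f1_cd F, fun i => by
    have h := norm_le_pi_norm F.1 i
    rw [← f1_dd]
    exact (hm_hol (F.1 i)).mono h h⟩

theorem b2_f2 (F : C2a n α) : B2 α (f2 F) ‖F‖ :=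
  ⟨f2_cd F, fun i j => by
    have h := (norm_le_pi_norm (F.1 i) j).trans (norm_le_pi_norm F.1 i)
    rw [← f2_dd]
    exact (hm_hol (F.1 i j)).mono h h⟩

theorem norm_le_b1 {F : C1a n α} (h : B1 α (f1 F) A) : ‖F‖ ≤ 2 * A := by
  have h0 := h.nonneg
  refine (pi_norm_le_iff_of_nonneg (by positivity)).2 fun i => ?_
  have h1 := h.2 i
  rw [← f1_dd] at h1
  exact (norm_le_hm h1 h0 h0).trans_eq (by ring)

theorem norm_le_b2 {F : C2a n α} (h : B2 α (f2 F) A) : ‖F‖ ≤ 2 * A := by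
  have h0 := h.nonneg
  refine (pi_norm_le_iff_of_nonneg (by positivity)).2 fun i =>
    (pi_norm_le_iff_of_nonneg (by positivity)).2 fun j => ?_
  have h1 := h.2 i j
  rw [← f2_dd] at h1
  exact (norm_le_hm h1 h0 h0).trans_eq (by ring)

theorem B1.ex (h : B1 α f A) : ∃ F : C1a n α, f1 F = f :=
  ⟨⟨fun i => mkH (P218H.dd i f) ⟨_, _, h.2 i⟩, h.1, fun _ => rfl⟩, rfl⟩

theorem B2.ex (h : B2 α f A) : ∃ F : C2a n α, f2 F = f :=
  ⟨⟨fun i j => mkH (P218H.dd i (P218H.dd j f)) ⟨_, _, h.2 i j⟩, h.1, fun _ _ => rfl⟩, rfl⟩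

variable {X : Type} [NormedAddCommGroup X] [NormedSpace ℂ X]

/-- bounded operators with values in `C1a` -/
theorem ex_L1 (T : X → En n → ℂ) (h1 : ∀ x x', T (x + x') = T x + T x')
    (h2 : ∀ (c : ℂ) x, T (c • x) = c • T x) {C : ℝ} (hC : 0 ≤ C)
    (h : ∀ x, B1 α (T x) (C * ‖x‖)) :
    ∃ L : X →L[ℂ] C1a n α, ‖L‖ ≤ 2 * C ∧ ∀ x, f1 (L x) = T x := by
  choose L hL using fun x => (h x).ex
  let L₀ : X →ₗ[ℂ] C1a n α :=
    { toFun := L
      map_add' := fun x x' => f1_ext (by rw [f1_add, hL, hL, hL, h1])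
      map_smul' := fun c x => f1_ext (by rw [RingHom.id_apply, f1_smul, hL, hL, h2]) }
  have hb : ∀ x, ‖L₀ x‖ ≤ 2 * C * ‖x‖ := fun x =>
    (norm_le_b1 (F := L x) (by rw [hL]; exact h x)).trans_eq (by ring)
  exact ⟨L₀.mkContinuous _ hb, L₀.mkContinuous_norm_le (by positivity) hb, hL⟩

/-- bounded operators with values in `C2a` -/
theorem ex_L2 (T : X → En n → ℂ) (h1 : ∀ x x', T (x + x') = T x + T x')
    (h2 : ∀ (c : ℂ) x, T (c • x) = c • T x) {C : ℝ} (hC : 0 ≤ C)
    (h : ∀ x, B2 α (T x) (C * ‖x‖)) :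
    ∃ L : X →L[ℂ] C2a n α, ‖L‖ ≤ 2 * C ∧ ∀ x, f2 (L x) = T x := by
  choose L hL using fun x => (h x).ex
  let L₀ : X →ₗ[ℂ] C2a n α :=
    { toFun := L
      map_add' := fun x x' => f2_ext (by rw [f2_add, hL, hL, hL, h1])
      map_smul' := fun c x => f2_ext (by rw [RingHom.id_apply, f2_smul, hL, hL, h2]) }
  have hb : ∀ x, ‖L₀ x‖ ≤ 2 * C * ‖x‖ := fun x =>
    (norm_le_b2 (F := L x) (by rw [hL]; exact h x)).trans_eq (by ring)
  exact ⟨L₀.mkContinuous _ hb, L₀.mkContinuous_norm_le (by positivity) hb, hL⟩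

end jets

/-! ### local calculus -/

section loc
variable {V : Type} [NormedAddCommGroup V] [NormedSpace ℝ V] {f g : En n → V} {x : En n}
  {a : J1 n → J1 n → En n → ℝ}

theorem dd_ev (h : f =ᶠ[𝓝 x] g) (i : J1 n) : dd i f =ᶠ[𝓝 x] dd i g := by
  cases i with
  | none => exact h
  | some i => exact (h.fderiv (𝕜 := ℝ)).mono fun y hy => congrArg (fun L : En n →L[ℝ] V => L (ee i)) hy

theorem op_congr (h : f =ᶠ[𝓝 x] g) : op a f x = op a g x :=
  Finset.sum_congr rfl fun i _ => Finset.sum_congr rfl fun j _ => by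
    rw [(dd_ev (dd_ev h j) i).eq_of_nhds]

theorem dd_cda {m : WithTop ℕ∞} (h : ContDiffAt ℝ (m + 1) f x) (i : J1 n) :
    ContDiffAt ℝ m (dd i f) x := by
  cases i with
  | none => exact h.of_le le_self_add
  | some i => exact (h.fderiv_right le_rfl).clm_apply contDiffAt_const

theorem dd_cda1 (h : ContDiffAt ℝ 2 f x) (i : J1 n) : ContDiffAt ℝ 1 (dd i f) x :=
  dd_cda (m := 1) h i

theorem dd_smooth (h : ContDiff ℝ ∞ f) (i : J1 n) : ContDiff ℝ ∞ (dd i f) :=
  contDiff_iff_contDiffAt.2 fun _ => dd_cda (m := ∞) h.contDiffAt i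

theorem dd_dd (h : ContDiffAt ℝ 2 f x) (i j : Fin n) :
    dd (some i) (dd (some j) f) x = fderiv ℝ (fderiv ℝ f) x (ee i) (ee j) := by
  have h1 : DifferentiableAt ℝ (fderiv ℝ f) x :=
    (h.fderiv_right (m := 1) (by norm_num)).differentiableAt one_ne_zero
  show fderiv ℝ (fun y => fderiv ℝ f y (ee j)) x (ee i) = _
  rw [fderiv_clm_apply h1 (differentiableAt_const _)]
  simp

theorem dd_clm {W : Type} [NormedAddCommGroup W] [NormedSpace ℝ W] (L : V →L[ℝ] W)
    (h : DifferentiableAt ℝ f x) (i : J1 n) : dd i (fun y => L (f y)) x = L (dd i f x) := by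
  cases i with
  | none => rfl
  | some i =>
    show fderiv ℝ (L ∘ f) x (ee i) = _
    rw [(L.hasFDerivAt.comp x h.hasFDerivAt).fderiv]
    rfl

theorem ev_diff (h : ContDiffAt ℝ 2 f x) : ∀ᶠ y in 𝓝 x, DifferentiableAt ℝ f y :=
  (h.eventually (by simp)).mono fun _ hy => hy.differentiableAt two_ne_zero

theorem dd2_clm {W : Type} [NormedAddCommGroup W] [NormedSpace ℝ W] (L : V →L[ℝ] W)
    (h : ContDiffAt ℝ 2 f x) (i j : J1 n) :
    dd i (dd j fun y => L (f y)) x = L (dd i (dd j f) x) := by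
  have h1 : (dd j fun y => L (f y)) =ᶠ[𝓝 x] fun y => L (dd j f y) :=
    (ev_diff h).mono fun y hy => dd_clm L hy j
  rw [(dd_ev h1 i).eq_of_nhds, dd_clm L ((dd_cda1 h j).differentiableAt one_ne_zero)]

theorem op_clm {W : Type} [NormedAddCommGroup W] [NormedSpace ℝ W] (L : V →L[ℝ] W)
    (h : ContDiffAt ℝ 2 f x) : op a (fun y => L (f y)) x = L (op a f x) := by
  simp only [op, dd2_clm L h, map_sum, map_smul]

theorem op_add (hf : ContDiffAt ℝ 2 f x) (hg : ContDiffAt ℝ 2 g x) :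
    op a (fun y => f y + g y) x = op a f x + op a g x := by
  have h := hf.prodMk hg
  have h1 := op_clm (a := a) (ContinuousLinearMap.fst ℝ V V + ContinuousLinearMap.snd ℝ V V) h
  have h2 := op_clm (a := a) (ContinuousLinearMap.fst ℝ V V) h
  have h3 := op_clm (a := a) (ContinuousLinearMap.snd ℝ V V) h
  exact h1.trans (congrArg₂ (· + ·) h2.symm h3.symm)

theorem op_neg (hf : ContDiffAt ℝ 2 f x) : op a (fun y => -f y) x = -op a f x :=
  op_clm (-ContinuousLinearMap.id ℝ V) hf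

theorem op_sub (hf : ContDiffAt ℝ 2 f x) (hg : ContDiffAt ℝ 2 g x) :
    op a (fun y => f y - g y) x = op a f x - op a g x := by
  simp only [sub_eq_add_neg]
  rw [op_add hf hg.neg, op_neg hg]

theorem op_zero : op a (fun _ => (0 : V)) x = 0 := by
  have h := op_clm (a := a) (x := x) (0 : V →L[ℝ] V) (f := fun _ => (0 : V)) contDiffAt_const
  simpa using h

theorem op_cmul {f : En n → ℂ} (hf : ContDiffAt ℝ 2 f x) (c : ℂ) :
    op a (fun y => c * f y) x = c * op a f x :=
  op_clm (ContinuousLinearMap.mul ℝ ℂ c) hf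

theorem op_sum {ι : Type} (s : Finset ι) {F : ι → En n → V} (h : ∀ i ∈ s, ContDiffAt ℝ 2 (F i) x) :
    op a (fun y => ∑ i ∈ s, F i y) x = ∑ i ∈ s, op a (F i) x := by
  classical
  induction s using Finset.induction_on with
  | empty => simpa using op_zero
  | insert b s hb ih =>
    have h1 := fun i hi => h i (Finset.mem_insert_of_mem hi)
    simp only [Finset.sum_insert hb]
    rw [op_add (h b (Finset.mem_insert_self _ _)) (ContDiffAt.sum h1), ih h1]

/-- the operator only depends on the values on the surface -/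
theorem Ell.congr {S : Set (En n)} {pr : En n → En n} (h : Ell S pr a) {p : En n} (hp : p ∈ S)
    {f g : En n → ℂ} (hf : ContDiffAt ℝ 2 f p) (hg : ContDiffAt ℝ 2 g p)
    (e : ∀ᶠ y in 𝓝[S] p, f y = g y) : op a f p = op a g p := by
  have hd := hf.sub hg
  rw [← sub_eq_zero, ← op_sub hf hg]
  have key : ∀ L : ℂ →L[ℝ] ℝ, L (op a (fun y => f y - g y) p) = 0 := fun L => by
    rw [← op_clm L hd]
    exact h.int p hp _ (L.contDiff.contDiffAt.comp p hd) (e.mono fun y hy => by simp [hy])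
  exact Complex.ext (key Complex.reCLM) (key Complex.imCLM)

theorem cm_zero {χ : En n → ℝ} (h : ∀ᶠ y in 𝓝 x, χ y = 0) : cm a χ f x = 0 := by
  unfold cm
  rw [op_congr (g := fun _ => 0) (h.mono fun y hy => by simp [hy]), op_zero, h.self_of_nhds]
  simp

theorem cm_one {χ : En n → ℝ} (h : ∀ᶠ y in 𝓝 x, χ y = 1) : cm a χ f x = 0 := by
  unfold cm
  rw [op_congr (g := f) (h.mono fun y hy => by simp [hy]), h.self_of_nhds]
  simp

end loc

/-! ### the radial steps -/

section st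
variable {c : ℝ} {x : En n}

theorem st_smooth (c : ℝ) : ContDiff ℝ ∞ (st c : En n → ℝ) :=
  Real.smoothTransition.contDiff.comp
    (((contDiff_norm_sq ℝ).sub contDiff_const).div_const _)

theorem st_nonneg : 0 ≤ st c x := Real.smoothTransition.nonneg _

theorem st_le_one : st c x ≤ 1 := Real.smoothTransition.le_one _

theorem st_zero (hc : 0 ≤ c) (h : ‖x‖ ≤ c) : st c x = 0 :=
  Real.smoothTransition.zero_of_nonpos (div_nonpos_of_nonpos_of_nonneg
    (sub_nonpos.2 (pow_le_pow_left₀ (norm_nonneg _) h 2)) (by linarith))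

theorem st_one (hc : 0 ≤ c) (h : c + 1 ≤ ‖x‖) : st c x = 1 :=
  Real.smoothTransition.one_of_one_le (by
    rw [le_div_iff₀ (by linarith)]
    nlinarith [pow_le_pow_left₀ (by linarith) h 2])

theorem st_ev_zero (hc : 0 ≤ c) (h : ‖x‖ < c) : ∀ᶠ y in 𝓝 x, st c y = 0 :=
  mem_of_superset ((isOpen_lt continuous_norm continuous_const).mem_nhds h) fun _ hy =>
    st_zero hc (le_of_lt hy)

theorem st_ev_one (hc : 0 ≤ c) (h : c + 1 < ‖x‖) : ∀ᶠ y in 𝓝 x, st c y = 1 :=
  mem_of_superset ((isOpen_lt continuous_const continuous_norm).mem_nhds h) fun _ hy =>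
    st_one hc (le_of_lt hy)

end st

theorem Tube.pr_self {S : Set (En n)} {pr nu : En n → En n} {ta : En n → ℝ} {de : ℝ}
    (h : Tube S pr nu ta de) {p : En n} (hp : p ∈ S) : pr p = p := by
  simpa using (h.ray p hp 0 (by simpa using h.pos)).1

theorem Tube.closed {S : Set (En n)} {pr nu : En n → En n} {ta : En n → ℝ} {de : ℝ}
    (h : Tube S pr nu ta de) : IsClosed S := by
  rw [show S = {x | ta x = 0} from Set.ext h.mem]
  exact isClosed_eq h.sta.continuous continuous_const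

theorem Core.Ok0.compact {M : Type} {c : Core n k M} (h : c.Ok0) : IsCompact c.K :=
  (isCompact_closedBall _ _).inter_left h.tube.closed

end Vale.Agent.P218H
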