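import Vale.Agent.P218H.SpecS
import Mathlib.Analysis.InnerProductSpace.Trace

/-! # P218, block LIN: finitely many constraints make the second variation coercive -/

open scoped Topology ContDiff RealInnerProductSpace
open Filter Set Metric MeasureTheory
open Vale.Agent.P218.H63 (IsTubeShrinker stab hessSq)

noncomputable section

namespace Vale.Agent.P218H

namespace Co

theorem gs {X : Type} [AddCommGroup X] [Module ℝ X] (B : X →ₗ[ℝ] X →ₗ[ℝ] ℝ)
    (sy : ∀ x y, B x y = B y x) (nn : ∀ x, 0 ≤ B x x) (P : Submodule ℝ X) (s : Finset X)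
    (hs : ∀ ζ ∈ s, ζ ∈ P) : ∃ (k : ℕ) (ψ : Fin k → X), (∀ i, ψ i ∈ P) ∧
      (∀ i j, B (ψ i) (ψ j) = if i = j then 1 else 0) ∧
      ∀ ζ ∈ s, ∃ c : Fin k → ℝ, ∀ f, B f ζ = ∑ i, c i * B f (ψ i) := by
  classical
  induction s using Finset.induction_on with
  | empty => exact ⟨0, Fin.elim0, fun i => i.elim0, fun i => i.elim0, by simp⟩
  | insert ζ s _ ih =>
    obtain ⟨k, ψ, h1, h2, h3⟩ := ih fun ζ h => hs ζ (Finset.mem_insert_of_mem h)
    set r := ζ - ∑ i, B ζ (ψ i) • ψ i with hr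
    have r1 : ∀ f, B f r = B f ζ - ∑ i, B ζ (ψ i) * B f (ψ i) := fun f => by simp [hr]
    have r2 : ∀ j, B (ψ j) r = 0 := fun j => by simp [r1, h2, sy ζ]
    rcases (nn r).eq_or_lt with h | h
    · refine ⟨k, ψ, h1, h2, Finset.forall_mem_insert _ _ _ |>.2 ⟨⟨fun i => B ζ (ψ i), fun f => ?_⟩, h3⟩⟩
      refine sub_eq_zero.1 ((r1 f).symm.trans (by_contra fun h0 => ?_))
      have := nn (f - ((B f f + 1) / (2 * B f r)) • r)
      simp only [map_sub, map_smul, LinearMap.sub_apply, LinearMap.smul_apply, smul_eq_mul, ← h,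
        sy r f, mul_zero, sub_zero] at this
      have e : (B f f + 1) / (2 * B f r) * B f r = (B f f + 1) / 2 := by field_simp
      linarith
    · have q : 0 < √(B r r) := Real.sqrt_pos.2 h
      refine ⟨k + 1, Fin.cons ((√(B r r))⁻¹ • r) ψ, Fin.forall_fin_succ.2 ⟨P.smul_mem _ (P.sub_mem
        (hs ζ (Finset.mem_insert_self _ _)) (P.sum_mem fun i _ => P.smul_mem _ (h1 i))), h1⟩,
        fun i j => ?_, Finset.forall_mem_insert _ _ _ |>.2
          ⟨⟨Fin.cons √(B r r) fun i => B ζ (ψ i), fun f => ?_⟩, fun ζ' h' => ?_⟩⟩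
      · refine Fin.cases (Fin.cases ?_ (fun j => ?_) j) (fun i => Fin.cases ?_ (fun j => ?_) j) i
        · simp only [Fin.cons_zero, map_smul, LinearMap.smul_apply, smul_eq_mul, if_true]
          field_simp
          exact (Real.sq_sqrt h.le).symm
        · simp [sy r, r2, (Fin.succ_ne_zero j).symm]
        · simp [r2]
        · simp [h2]
      · simp only [Fin.sum_univ_succ, Fin.cons_zero, Fin.cons_succ, map_smul, smul_eq_mul]
        rw [mul_inv_cancel_left₀ q.ne', r1, sub_add_cancel]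
      · obtain ⟨c, hc⟩ := h3 ζ' h'
        exact ⟨Fin.cons 0 c, fun f => by simp [Fin.sum_univ_succ, hc]⟩

variable {n : ℕ} {S : Set (En n)} {w : En n → ℝ} {δ C : ℝ} {ν : Measure (En n)}

/-- continuous functions with compact support -/
def Cc (n : ℕ) : Submodule ℝ (En n → ℝ) where
  carrier := {f | Continuous f ∧ HasCompactSupport f}
  zero_mem' := ⟨continuous_const, HasCompactSupport.zero⟩
  add_mem' h h' := ⟨h.1.add h'.1, h.2.add h'.2⟩
  smul_mem' c _ h := ⟨h.1.const_smul c, h.2.smul_left (f := fun _ => c)⟩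

/-- the smooth ones -/
def Sm (n : ℕ) : Submodule ℝ (Cc n) where
  carrier := {f | ContDiff ℝ ∞ f.1}
  zero_mem' := (contDiff_const : ContDiff ℝ ∞ fun _ : En n => (0 : ℝ))
  add_mem' {f g} h h' := ContDiff.add (𝕜 := ℝ) (n := ∞) (f := f.1) (g := g.1) h h'
  smul_mem' c f h := ContDiff.const_smul (𝕜 := ℝ) (n := ∞) (f := f.1) c h

theorem int_mul [IsFiniteMeasureOnCompacts ν] (f g : Cc n) :
    Integrable (fun x => f.1 x * g.1 x) ν :=
  (f.2.1.mul g.2.1).integrable_of_hasCompactSupport f.2.2.mul_right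

/-- the scalar product -/
def BB (ν : Measure (En n)) [IsFiniteMeasureOnCompacts ν] : Cc n →ₗ[ℝ] Cc n →ₗ[ℝ] ℝ :=
  LinearMap.mk₂ ℝ (fun f g => ∫ x, f.1 x * g.1 x ∂ν)
    (fun f f' g => by simpa [add_mul] using integral_add (int_mul f g) (int_mul f' g))
    (fun c f g => by simp [mul_assoc, integral_const_mul])
    (fun f g g' => by simpa [mul_add] using integral_add (int_mul f g) (int_mul f g'))
    fun c f g => by simp [mul_left_comm _ c, integral_const_mul]

theorem hess_bd (h : IsTubeShrinker S w δ C) {p : En n} (hp : p ∈ S) :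
    hessSq w p ≤ n * C ^ 2 := by
  have h1 := h.hess_le p (by simpa [(h.mem_iff p).1 hp] using h.pos)
  rw [hessSq, LinearMap.trace_eq_sum_inner _ (EuclideanSpace.basisFun (Fin n) ℝ)]
  refine (Finset.sum_le_card_nsmul _ _ (C ^ 2) fun i _ => ?_).trans_eq (by simp)
  have h2 := (EuclideanSpace.basisFun (Fin n) ℝ).norm_eq_one i
  refine (real_inner_le_norm _ _).trans ?_
  rw [h2, one_mul]
  exact ((ContinuousLinearMap.unit_le_opNorm _ _ h2.le).trans
    (ContinuousLinearMap.opNorm_comp_le _ _)).trans (by nlinarith [norm_nonneg (fderiv ℝ (gradient w) p)])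

theorem grad_cont {f : En n → ℝ} (hf : ContDiff ℝ 1 f) : Continuous (gradient f) :=
  (InnerProductSpace.toDual ℝ (En n)).symm.continuous.comp (hf.continuous_fderiv one_ne_zero)

theorem tg_int [IsFiniteMeasureOnCompacts ν] (hw : ContDiff ℝ ∞ w) {f : En n → ℝ}
    (hf : ContDiff ℝ 1 f) (hc : HasCompactSupport f) : Integrable (fun x => ‖tg w f x‖ ^ 2) ν := by
  have c1 := grad_cont hf
  have c2 := grad_cont (hw.of_le (by simp))
  refine Continuous.integrable_of_hasCompactSupport (by unfold tg; fun_prop)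
    ((hc.fderiv ℝ).mono fun x hx h0 => hx ?_)
  simp [tg, gradient, h0]

theorem hess_cont (hw : ContDiff ℝ ∞ w) : Continuous (hessSq w) := by
  have c : Continuous (fderiv ℝ (gradient w)) :=
    ((InnerProductSpace.toDual ℝ (En n)).symm.contDiff.comp
      (hw.fderiv_right (m := 1) (by
        exact (WithTop.coe_le_coe.2 le_top : ((2 : ℕ∞) : WithTop ℕ∞) ≤ ∞)))).continuous_fderiv
        one_ne_zero
  exact ((LinearMap.trace ℝ (En n)).comp (ContinuousLinearMap.coeLM ℝ)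
    ).continuous_of_finiteDimensional.comp (c.clm_comp c)

theorem tg_mul {f : En n → ℝ} (hf : ContDiff ℝ 1 f) (c : ℝ) (x : En n) :
    tg w (fun y => c * f y) x = c • tg w f x := by
  have : gradient (fun y => c * f y) x = c • gradient f x := by
    simp only [gradient, fderiv_const_mul (hf.differentiable one_ne_zero x), map_smul]
  simp only [tg, this, inner_smul_left, smul_sub, smul_smul, conj_trivial]

theorem step (h : IsTubeShrinker S w δ C) (hw : ContDiff ℝ ∞ w) (hM : MS S w ν) (hR : Rel w ν) :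
    ∃ (s : Finset (Sm n)) (m : ℕ), ∀ f : En n → ℝ, ContDiff ℝ 1 f → HasCompactSupport f →
      ∫ x, f x ^ 2 ∂ν ≤ QQ w ν f + m * ∑ ζ ∈ s, (∫ x, f x * ζ.1.1 x ∂ν) ^ 2 := by
  classical
  have := hM.fin
  by_contra! hn
  set K : ℝ := n * C ^ 2 + 1 / 2 with hK
  have sq : ∀ {f : En n → ℝ}, ContDiff ℝ 1 f → HasCompactSupport f →
      Integrable (fun x => f x ^ 2) ν := fun hf hc => by
    simpa only [pow_two] using int_mul ⟨_, hf.continuous, hc⟩ ⟨_, hf.continuous, hc⟩
  have low : ∀ {f : En n → ℝ}, ContDiff ℝ 1 f → HasCompactSupport f →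
      ∫ x, ‖tg w f x‖ ^ 2 ∂ν - K * ∫ x, f x ^ 2 ∂ν ≤ QQ w ν f := fun {f} hf hc => by
    have i1 : Integrable (fun x => (hessSq w x + 1 / 2) * f x ^ 2) ν :=
      (((hess_cont hw).add continuous_const).mul (hf.continuous.pow 2)
        ).integrable_of_hasCompactSupport (hc.mono fun x hx h0 => hx (by simp [h0]))
    rw [QQ, integral_sub (tg_int hw hf hc) i1, ← integral_const_mul]
    refine sub_le_sub_left (integral_mono_ae i1 ((sq hf hc).const_mul _) ?_) _
    filter_upwards [show ∀ᵐ x ∂ν, x ∈ S from hM.supp] with x hx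
    exact mul_le_mul_of_nonneg_right (add_le_add_left (hess_bd h hx) _) (sq_nonneg _)
  have ex : ∀ i : Finset (Sm n) × ℕ, ∃ v : En n → ℝ, (ContDiff ℝ 1 v ∧ HasCompactSupport v) ∧
      ∫ x, v x ^ 2 ∂ν = 1 ∧ ∫ x, ‖tg w v x‖ ^ 2 ∂ν +
        i.2 * ∑ ζ ∈ i.1, (∫ x, v x * ζ.1.1 x ∂ν) ^ 2 ≤ 1 + K := fun i => by
    obtain ⟨f, hf, hc, k⟩ := hn i.1 i.2
    have k1 := low hf hc
    have k2 : 0 ≤ ∫ x, ‖tg w f x‖ ^ 2 ∂ν := integral_nonneg fun _ => sq_nonneg _
    have k3 : 0 ≤ (i.2 : ℝ) * ∑ ζ ∈ i.1, (∫ x, f x * ζ.1.1 x ∂ν) ^ 2 := by positivity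
    have k4 : 0 < ∫ x, f x ^ 2 ∂ν := (integral_nonneg fun _ => sq_nonneg _).lt_of_ne fun e => by
      rw [← e] at k k1
      linarith
    set c := (√(∫ x, f x ^ 2 ∂ν))⁻¹ with hc'
    have e : c ^ 2 * ∫ x, f x ^ 2 ∂ν = 1 := by
      rw [hc', inv_pow, Real.sq_sqrt k4.le, inv_mul_cancel₀ k4.ne']
    refine ⟨fun y => c * f y, ⟨contDiff_const.mul hf, hc.mul_left⟩, ?_, ?_⟩
    · simp only [mul_pow, integral_const_mul, e]
    · simp only [tg_mul hf, norm_smul, mul_pow, Real.norm_eq_abs, sq_abs, integral_const_mul,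
        mul_assoc, ← Finset.mul_sum]
      nlinarith [mul_le_mul_of_nonneg_left k1 (sq_nonneg c),
        mul_le_mul_of_nonneg_left k.le (sq_nonneg c)]
  choose v v1 v2 v3 using ex
  have t0 : ∀ i, 0 ≤ ∫ x, ‖tg w (v i) x‖ ^ 2 ∂ν := fun i => integral_nonneg fun _ => sq_nonneg _
  have key := hR _ (Ultrafilter.of atTop) v (2 + K) v1 (fun i => by
    rw [integral_add (sq (v1 i).1 (v1 i).2) (tg_int hw (v1 i).1 (v1 i).2), v2]
    have : 0 ≤ (i.2 : ℝ) * ∑ ζ ∈ i.1, (∫ x, v i x * ζ.1.1 x ∂ν) ^ 2 := by positivity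
    linarith [v3 i]) fun ζ z1 z2 => by
    refine Tendsto.mono_left ?_ (Ultrafilter.of_le _)
    let z : Sm n := ⟨⟨ζ, z1.continuous, z2⟩, z1⟩
    have t2 : Tendsto (fun i : Finset (Sm n) × ℕ => i.2) atTop atTop := by
      rw [← prod_atTop_atTop_eq]
      exact tendsto_snd
    have t1 : Tendsto (fun i => (∫ x, v i x * ζ x ∂ν) ^ 2) atTop (𝓝 0) := by
      refine squeeze_zero' (.of_forall fun _ => sq_nonneg _) ?_
        ((tendsto_const_div_atTop_nhds_zero_nat (1 + K)).comp t2)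
      filter_upwards [eventually_ge_atTop (({z}, 1) : Finset (Sm n) × ℕ)] with i hi
      have m0 : (0 : ℝ) < i.2 := by exact_mod_cast hi.2
      have := Finset.single_le_sum (f := fun ζ : Sm n => (∫ x, v i x * ζ.1.1 x ∂ν) ^ 2)
        (fun _ _ => sq_nonneg _) (hi.1 (Finset.mem_singleton_self z))
      refine (le_div_iff₀ m0).2 ?_
      nlinarith [v3 i, t0 i]
    rw [tendsto_zero_iff_abs_tendsto_zero]
    simpa [Function.comp_def, Real.sqrt_sq_eq_abs] using t1.sqrt
  simp only [v2] at key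
  exact one_ne_zero (tendsto_nhds_unique tendsto_const_nhds key)

end Co

open Co in
/-- **CO** -/
theorem co : CO := by
  classical
  intro n S w δ C ν h hw hM hR
  have := hM.fin
  obtain ⟨s, m, hs⟩ := step h hw hM hR
  obtain ⟨k, ψ, h1, h2, h3⟩ := gs (BB ν) (fun f g => by simp [BB, mul_comm])
    (fun f => integral_nonneg fun x => mul_self_nonneg (f.1 x)) (Sm n)
    (s.image Subtype.val) (by simp only [Finset.forall_mem_image]; exact fun ζ _ => ζ.2)
  choose! c hc using h3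
  refine ⟨k, fun i => (ψ i).1, fun i => ⟨h1 i, (ψ i).2.2⟩, ⟨fun i => (ψ i).1, fun i =>
    ⟨h1 i, (ψ i).2.2, subset_iUnion (fun j => tsupport (ψ j).1) i⟩, h2⟩,
    m * ∑ ζ ∈ s, ∑ i, c ζ.1 i ^ 2, by positivity, fun f hf hc' => (hs f hf hc').trans ?_⟩
  rw [mul_assoc, Finset.sum_mul]
  gcongr with ζ hζ
  exact (congrArg (· ^ 2) (hc ζ.1 (Finset.mem_image_of_mem _ hζ) ⟨f, hf.continuous, hc'⟩)).trans_le
    (Finset.sum_mul_sq_le_sq_mul_sq _ _ _)

end Vale.Agent.P218H
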