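import Vale.Agent.P272.K.LIN.Hol
import Mathlib.Analysis.InnerProductSpace.PiL2
import Mathlib.Analysis.SpecialFunctions.SmoothTransition
import Mathlib.Analysis.Calculus.ContDiff.Operations
import Mathlib.Analysis.Calculus.Deriv.Basic
import Mathlib.MeasureTheory.Integral.Bochner.Basic
import Mathlib.MeasureTheory.Measure.Lebesgue.Basic
import Mathlib.MeasureTheory.Measure.Haar.InnerProductSpace

/-!
# P218, blocks HSP and LIN: definitions

Hölder spaces of complex functions, second order operators in coordinates, the core of a surface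
with a tubular neighbourhood, abstract end data and the gluing system.
-/

open scoped NNReal Topology ContDiff
open Filter Set Metric MeasureTheory
open Vale.Agent.P272.K.LIN (Hol)

noncomputable section

namespace Vale.Agent.P218H

/-- Euclidean space -/
abbrev En (n : ℕ) := EuclideanSpace ℝ (Fin n)

/-- no derivative, or one partial derivative -/
abbrev J1 (n : ℕ) := Option (Fin n)

variable {n k : ℕ}

/-- the basis vectors -/
def ee (i : Fin n) : En n := EuclideanSpace.single i 1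

section
variable {V : Type} [NormedAddCommGroup V] [NormedSpace ℝ V]

/-- the function itself or a partial derivative -/
def dd : J1 n → (En n → V) → En n → V
  | none, f => f
  | some i, f => fun x => fderiv ℝ f x (ee i)

/-- a second order operator with real coefficients -/
def op (a : J1 n → J1 n → En n → ℝ) (f : En n → V) (x : En n) : V :=
  ∑ i, ∑ j, a i j x • dd i (dd j f) x

/-- the commutator of the operator and a cut-off function -/
def cm (a : J1 n → J1 n → En n → ℝ) (χ : En n → ℝ) (f : En n → V) (x : En n) : V :=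
  op a (fun y => χ y • f y) x - χ x • op a f x

/-- the average along the rays through the foot point -/
def avg (η : ℝ → ℝ) (pr nu : En n → En n) (v : En n → V) (x : En n) : V :=
  ∫ t, η t • v (pr x + t • nu (pr x))

end

/-- the principal symbol -/
def sym (a : J1 n → J1 n → En n → ℝ) (x : En n) (ξ : En n →L[ℝ] ℝ) : ℝ :=
  ∑ i, ∑ j, a (some i) (some j) x * (ξ (ee i) * ξ (ee j))

/-- the coefficients of the Laplacian -/
def lapc : J1 n → J1 n → ℝ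
  | some i, some j => if i = j then 1 else 0
  | _, _ => 0

/-- the Hölder weight -/
def hw (α : ℝ) (Y : Type) [PseudoMetricSpace Y] : Y → Y → ℝ≥0 := fun x y => nndist x y ^ α

/-- the Banach algebra of bounded Hölder functions -/
abbrev HH (α : ℝ) (Y : Type) [PseudoMetricSpace Y] := Hol (hw α Y) ℂ

/-- bounds for the function and its Hölder seminorm -/
structure HM {Y : Type} [PseudoMetricSpace Y] (α : ℝ) (f : Y → ℂ) (A B : ℝ) : Prop where
  sup : ∀ x, ‖f x‖ ≤ A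
  hol : ∀ x y, ‖f x - f y‖ ≤ B * dist x y ^ α

/-- `C^{1,α}` bounds -/
def B1 (α : ℝ) (f : En n → ℂ) (A : ℝ) : Prop := ContDiff ℝ 1 f ∧ ∀ i, HM α (dd i f) A A

/-- `C^{2,α}` bounds -/
def B2 (α : ℝ) (f : En n → ℂ) (A : ℝ) : Prop :=
  ContDiff ℝ 2 f ∧ ∀ i j, HM α (dd i (dd j f)) A A

/-- the bounds of the resolvent at the spectral parameter `s` -/
structure RB (α s N : ℝ) (v : En n → ℂ) : Prop where
  zero : HM α v (N * s ^ (-(1 + α / 2))) (N * s ^ (-1 : ℝ))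
  one : ∀ i, HM α (dd (some i) v) (N * s ^ (-((1 + α) / 2))) (N * s ^ (-(1 / 2) : ℝ))
  two : ∀ i j, HM α (dd (some i) (dd (some j) v)) (N * s ^ (-(α / 2))) N

theorem dd_add {f g : En n → ℂ} (hf : Differentiable ℝ f) (hg : Differentiable ℝ g) (i : J1 n) :
    dd i (f + g) = dd i f + dd i g := by
  cases i with
  | none => rfl
  | some i =>
    funext x
    simp only [dd, Pi.add_apply]
    rw [fderiv_add (hf x) (hg x)]
    rfl

theorem dd_smul {f : En n → ℂ} (hf : Differentiable ℝ f) (c : ℂ) (i : J1 n) :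
    dd i (c • f) = c • dd i f := by
  cases i with
  | none => rfl
  | some i =>
    funext x
    simp only [dd, Pi.smul_apply]
    rw [fderiv_const_smul (hf x)]
    rfl

theorem dd_zero (i : J1 n) : dd i (0 : En n → ℂ) = 0 := by
  cases i with
  | none => rfl
  | some i =>
    funext x
    simp [dd]

theorem dd_cd {f : En n → ℂ} (hf : ContDiff ℝ 2 f) (i : J1 n) : ContDiff ℝ 1 (dd i f) := by
  cases i with
  | none => exact hf.of_le (by norm_num)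
  | some i => exact (hf.fderiv_right (m := 1) (by norm_num)).clm_apply contDiff_const

/-- the space `C^{1,α}`, as the space of the one-jets -/
def C1a (n : ℕ) (α : ℝ) : Submodule ℂ (J1 n → HH α (En n)) where
  carrier := {F | ContDiff ℝ 1 (F none : En n → ℂ) ∧
    ∀ i, (F i : En n → ℂ) = dd i (F none : En n → ℂ)}
  zero_mem' := ⟨contDiff_const, fun i => (dd_zero i).symm⟩
  add_mem' := fun {F G} hF hG => ⟨hF.1.add hG.1, fun i => by
    have h := dd_add (hF.1.differentiable one_ne_zero) (hG.1.differentiable one_ne_zero) i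
    rw [← hF.2, ← hG.2] at h
    exact h.symm⟩
  smul_mem' := fun c F hF => ⟨hF.1.const_smul c, fun i => by
    have h := dd_smul (hF.1.differentiable one_ne_zero) c i
    rw [← hF.2] at h
    exact h.symm⟩

/-- the space `C^{2,α}`, as the space of the two-jets; `α = 0` gives the `C²` functions with
bounded derivatives -/
def C2a (n : ℕ) (α : ℝ) : Submodule ℂ (J1 n → J1 n → HH α (En n)) where
  carrier := {F | ContDiff ℝ 2 (F none none : En n → ℂ) ∧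
    ∀ i j, (F i j : En n → ℂ) = dd i (dd j (F none none : En n → ℂ))}
  zero_mem' := ⟨contDiff_const, fun i j => by
    show (0 : En n → ℂ) = dd i (dd j (0 : En n → ℂ))
    rw [dd_zero, dd_zero]⟩
  add_mem' := fun {F G} hF hG => ⟨hF.1.add hG.1, fun i j => by
    have h := dd_add ((dd_cd hF.1 j).differentiable one_ne_zero)
      ((dd_cd hG.1 j).differentiable one_ne_zero) i
    rw [← dd_add (hF.1.differentiable two_ne_zero) (hG.1.differentiable two_ne_zero),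
      ← hF.2, ← hG.2] at h
    exact h.symm⟩
  smul_mem' := fun c F hF => ⟨hF.1.const_smul c, fun i j => by
    have h := dd_smul ((dd_cd hF.1 j).differentiable one_ne_zero) c i
    rw [← dd_smul (hF.1.differentiable two_ne_zero), ← hF.2] at h
    exact h.symm⟩

/-- the function of an element of `C1a` -/
def f1 {α : ℝ} (F : C1a n α) : En n → ℂ := F.1 none

/-- the function of an element of `C2a` -/
def f2 {α : ℝ} (F : C2a n α) : En n → ℂ := F.1 none none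

/-- a smooth radial step: `0` for `‖x‖ ≤ c`, `1` for `c + 1 ≤ ‖x‖` (when `0 ≤ c`) -/
def st (c : ℝ) (x : En n) : ℝ := Real.smoothTransition ((‖x‖ ^ 2 - c ^ 2) / (2 * c + 1))

/-- a tubular neighbourhood of `S`: foot point, direction of the rays, height -/
structure Tube (S : Set (En n)) (pr nu : En n → En n) (ta : En n → ℝ) (de : ℝ) : Prop where
  pos : 0 < de
  spr : ContDiff ℝ ∞ pr
  snu : ContDiff ℝ ∞ nu
  sta : ContDiff ℝ ∞ ta
  mem : ∀ x, x ∈ S ↔ ta x = 0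
  foot : ∀ x, |ta x| < de → pr x ∈ S ∧ x = pr x + ta x • nu (pr x)
  ray : ∀ p ∈ S, ∀ t, |t| < de → pr (p + t • nu p) = p ∧ ta (p + t • nu p) = t

/-- an elliptic operator on `S`, written with ambient coefficients -/
structure Ell (S : Set (En n)) (pr : En n → En n) (a : J1 n → J1 n → En n → ℝ) : Prop where
  sm : ∀ i j, ContDiff ℝ ∞ (a i j)
  int : ∀ p ∈ S, ∀ f : En n → ℝ, ContDiffAt ℝ 2 f p → (∀ᶠ y in 𝓝[S] p, f y = 0) → op a f p = 0
  nonneg : ∀ p ∈ S, ∀ ξ, 0 ≤ sym a p ξ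
  pos : ∀ p ∈ S, ∀ ξ : En n →L[ℝ] ℝ, ξ.comp (fderiv ℝ pr p) ≠ 0 → 0 < sym a p ξ

/-- an elliptic operator on the whole space which is the Laplacian outside a ball -/
structure Amb (b : J1 n → J1 n → En n → ℝ) : Prop where
  sm : ∀ i j, ContDiff ℝ ∞ (b i j)
  out : ∃ R, ∀ x, R ≤ ‖x‖ → ∀ i j, b i j x = lapc i j
  pos : ∀ x (ξ : En n →L[ℝ] ℝ), ξ ≠ 0 → 0 < sym b x ξ

/-- kernels for the average and the extension -/
structure Ker (de : ℝ) (et eh : ℝ → ℝ) : Prop where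
  set : ContDiff ℝ ∞ et
  seh : ContDiff ℝ ∞ eh
  et0 : ∀ t, de / 4 ≤ |t| → et t = 0
  one : ∫ t, et t = 1
  eh1 : ∀ t, |t| ≤ de / 4 → eh t = 1
  eh0 : ∀ t, de / 2 ≤ |t| → eh t = 0
  ehb : ∀ t, |eh t| ≤ 1

/-- quantitative nondegeneracy: approximate solutions of `L W = ∑ l ψ`, `∫ W ψ = 0` of polynomial
growth tend to zero -/
def NQ (S : Set (En n)) (a : J1 n → J1 n → En n → ℝ) (ν : Measure (En n))
    (ψ : Fin k → En n → ℝ) : Prop :=
  ∀ (C : ℝ) (N : ℕ) (W : ℕ → En n → ℂ) (l : ℕ → Fin k → ℂ) (R : ℕ → ℝ), Tendsto R atTop atTop →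
    (∀ j, ∀ p ∈ S, ‖p‖ < R j → ContDiffAt ℝ 2 (W j) p ∧ ∀ i, ‖dd i (W j) p‖ ≤ C * (1 + ‖p‖) ^ N) →
    (∀ j, ‖l j‖ ≤ C) →
    (∀ ρ ε : ℝ, 0 < ε → ∀ᶠ j in atTop, ∀ p ∈ S, ‖p‖ ≤ ρ →
      ‖op a (W j) p - ∑ i, l j i * ψ i p‖ ≤ ε) →
    (∀ i, Tendsto (fun j => ∫ p, W j p * ψ i p ∂ν) atTop (𝓝 0)) →
    Tendsto l atTop (𝓝 0) ∧
      ∀ ρ ε : ℝ, 0 < ε → ∀ᶠ j in atTop, ∀ p ∈ S, ‖p‖ ≤ ρ → ‖W j p‖ ≤ ε

/-- the fixed data: the surface `S`, its ends `Se` with inner boundary `B`, the tube, the operator,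
the radii and cut-off functions of the core, the constraints `ψ`, the slowly growing functions `Y`
with `L Y = b` -/
structure Core (n k : ℕ) (M : Type) where
  S : Set (En n)
  Se : Set (En n)
  B : Set (En n)
  pr : En n → En n
  nu : En n → En n
  ta : En n → ℝ
  de : ℝ
  et : ℝ → ℝ
  eh : ℝ → ℝ
  a : J1 n → J1 n → En n → ℝ
  r₀ : ℝ
  r : ℝ
  ce : En n → ℝ
  cc : En n → ℝ
  ψ : Fin k → En n → ℝ
  ν : Measure (En n)
  b : M → En n → ℂ
  Y : M → En n → ℂ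
  Mm : (M → ℂ) →ₗ[ℂ] (M → ℂ)
  mo : ℝ → ℝ
  φ : En n → ℝ
  N : ℕ

namespace Core

variable {M : Type} (c : Core n k M)

/-- the switch of the spectral parameter -/
def ka : En n → ℝ := st (c.r + 3)

/-- the compact core -/
def K : Set (En n) := c.S ∩ closedBall 0 (c.r + 6)

/-- the core function of an ambient function, for the kernel `η` -/
def wf (η : ℝ → ℝ) (v : En n → ℂ) (x : En n) : ℂ :=
  (1 - st (c.r + 7) x) • avg η c.pr c.nu v x

/-- the extension of a function on `K` -/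
def ext (f : En n → ℂ) (x : En n) : ℂ :=
  ((1 - st (c.r + 5) (c.pr x)) * c.eh (c.ta x)) • f (c.pr x)

/-- the extension of an end function -/
def lo (f : En n → ℂ) (x : En n) : ℂ :=
  (st (c.r₀ - 1) (c.pr x) * (1 - st (c.r + 6) (c.pr x)) * c.eh (c.ta x)) • f (c.pr x)

/-- the geometric hypotheses -/
structure Ok0 : Prop where
  tube : Tube c.S c.pr c.nu c.ta c.de
  ker : Ker c.de c.et c.eh
  ell : Ell c.S c.pr c.a
  one_le : 1 ≤ c.r₀
  r_le : c.r₀ ≤ c.r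
  sce : ContDiff ℝ ∞ c.ce
  scc : ContDiff ℝ ∞ c.cc
  ceb : ∀ x, 0 ≤ c.ce x ∧ c.ce x ≤ 1
  ccb : ∀ x, 0 ≤ c.cc x ∧ c.cc x ≤ 1
  ce0 : ∀ p ∈ c.S, ‖p‖ ≤ c.r₀ → (∀ᶠ y in 𝓝 p, c.ce y = 0) ∧ ∀ᶠ y in 𝓝 p, c.cc y = 1
  cc0 : ∀ p ∈ c.S, c.r + 3 ≤ ‖p‖ → (∀ᶠ y in 𝓝 p, c.cc y = 0) ∧ ∀ᶠ y in 𝓝 p, c.ce y = 1
  cce : ∀ p ∈ c.S, (∀ᶠ y in 𝓝 p, c.cc y = 1) ∨ ∀ᶠ y in 𝓝 p, c.ce y = 1
  sub : c.Se ⊆ c.S
  closed : IsClosed c.Se
  bsub : c.B ⊆ c.Se
  far : ∀ p ∈ c.S, c.r₀ - 1 ≤ ‖p‖ → p ∈ c.Se \ c.B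
  nhds : ∀ p ∈ c.Se \ c.B, c.Se ∈ 𝓝[c.S] p
  psi : ∀ i, ContDiff ℝ 1 (c.ψ i) ∧ ∀ x, c.r₀ ≤ ‖x‖ → c.ψ i x = 0
  fin : IsFiniteMeasureOnCompacts c.ν
  supp : c.ν c.Sᶜ = 0
  bb : ∀ i, ContDiff ℝ 1 (c.b i) ∧ ∀ p ∈ c.S, c.b i p ≠ 0 → c.cc p = 1
  bar : ContDiff ℝ 2 c.φ ∧ ∀ p ∈ c.Se, ‖p‖ ≤ c.r + 5 → 1 ≤ c.φ p ∧ op c.a c.φ p ≤ -1

/-- all hypotheses on the fixed data -/
structure Ok [Fintype M] : Prop extends c.Ok0 where
  nq : NQ c.S c.a c.ν c.ψ
  yy : ∃ C : ℝ, ∀ i, ∀ p ∈ c.S, ContDiffAt ℝ 2 (c.Y i) p ∧ op c.a (c.Y i) p = c.b i p ∧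
    (∀ j, ‖dd j (c.Y i) p‖ ≤ C * (1 + ‖p‖) ^ c.N) ∧ ∀ j, c.Y i p * c.ψ j p = 0

/-- the ambient operator commutes with the average up to a term of order zero -/
structure AmbOf (b : J1 n → J1 n → En n → ℝ) : Prop extends Amb b where
  comm : ∀ v : En n → ℂ, ContDiff ℝ 2 v → ∀ p ∈ c.S, ‖p‖ ≤ c.r + 5 →
    avg c.et c.pr c.nu (op b v) p =
      op c.a (avg c.et c.pr c.nu v) p + avg (deriv (deriv c.et)) c.pr c.nu v p

end Core

/-- the linear theory on the ends: spaces, operator (with its boundary data), evaluation, the low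
modes on the inner boundary, the inclusion of the `C^{1,β}` functions -/
structure EndD (n : ℕ) (M : Type) [Fintype M] (β : ℝ) where
  X : Type
  Y : Type
  [gX : NormedAddCommGroup X]
  [sX : NormedSpace ℂ X]
  [cX : CompleteSpace X]
  [gY : NormedAddCommGroup Y]
  [sY : NormedSpace ℂ Y]
  [cY : CompleteSpace Y]
  T : X →L[ℂ] Y
  ev : X →ₗ[ℂ] (En n → ℂ)
  ev' : Y →ₗ[ℂ] (En n → ℂ)
  γ : X →L[ℂ] (M → ℂ)
  inj : C1a n β →L[ℂ] Y

attribute [instance] EndD.gX EndD.sX EndD.cX EndD.gY EndD.sY EndD.cY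

namespace EndD

variable {M : Type} [Fintype M] {β : ℝ} (D : EndD n M β) (c : Core n k M)

/-- the hypotheses on the end data: constant `C`, error `δ`, radius of validity `R` -/
structure Ok (C δ R : ℝ) : Prop where
  surj : Function.Surjective D.T
  apr : ∀ v, ‖v‖ ≤ C * ‖D.T v‖
  reg : ∀ v, ∀ q ∈ c.Se \ c.B, ‖q‖ < R → ContDiffAt ℝ 2 (D.ev v) q
  cont : ∀ v, ContinuousOn (D.ev v) (c.Se ∩ ball 0 R)
  jet : ∀ v, ∀ q ∈ c.S, c.r₀ - 1 ≤ ‖q‖ → ‖q‖ < R → ∀ i j,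
    ‖dd i (dd j (D.ev v)) q‖ ≤ C * (1 + ‖q‖) ^ c.N * ‖v‖
  eqn : ∀ v, ∀ q ∈ c.Se \ c.B, ‖q‖ < R → ‖D.ev' (D.T v) q - op c.a (D.ev v) q‖ ≤ δ * ‖v‖
  dat : ∀ g, ∀ q ∈ c.Se \ c.B, ‖q‖ < R → ‖D.ev' g q‖ ≤ C * (1 + ‖q‖) ^ c.N * ‖g‖
  injb : ∀ f, ‖D.inj f‖ ≤ C * ‖f‖
  injv : ∀ f, (∀ x ∈ c.S, c.r + 3 ≤ ‖x‖ → f1 f x = 0) → ∀ q ∈ c.Se \ c.B, ‖q‖ < R →
    D.ev' (D.inj f) q = f1 f q
  gamb : ∀ v, ‖D.γ v‖ ≤ C * ‖v‖
  gamv : ∀ v, ∀ q ∈ c.B, ‖D.ev v q‖ ≤ C * ‖D.γ v‖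
  ind : ∀ η, 0 < η → c.mo η < R → δ * c.mo η ≤ 1 → ∀ v f (m : M → ℂ) (U : ℝ),
    (∀ x ∈ c.S, c.r + 3 ≤ ‖x‖ → f1 f x = 0) → 0 ≤ U →
    (∀ p ∈ c.S, c.r + 3 ≤ ‖p‖ → ‖p‖ ≤ c.mo η → ‖D.ev v p + ∑ i, m i * c.Y i p‖ ≤ U) →
    ‖m‖ ≤ η * ‖v‖ + c.mo η * (‖D.T v + D.inj f‖ + U)

/-- the unknowns: ambient function, end functions, coefficients of the slow functions,
multipliers -/
abbrev XX (α : ℝ) (k : ℕ) := C2a n α × D.X × (M → ℂ) × (Fin k → ℂ)

/-- the data -/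
abbrev YY (α : ℝ) (k : ℕ) := HH α (En n) × D.Y × (M → ℂ) × (Fin k → ℂ)

variable {α : ℝ}

/-- the glued function -/
def uu (x : D.XX α k) (p : En n) : ℂ :=
  c.cc p • c.wf c.et (f2 x.1) p + c.ce p • D.ev x.2.1 p

/-- the terms of lower order in the core equation -/
def low (s : ℝ) (x : D.XX α k) (p : En n) : ℂ :=
  c.wf (deriv (deriv c.et)) (f2 x.1) p - (s * (1 - c.ka p)) • c.wf c.et (f2 x.1) p
    - cm c.a c.ce (D.ev x.2.1) p - ∑ i, x.2.2.1 i * c.b i p + ∑ i, x.2.2.2 i * c.ψ i p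

/-- the gluing system -/
structure Sys (b : J1 n → J1 n → En n → ℝ) (s : ℝ) (cC : C2a n α →L[ℂ] C1a n β)
    (TT : D.XX α k →L[ℂ] D.YY α k) : Prop where
  com : ∀ v, f1 (cC v) = cm c.a c.cc (c.wf c.et (f2 v))
  core : ∀ x y, (TT x).1 y = s • f2 x.1 y - op b (f2 x.1) y + c.ext (D.low c s x) y
  ends : ∀ x, (TT x).2.1 = D.T x.2.1 + D.inj (cC x.1)
  gam : ∀ x, (TT x).2.2.1 = D.γ x.2.1 + c.Mm x.2.2.1
  con : ∀ x i, (TT x).2.2.2 i = ∫ p, c.wf c.et (f2 x.1) p * c.ψ i p ∂c.ν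

end EndD

end Vale.Agent.P218H
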