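import Vale.Agent.P218H.Basic
import Mathlib.Geometry.Manifold.PartitionOfUnity

/-! # P218, block LIN: globalisation of a function which is `C²` near a compact set -/

open scoped Topology ContDiff Manifold
open Filter Set

noncomputable section

namespace Vale.Agent.P218H

theorem glob {n : ℕ} {V : Type} [NormedAddCommGroup V] [NormedSpace ℝ V] {g : En n → V}
    {K : Set (En n)} (hK : IsCompact K) (hg : ∀ x ∈ K, ContDiffAt ℝ 2 g x) :
    ∃ G : En n → V, ContDiff ℝ 2 G ∧ HasCompactSupport G ∧ ∀ x ∈ K, G =ᶠ[𝓝 x] g := by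
  have hU : IsOpen {x | ContDiffAt ℝ 2 g x} :=
    isOpen_iff_mem_nhds.2 fun x hx => ContDiffAt.eventually hx (by simp)
  obtain ⟨K', k1, k2, k3⟩ := exists_compact_between hK hU hg
  obtain ⟨χ, c1, c2, -⟩ := exists_contMDiffMap_one_nhds_of_subset_interior (n := 2) 𝓘(ℝ, En n)
    hK.isClosed k2
  refine ⟨fun x => χ x • g x, contDiff_iff_contDiffAt.2 fun x => ?_,
    HasCompactSupport.intro k1 fun x hx => by simp [c2 x hx], fun x hx => ?_⟩
  · by_cases h : x ∈ K'
    · exact χ.contMDiff.contDiff.contDiffAt.smul (k3 h)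
    · exact (contDiffAt_const (c := (0 : V))).congr_of_eventuallyEq
        (mem_of_superset (k1.isClosed.isOpen_compl.mem_nhds h) fun y hy => by simp [c2 y hy])
  · exact (c1.filter_mono (nhds_le_nhdsSet hx)).mono fun y hy => by simp [hy]

end Vale.Agent.P218H
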