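import Vale.Agent.P218H.Basic
import Vale.Agent.P272.K.MP.Local

/-! # P218, block LIN: the operator at a local maximum -/

open scoped Topology ContDiff
open Filter Set

noncomputable section

namespace Vale.Agent.P218H

variable {n : ℕ} {a : J1 n → J1 n → En n → ℝ} {x : En n} {F : En n → ℝ}

/-- the principal part -/
def pa (a : J1 n → J1 n → En n → ℝ) (x : En n) : (En n →L[ℝ] En n →L[ℝ] ℝ) →L[ℝ] ℝ :=
  ∑ i, ∑ j, a (some i) (some j) x • (ContinuousLinearMap.apply ℝ ℝ (ee j)).comp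
    (ContinuousLinearMap.apply ℝ (En n →L[ℝ] ℝ) (ee i))

/-- the terms of lower order -/
def pb (a : J1 n → J1 n → En n → ℝ) (x : En n) : (ℝ × (En n →L[ℝ] ℝ)) →L[ℝ] ℝ :=
  a none none x • ContinuousLinearMap.fst ℝ ℝ _ + ∑ i, (a none (some i) x + a (some i) none x) •
    (ContinuousLinearMap.apply ℝ ℝ (ee i)).comp (ContinuousLinearMap.snd ℝ ℝ _)

theorem pa_apply (B : En n →L[ℝ] En n →L[ℝ] ℝ) :
    pa a x B = ∑ i, ∑ j, a (some i) (some j) x * B (ee i) (ee j) := by
  simp [pa]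

theorem pb_apply (t : ℝ) (ξ : En n →L[ℝ] ℝ) : pb a x (t, ξ) =
    a none none x * t + ∑ i, (a none (some i) x + a (some i) none x) * ξ (ee i) := by
  simp [pb]

theorem pa_sym (ξ : En n →L[ℝ] ℝ) : pa a x (ξ.smulRight ξ) = sym a x ξ := by
  simp [pa_apply, sym]

theorem op_eq (h : ContDiffAt ℝ 2 F x) :
    op a F x = pa a x (fderiv ℝ (fderiv ℝ F) x) + pb a x (F x, fderiv ℝ F x) := by
  simp only [op, Fintype.sum_option, dd_dd h, pa_apply, pb_apply, smul_eq_mul, add_mul,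
    Finset.sum_add_distrib]
  simp only [dd]
  ring

/-- the operator at a local maximum -/
theorem op_max (h : ContDiffAt ℝ 2 F x) (hm : IsLocalMax F x) (hs : ∀ ξ, 0 ≤ sym a x ξ) :
    op a F x ≤ a none none x * F x := by
  have := Vale.Agent.P272.K.MP.op_nonpos_of_max (pa a x) (fun ξ => pa_sym ξ ▸ hs ξ) 0 hm h
  rw [op_eq h, pb_apply, hm.fderiv_eq_zero]
  simpa using this

end Vale.Agent.P218H
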