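import Vale.Agent.P218H.SpecS
import Vale.Agent.P218.H63.Fin
import Vale.Agent.P218D.Zs
import Vale.Agent.P218R.All0
import Mathlib.Analysis.SpecialFunctions.JapaneseBracket

/-!
# P218, block LIN: the Gaussian area of a self-shrinker, Green's formula
-/

open scoped NNReal ENNReal Topology ContDiff RealInnerProductSpace
open Filter Set Metric MeasureTheory
open Vale.Agent.P218.H63 Vale.Agent.P218.H313 Vale.Agent.P218D
open Vale.Agent.P218R (Srf fv')
open Vale.Agent.P366W (trc trc_eq_trace smooth_gradient trc_id dvg_eq)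

noncomputable section

namespace Vale.Agent.P218H

namespace Ms

variable {S : Set (En 3)} {w : En 3 → ℝ} {δ C : ℝ}

/-- the area measure -/
abbrev mu (S : Set (En 3)) : Measure (En 3) := (μH[(2 : ℕ)] : Measure (En 3)).restrict S

/-- the surface with its normal field -/
def sf (w : En 3 → ℝ) : Srf := ⟨w, gradient w⟩

theorem small (h : IsTubeShrinker S w δ C) {x : En 3} (hx : w x = 0) : |w x| < δ := by
  rw [hx, abs_zero]
  exact h.pos

theorem ok (h : IsTubeShrinker S w δ C) (hw : ContDiff ℝ ∞ w) : (sf w).Ok where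
  sw := hw
  sn := smooth_gradient hw
  reg := fun x hx => norm_ne_zero_iff.1 (by
    rw [show ‖gradient (sf w).w x‖ = 1 from h.norm_grad x (small h hx)]
    exact one_ne_zero)
  nrm := fun x hx => by
    filter_upwards [h.isOpen_tube.mem_nhds (small h hx)] with y hy
    rw [show ‖gradient (sf w).w y‖ = 1 from h.norm_grad y hy, inv_one, one_smul]
    rfl

theorem G_eq (h : IsTubeShrinker S w δ C) : (sf w).G = S := Set.ext fun x => (h.mem_iff x).symm

theorem closed (h : IsTubeShrinker S w δ C) : IsClosed S := by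
  rw [← G_eq h]
  exact isClosed_eq h.smooth.continuous continuous_const

theorem ae_mem (h : IsTubeShrinker S w δ C) : ∀ᵐ x ∂mu S, w x = 0 :=
  (ae_restrict_mem (closed h).measurableSet).mono fun x hx => (h.mem_iff x).1 hx

theorem ae_nu (h : IsTubeShrinker S w δ C) : ∀ᵐ x ∂gaussArea 2 S, w x = 0 :=
  gaussArea_ac.ae_le (ae_mem h)

theorem dv_grad (g : En 3 → ℝ) (x : En 3) : (sf w).dv (gradient g) x =
    lap g x - ⟪fderiv ℝ (gradient g) x (gradient w x), gradient w x⟫ := by
  rw [Srf.dv_eq, dvg_eq, trc_eq_trace, real_inner_comm]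
  rfl

theorem H_lap (h : IsTubeShrinker S w δ C) {x : En 3} (hx : w x = 0) : (sf w).H x = lap w x := by
  rw [← Srf.dv_n, show (sf w).n = gradient w from rfl, dv_grad, h.hess_grad (small h hx),
    inner_zero_left, sub_zero]

theorem H_eq (h : IsTubeShrinker S w δ C) {x : En 3} (hx : w x = 0) :
    (sf w).H x = ⟪x, gradient w x⟫ / 2 := by
  rw [H_lap h hx, h.shrinker x ((h.mem_iff x).2 hx)]

theorem tg_eq (f : En 3 → ℝ) (x : En 3) : (sf w).tg f x = tg w f x := by
  rw [Srf.tg, Srf.P_apply, real_inner_comm]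
  rfl

theorem fv0 (h : IsTubeShrinker S w δ C) (hw : ContDiff ℝ ∞ w) {Y : En 3 → En 3}
    (hY : ContDiff ℝ 1 Y) (hc : HasCompactSupport Y) :
    ∫ x, (sf w).dv Y x ∂mu S = ∫ x, (sf w).H x * ⟪gradient w x, Y x⟫ ∂mu S := by
  have e := fv' (sf w) Y (ok h hw) hY hc
  rw [Srf.μ, G_eq h, P218R.H2, Measure.euclideanHausdorffMeasure_def, Measure.restrict_smul,
    integral_smul_nnreal_measure, integral_smul_nnreal_measure] at e
  exact smul_right_injective ℝ (Measure.addHaarScalarFactor_volume_hausdorffMeasure_ne_zero 2) e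

theorem tube (h : IsTubeShrinker S w δ C) :
    ∃ W c K, TubeD W c K ∧ {x | W x = 0} = S := by
  obtain ⟨W, c, K, hW, e, -⟩ := exists_tubeD h
  exact ⟨W, c, K, hW, Set.ext e⟩

theorem dim3 : Module.finrank ℝ (En 3) = 2 + 1 := finrank_euclideanSpace_fin

theorem lf (h : IsTubeShrinker S w δ C) : IsLocallyFiniteMeasure (mu S) := by
  obtain ⟨W, c, K, hW, rfl⟩ := tube h
  exact (zs dim3 c K hW.cpos (tubeB_of_D hW).K_nonneg).2.1 W (tubeB_of_D hW)

theorem lower (h : IsTubeShrinker S w δ C) {y : En 3} (hy : y ∈ S) {θ : ℝ} (h0 : 0 < θ)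
    (h1 : θ < 1) : ∀ᶠ r in 𝓝[>] (0 : ℝ),
      ENNReal.ofReal ((θ * r) ^ 2) * wm 2 ≤ mu S (closedBall y r) := by
  obtain ⟨W, c, K, hW, rfl⟩ := tube h
  exact Zs.lower dim3 (tubeB_of_D hW) hy h0 h1

/-- the mass ratio bound at small scales -/
theorem upper (h : IsTubeShrinker S w δ C) : ∃ r₁ A : ℝ, 0 < r₁ ∧ r₁ ≤ 1 ∧ 0 ≤ A ∧
    ∀ y r, 0 < r → r ≤ r₁ → mu S (closedBall y r) ≤ ENNReal.ofReal (A * r ^ 2) := by
  obtain ⟨W, c, K, hW, rfl⟩ := tube h
  obtain ⟨r₁, h0, h1⟩ := Zs.unif (E := En 3) dim3 c (tubeB_of_D hW).K_nonneg one_pos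
  have hom := (om_pos 2).le
  refine ⟨min (r₁ / 2) 1, 16 * om 2, by positivity, min_le_right _ _, by positivity,
    fun y r hr hr1 => ?_⟩
  have r2 : 0 < 2 * r := by positivity
  have mk : Measurable fun z : En 3 => ENNReal.ofReal (ker ((2 * r)⁻¹ • (z - y))) :=
    (continuous_ker.comp (by fun_prop)).measurable.ennreal_ofReal
  have h2 := (mul_meas_ge_le_lintegral mk (ENNReal.ofReal (1 / 2))).trans
    (h1 W (tubeB_of_D hW) y (2 * r) r2 (by linarith [min_le_left (r₁ / 2) 1]))
  have h3 : closedBall y r ⊆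
      {z | ENNReal.ofReal (1 / 2) ≤ ENNReal.ofReal (ker ((2 * r)⁻¹ • (z - y)))} := fun z hz => by
    refine ENNReal.ofReal_le_ofReal (le_trans (by norm_num [P218.H313.ker]) (ker_anti (z' := (1 / 2 : ℝ)) ?_))
    rw [norm_smul, norm_inv, Real.norm_of_nonneg r2.le, inv_mul_le_iff₀ r2,
      Real.norm_of_nonneg (by norm_num)]
    linarith [mem_closedBall_iff_norm.1 hz]
  have h4 := (mul_le_mul_right (measure_mono h3) _).trans h2
  calc _ = ENNReal.ofReal 2 * (ENNReal.ofReal (1 / 2) * hm 2 W (closedBall y r)) := by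
        rw [← mul_assoc, ← ENNReal.ofReal_mul (by norm_num)]
        norm_num
        rfl
    _ ≤ ENNReal.ofReal 2 * _ := mul_le_mul_right h4 _
    _ = _ := by
        rw [← ENNReal.ofReal_mul (by norm_num)]
        congr 1
        ring

/-- comparison with Lebesgue measure -/
theorem fub {μ : Measure (En 3)} [SFinite μ] {r : ℝ} {M : ℝ≥0∞} (hM : ∀ y, μ (closedBall y r) ≤ M)
    {g G : En 3 → ℝ≥0∞} (hg : Measurable g) (hG : Measurable G)
    (h : ∀ x y, dist x y ≤ r → g x ≤ G y) :
    (∫⁻ x, g x ∂μ) * volume (closedBall (0 : En 3) r) ≤ (∫⁻ y, G y) * M := by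
  have m : MeasurableSet {p : En 3 × En 3 | dist p.1 p.2 ≤ r} :=
    (isClosed_le (by fun_prop) continuous_const).measurableSet
  calc _ = ∫⁻ x, ∫⁻ y, (closedBall x r).indicator (fun _ => g x) y ∂volume ∂μ := by
        rw [← lintegral_mul_const _ hg]
        refine lintegral_congr fun x => ?_
        rw [lintegral_indicator_const measurableSet_closedBall,
          Measure.addHaar_closedBall_center volume x]
    _ ≤ ∫⁻ x, ∫⁻ y, {p : En 3 × En 3 | dist p.1 p.2 ≤ r}.indicator (fun p => G p.2) (x, y)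
          ∂volume ∂μ := by
        refine lintegral_mono fun x => lintegral_mono fun y => ?_
        by_cases e : dist x y ≤ r
        · rw [indicator_of_mem (mem_closedBall'.2 e), indicator_of_mem (by exact e)]
          exact h x y e
        · rw [indicator_of_notMem (mt mem_closedBall'.1 e)]
          exact bot_le
    _ = ∫⁻ y, ∫⁻ x, (closedBall y r).indicator (fun _ => G y) x ∂μ :=
        lintegral_lintegral_swap ((hG.comp measurable_snd).indicator m).aemeasurable
    _ ≤ _ := by
        rw [← lintegral_mul_const _ hG]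
        refine lintegral_mono fun y => ?_
        rw [lintegral_indicator_const measurableSet_closedBall]
        exact mul_le_mul_right (hM y) _

theorem ratio (h : IsTubeShrinker S w δ C) : ∃ A : ℝ, ∀ (x : En 3) (r : ℝ), 0 < r → r ≤ 1 →
    (mu S).real (closedBall x r) ≤ A * r ^ 2 := by
  have := lf h
  obtain ⟨r₁, A, h0, h1, hA, h2⟩ := upper h
  have v0 : volume (closedBall (0 : En 3) r₁) ≠ 0 := (measure_closedBall_pos _ _ h0).ne'
  set B := volume (closedBall (0 : En 3) 2) * ENNReal.ofReal (A * r₁ ^ 2) /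
    volume (closedBall (0 : En 3) r₁)
  have hB : B ≠ ⊤ := ENNReal.div_ne_top
    (ENNReal.mul_ne_top measure_closedBall_lt_top.ne ENNReal.ofReal_ne_top) v0
  refine ⟨A + B.toReal / r₁ ^ 2, fun x r hr hr1 => ?_⟩
  have p1 : 0 ≤ B.toReal / r₁ ^ 2 * r ^ 2 := by positivity
  rw [add_mul]
  rcases le_total r r₁ with e | e
  · have := ENNReal.toReal_le_of_le_ofReal (by positivity) (h2 x r hr e)
    exact this.trans (le_add_of_nonneg_right p1)
  have h3 := fub (fun y => h2 y r₁ h0 le_rfl) (g := (closedBall x r).indicator 1)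
    (G := (closedBall x 2).indicator 1) (measurable_one.indicator measurableSet_closedBall)
    (measurable_one.indicator measurableSet_closedBall) fun a b hab => by
      by_cases ha : a ∈ closedBall x r
      · rw [indicator_of_mem ha, indicator_of_mem (mem_closedBall.2 (by
          linarith [dist_triangle_left b x a, mem_closedBall.1 ha]))]
        rfl
      · rw [indicator_of_notMem ha]
        exact bot_le
  rw [lintegral_indicator_one measurableSet_closedBall,
    lintegral_indicator_one measurableSet_closedBall, Measure.addHaar_closedBall_center volume x,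
    ← ENNReal.le_div_iff_mul_le (.inl v0) (.inl measure_closedBall_lt_top.ne)] at h3
  refine (ENNReal.toReal_mono hB h3).trans (le_add_of_nonneg_of_le (by positivity) ?_)
  rw [div_mul_eq_mul_div, le_div_iff₀ (by positivity)]
  gcongr

theorem mom (h : IsTubeShrinker S w δ C) (N : ℕ) :
    Integrable (fun x => (1 + ‖x‖) ^ N * rho x) (mu S) := by
  have := lf h
  obtain ⟨r₁, A, h0, h1, hA, h2⟩ := upper h
  have c : Continuous fun x : En 3 => (1 + ‖x‖) ^ N * rho x :=
    (by fun_prop : Continuous fun x : En 3 => (1 + ‖x‖) ^ N).mul continuous_rho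
  have i : Integrable fun y : En 3 => 16 * Real.exp ((N + 4) ^ 2) * (1 + ‖y‖) ^ (-4 : ℝ) :=
    (integrable_one_add_norm (by rw [dim3]; norm_num)).const_mul _
  have h3 := fub (fun y => h2 y r₁ h0 le_rfl) c.measurable.ennreal_ofReal
    (G := fun y => ENNReal.ofReal (16 * Real.exp ((N + 4) ^ 2) * (1 + ‖y‖) ^ (-4 : ℝ)))
    (by fun_prop) fun x y hxy => ENNReal.ofReal_le_ofReal (by
      have a1 : 1 + ‖y‖ ≤ 2 * (1 + ‖x‖) := by
        linarith [norm_le_norm_add_norm_sub x y, dist_eq_norm x y, norm_nonneg x]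
      have a2 : (1 + ‖x‖) ^ (N + 4) ≤ Real.exp ‖x‖ ^ (N + 4) :=
        pow_le_pow_left₀ (by positivity) (by linarith [Real.add_one_le_exp ‖x‖]) _
      have a3 : Real.exp ‖x‖ ^ (N + 4) * rho x ≤ Real.exp ((N + 4) ^ 2) := by
        rw [rho, ← Real.exp_nat_mul, ← Real.exp_add, Real.exp_le_exp]
        push_cast
        nlinarith [sq_nonneg (‖x‖ / 2 - (N + 4))]
      have a4 := pow_le_pow_left₀ (by positivity) a1 4
      have a5 := (mul_le_mul_of_nonneg_right a2 (rho_pos x).le).trans a3
      rw [Real.rpow_neg (by positivity), ← div_eq_mul_inv, le_div_iff₀ (by positivity),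
        show (4 : ℝ) = (4 : ℕ) by norm_num, Real.rpow_natCast]
      calc _ ≤ (1 + ‖x‖) ^ N * rho x * (2 * (1 + ‖x‖)) ^ 4 :=
            mul_le_mul_of_nonneg_left a4 (mul_nonneg (by positivity) (rho_pos x).le)
        _ = 16 * ((1 + ‖x‖) ^ (N + 4) * rho x) := by ring
        _ ≤ _ := by push_cast; linarith)
  refine ⟨c.aestronglyMeasurable, (hasFiniteIntegral_iff_ofReal (Eventually.of_forall fun x =>
    mul_nonneg (by positivity) (rho_pos x).le)).2 ?_⟩
  exact ENNReal.lt_top_of_mul_ne_top_left
    (h3.trans_lt (ENNReal.mul_lt_top i.lintegral_lt_top ENNReal.ofReal_lt_top)).ne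
    (measure_closedBall_pos _ _ h0).ne'

theorem fin_nu (h : IsTubeShrinker S w δ C) : IsFiniteMeasure (gaussArea 2 S) := by
  have := integrable_gaussArea (mom h 0)
  simpa [integrable_const_iff] using this

theorem int_of (h : IsTubeShrinker S w δ C) {f u : En 3 → ℝ} (hc : HasCompactSupport f)
    (hu : Continuous u) (h0 : ∀ x ∉ tsupport f, u x = 0) : Integrable u (gaussArea 2 S) := by
  have := fin_nu h
  exact hu.integrable_of_hasCompactSupport (HasCompactSupport.intro hc.isCompact h0)

theorem tg_zero {f : En 3 → ℝ} {x : En 3} (hx : x ∉ tsupport f) : tg w f x = 0 := by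
  have : gradient f x = 0 := by
    rw [(notMem_tsupport_iff_eventuallyEq.1 hx).gradient_eq]
    exact gradient_fun_const _ _
  simp [tg, this]

theorem cont_tg (h : IsTubeShrinker S w δ C) (hw : ContDiff ℝ ∞ w) {f : En 3 → ℝ}
    (hf : ContDiff ℝ 1 f) : Continuous (tg w f) := by
  rw [← funext (tg_eq f)]
  exact (ok h hw).ctg hf

/-- the weighted first variation -/
theorem wfv (h : IsTubeShrinker S w δ C) (hw : ContDiff ℝ ∞ w) {f : En 3 → ℝ} {X : En 3 → En 3}
    (hf : ContDiff ℝ 1 f) (hc : HasCompactSupport f) (hX : ContDiff ℝ 1 X) :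
    ∫ x, (f x * ((sf w).dv X x - ⟪x, X x⟫ / 2) + ⟪tg w f x, X x⟫) ∂gaussArea 2 S = 0 := by
  have := lf h
  have o := ok h hw
  have c1 : ContDiff ℝ 1 fun x => f x * rho x := hf.mul contDiff_rho
  have hY : ContDiff ℝ 1 fun x => (f x * rho x) • X x := c1.smul hX
  have hYc : HasCompactSupport fun x => (f x * rho x) • X x := hc.mul_right.smul_right
  have i : Integrable (fun x => (sf w).H x * ⟪gradient w x, (f x * rho x) • X x⟫) (mu S) :=
    (o.sH.continuous.mul (o.sn.continuous.inner hY.continuous)).integrable_of_hasCompactSupport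
      (hYc.mono fun x hx e => hx (by simp only [Pi.mul_apply, e, inner_zero_right, mul_zero]))
  have e := fv0 h hw hY hYc
  rw [← sub_eq_zero, ← integral_sub
    ((o.cdv hY).integrable_of_hasCompactSupport (Srf.hcs_dv hYc)) i] at e
  rw [integral_gaussArea, ← e]
  refine integral_congr_ae ((ae_mem h).mono fun x hx => ?_)
  have g : gradient (fun x => f x * rho x) x = f x • (-rho x / 2) • x + rho x • gradient f x := by
    rw [← grad_rho, ← grad_eq_gradient, ← grad_eq_gradient,
      grad_mul (hf.differentiable one_ne_zero x) (contDiff_rho.differentiable one_ne_zero x)]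
  simp only
  rw [Srf.dv_smul (c1.differentiable one_ne_zero x) (hX.differentiable one_ne_zero x), H_eq h hx,
    tg_eq, tg, tg, g]
  simp only [inner_sub_left, inner_add_left, real_inner_smul_left, real_inner_smul_right]
  ring

theorem cont_lap {g : En 3 → ℝ} (hg : ContDiff ℝ 2 g) : Continuous (lap g) :=
  (trL (En 3)).continuous.comp ((contDiff_grad_one hg).continuous_fderiv one_ne_zero)

theorem cont_hsq (hw : ContDiff ℝ 2 w) : Continuous (hessSq w) := by
  have := (contDiff_grad_one hw).continuous_fderiv one_ne_zero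
  exact (trL (En 3)).continuous.comp (this.clm_comp this)

theorem inner_tg (h : IsTubeShrinker S w δ C) {x : En 3} (hx : w x = 0) (f g : En 3 → ℝ) :
    ⟪tg w f x, tg w g x⟫ = ⟪tg w f x, gradient g x⟫ := by
  have n : ⟪gradient w x, gradient w x⟫ = 1 := by
    rw [real_inner_self_eq_norm_sq, h.norm_grad x (small h hx), one_pow]
  simp only [tg, inner_sub_left, inner_sub_right, real_inner_smul_left, real_inner_smul_right, n]
  ring

theorem green (h : IsTubeShrinker S w δ C) (hw : ContDiff ℝ ∞ w) (f g : En 3 → ℝ)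
    (hf : ContDiff ℝ 1 f) (hc : HasCompactSupport f) (hg : ContDiff ℝ 2 g) :
    ∫ x, f x * stab w g x ∂gaussArea 2 S =
      ∫ x, (-⟪tg w f x, tg w g x⟫ + (hessSq w x + 1 / 2) * (f x * g x)) ∂gaussArea 2 S := by
  have g1 := contDiff_grad_one hg
  have g2 := g1.continuous_fderiv one_ne_zero
  have w1 := (smooth_gradient hw).continuous
  have c0 := (cont_hsq (h.smooth.of_le (by norm_num))).add (continuous_const (y := (1 / 2 : ℝ)))
  have c1 : Continuous (stab w g) := (((cont_lap hg).sub ((g2.clm_apply w1).inner w1)).sub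
    ((continuous_id.inner g1.continuous).div_const 2)).add (c0.mul hg.continuous)
  have i1 : Integrable (fun x => f x * stab w g x) (gaussArea 2 S) :=
    int_of h hc (hf.continuous.mul c1) fun x hx => by simp [image_eq_zero_of_notMem_tsupport hx]
  have i2 : Integrable (fun x => -⟪tg w f x, tg w g x⟫ + (hessSq w x + 1 / 2) * (f x * g x))
      (gaussArea 2 S) :=
    int_of h hc (((cont_tg h hw hf).inner (cont_tg h hw (hg.of_le (by norm_num)))).neg.add
      (c0.mul (hf.continuous.mul hg.continuous))) fun x hx => by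
      simp [image_eq_zero_of_notMem_tsupport hx, tg_zero hx]
  rw [← sub_eq_zero, ← wfv h hw hf hc g1, ← integral_sub i1 i2]
  refine integral_congr_ae ((ae_nu h).mono fun x hx => ?_)
  simp only [grad_eq_gradient, dv_grad, inner_tg h hx, stab]
  ring

end Ms

open Ms in
theorem ms1 : MS1 := fun S w δ C h hw => by
  have := fin_nu h
  refine ⟨inferInstance, gaussArea_ac (by
    rw [Measure.restrict_apply (closed h).measurableSet.compl, compl_inter_self, measure_empty]),
    fun p hp ρ hρ => pos_iff_ne_zero.2 fun e => ?_, fun N => integrable_gaussArea (mom h N),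
    green h hw⟩
  obtain ⟨r, h1, h2, h3⟩ := ((lower h hp one_half_pos one_half_lt_one).and
    (Ioo_mem_nhdsGT hρ)).exists
  have h4 := h1.trans ((measure_mono (closedBall_subset_ball h3)).trans_eq (ac_gaussArea e))
  exact absurd h4 (not_le.2 (ENNReal.mul_pos
    (ENNReal.ofReal_pos.2 (by positivity)).ne' (wm_pos 2).ne'))

end Vale.Agent.P218H
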