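import Vale.Agent.P218H.Ms1
import Mathlib.Geometry.Manifold.SmoothApprox

/-!
# P218, block LIN: Rellich's theorem for the Gaussian area of a self-shrinker
-/

open scoped NNReal ENNReal Topology ContDiff RealInnerProductSpace
open Filter Set Metric MeasureTheory
open Vale.Agent.P218.H63 Vale.Agent.P218.H313 Vale.Agent.P218D
open Vale.Agent.P218R (Srf)
open Vale.Agent.P214 (proj divAlong)
open Vale.Agent.P366W (trc trc_eq_trace smooth_gradient trc_id trc_comm dvg_eq)

noncomputable section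

namespace Vale.Agent.P218H

namespace Ms

variable {S : Set (En 3)} {w : En 3 → ℝ} {δ C : ℝ}

/-- the tangent planes -/
def TT (w : En 3 → ℝ) (x : En 3) : Submodule ℝ (En 3) := (ℝ ∙ gradient w x)ᗮ

/-- the mean curvature vector -/
def Hv (w : En 3 → ℝ) (x : En 3) : En 3 := -lap w x • gradient w x

theorem proj_eq (h : IsTubeShrinker S w δ C) {x : En 3} (hx : w x = 0) :
    proj (TT w x) = (sf w).P x := by
  ext1 v
  rw [Srf.P_apply]
  exact (Submodule.starProjection_orthogonal_val v).trans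
    (by rw [Submodule.starProjection_unit_singleton ℝ (h.norm_grad x (small h hx))]; rfl)

theorem cont_Hv (hw : ContDiff ℝ ∞ w) : Continuous (Hv w) :=
  (cont_lap (contDiff_infty.1 hw 2)).neg.smul (smooth_gradient hw).continuous

theorem mc (h : IsTubeShrinker S w δ C) (hw : ContDiff ℝ ∞ w) :
    P218.H552.MC 2 (mu S) (TT w) (Hv w) := by
  have := lf h
  have : Fact (Module.finrank ℝ (En 3) = 2 + 1) := ⟨dim3⟩
  refine ⟨inferInstance, (ok h hw).sP.continuous.aestronglyMeasurable.congr
    ((ae_mem h).mono fun x hx => (proj_eq h hx).symm), (ae_mem h).mono fun x hx =>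
      Submodule.finrank_orthogonal_span_singleton ((ok h hw).reg x hx),
    (cont_Hv hw).aestronglyMeasurable, fun K hK =>
      ((cont_Hv hw).norm.pow 2).continuousOn.integrableOn_compact hK,
    Eventually.of_forall fun x => Submodule.le_orthogonal_orthogonal _
      (Submodule.smul_mem _ _ (Submodule.mem_span_singleton_self _)), fun X hX hc => ?_⟩
  rw [← integral_neg]
  refine (integral_congr_ae ((ae_mem h).mono fun x hx => ?_)).trans
    ((fv0 h hw hX hc).trans (integral_congr_ae ((ae_mem h).mono fun x hx => ?_)))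
  · simp only [divAlong, proj_eq h hx, Srf.dv]
    rw [trc_comm, trc_eq_trace]
  · simp only [Hv, H_lap h hx, real_inner_smul_right, real_inner_comm (X x)]
    ring

theorem lt_ker {F : Type} [NormedAddCommGroup F] [InnerProductSpace ℝ F] {t r : ℝ} (ht : 0 < t)
    (hr : 0 < r) (z : F) : t < P218.H313.ker (r⁻¹ • z) ↔ ‖z‖ < r * √(1 - √t) := by
  rw [P218.H313.ker, ← Real.sqrt_lt ht.le (le_max_right _ _), lt_max_iff,
    or_iff_left (not_lt.2 (Real.sqrt_nonneg t)), lt_sub_comm, ← Real.lt_sqrt (norm_nonneg _),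
    norm_smul, norm_inv, Real.norm_of_nonneg hr.le, inv_mul_lt_iff₀ hr]

theorem dens (h : IsTubeShrinker S w δ C) {x : En 3} (hx : x ∈ S) {c : ℝ} (hc : c < om 2) :
    ∀ᶠ r in 𝓝[>] (0 : ℝ), c ≤ (∫ y, P218.H313.ker (r⁻¹ • (y - x)) ∂mu S) / r ^ 2 := by
  have := lf h
  have := isAddHaar_euc 2
  obtain ⟨θ, he, h0, h1⟩ : ∃ θ : ℝ, c < (θ * θ) ^ 2 * om 2 ∧ θ ∈ Ioo (0 : ℝ) 1 := by
    have : ContinuousAt (fun θ : ℝ => (θ * θ) ^ 2 * om 2) 1 := by fun_prop
    exact (((Tendsto.eventually_const_lt (show c < (1 * 1) ^ 2 * om 2 by simpa using hc)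
      this).filter_mono nhdsWithin_le_nhds).and (Ioo_mem_nhdsLT one_pos)).exists
  obtain ⟨ε, ε0, hε⟩ := (nhdsGT_basis (0 : ℝ)).eventually_iff.1 (lower h hx h0 h1)
  filter_upwards [Ioo_mem_nhdsGT ε0] with r ⟨r0, r1⟩
  have q0 : 0 < θ * θ * r := by positivity
  have key : ENNReal.ofReal ((θ * θ * r) ^ 2 * om 2) ≤
      ∫⁻ y, ENNReal.ofReal (P218.H313.ker (r⁻¹ • (y - x))) ∂mu S := by
    rw [← lintegral_ker_euc 2 q0, lintegral_eq_lintegral_meas_lt _
      (Eventually.of_forall fun _ => ker_nonneg _) (continuous_ker_scale r x).aemeasurable,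
      lintegral_eq_lintegral_meas_lt _ (Eventually.of_forall fun _ => ker_nonneg _)
      (continuous_ker.comp (continuous_const_smul _)).aemeasurable]
    refine setLIntegral_mono' measurableSet_Ioi fun t ht => ?_
    simp only [lt_ker ht q0, lt_ker ht r0]
    have s1 : √(1 - √t) ≤ 1 := Real.sqrt_le_one.2 (by linarith [Real.sqrt_nonneg t])
    rcases (Real.sqrt_nonneg (1 - √t)).eq_or_lt with s0 | s0
    · simp [← s0, not_lt.2 (norm_nonneg _)]
    have p1 : θ * (r * √(1 - √t)) < r * √(1 - √t) := mul_lt_of_lt_one_left (by positivity) h1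
    calc _ ≤ (μH[(2 : ℕ)] : Measure (En 2)) (closedBall 0 (θ * θ * r * √(1 - √t))) :=
          measure_mono fun z hz => mem_closedBall_zero_iff.2 (le_of_lt hz)
      _ = ENNReal.ofReal ((θ * (θ * (r * √(1 - √t)))) ^ 2) * wm 2 := by
          rw [Measure.addHaar_closedBall' _ _ (by positivity), finrank_euclideanSpace_fin, wm]
          congr 2
          ring
      _ ≤ _ := hε ⟨by positivity, by nlinarith⟩
      _ ≤ _ := measure_mono fun z hz => (mem_closedBall_iff_norm.1 hz).trans_lt p1
  rw [← ofReal_integral_eq_lintegral_ofReal (integrable_ker_scale x r0)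
    (Eventually.of_forall fun _ => ker_nonneg _),
    ENNReal.ofReal_le_ofReal_iff (ker_integral_nonneg x r)] at key
  rw [le_div_iff₀ (by positivity)]
  nlinarith [pow_pos r0 2]

theorem slice (h : IsTubeShrinker S w δ C) (hw : ContDiff ℝ ∞ w) :
    Slice 2 (mu S) (TT w) (Hv w) :=
  ⟨mc h hw, (ae_mem h).mono fun x hx _ hc => dens h ((h.mem_iff x).2 hx) hc⟩

section
variable (h : IsTubeShrinker S w δ C) (hw : ContDiff ℝ ∞ w) {v : En 3 → ℝ} (hv : ContDiff ℝ 1 v)
  (hc : HasCompactSupport v)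
include h hw hv hc

theorem int_en : Integrable (fun x => v x ^ 2 + ‖tg w v x‖ ^ 2) (gaussArea 2 S) :=
  int_of h hc ((hv.continuous.pow 2).add ((cont_tg h hw hv).norm.pow 2)) fun x hx => by
    simp [image_eq_zero_of_notMem_tsupport hx, tg_zero hx]

/-- Ecker's inequality -/
theorem ecker : ∫ x, ‖x‖ ^ 2 * v x ^ 2 ∂gaussArea 2 S ≤
    16 * ∫ x, (v x ^ 2 + ‖tg w v x‖ ^ 2) ∂gaussArea 2 S := by
  have c := hv.continuous
  have ct := cont_tg h hw hv
  have z := fun x (hx : x ∉ tsupport v) => image_eq_zero_of_notMem_tsupport hx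
  have e := wfv h hw (hv.pow 2) (HasCompactSupport.intro hc.isCompact fun x hx => by simp [z x hx])
    (X := fun x => x) contDiff_id
  have e2 : ∫ x, (v x ^ 2 * (2 - ‖x‖ ^ 2 / 2) + 2 * v x * ⟪tg w v x, x⟫) ∂gaussArea 2 S = 0 := by
    refine Eq.trans (integral_congr_ae ((ae_nu h).mono fun x hx => ?_)) e
    have g : gradient (fun x => v x ^ 2) x = (2 * v x) • gradient v x :=
      grad_sq (hv.differentiable one_ne_zero x)
    have n : ⟪(sf w).n x, (sf w).n x⟫ = 1 := (ok h hw).nn hx
    simp only [Srf.dv_eq, dvg_eq, fderiv_fun_id, trc_id, ContinuousLinearMap.id_apply, n, tg, g,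
      real_inner_self_eq_norm_sq x, inner_sub_left, real_inner_smul_left]
    push_cast
    ring
  have i1 : Integrable (fun x => ‖x‖ ^ 2 * v x ^ 2) (gaussArea 2 S) :=
    int_of h hc (by fun_prop) fun x hx => by simp [z x hx]
  have i2 : Integrable (fun x => v x ^ 2 * (2 - ‖x‖ ^ 2 / 2) + 2 * v x * ⟪tg w v x, x⟫)
      (gaussArea 2 S) := int_of h hc (by fun_prop) fun x hx => by simp [z x hx]
  have i3 := (int_en h hw hv hc).const_mul 16
  have := integral_mono (i1.add (i2.const_mul 4)) i3 fun x => by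
    have a1 := real_inner_le_norm (v x • tg w v x) x
    rw [real_inner_smul_left, norm_smul, Real.norm_eq_abs] at a1
    simp only [Pi.add_apply]
    nlinarith [sq_nonneg (|v x| * ‖x‖ - 4 * ‖tg w v x‖), sq_abs (v x), sq_nonneg (v x)]
  rw [integral_add' i1 (i2.const_mul 4), integral_const_mul, integral_const_mul, e2] at this
  linarith

/-- the unweighted local bound -/
theorem loc_le (R : ℝ) : ∫ x in closedBall (0 : En 3) R, (v x ^ 2 + ‖proj (TT w x) (grad v x)‖ ^ 2 +
    ‖Hv w x‖ ^ 2 + v x ^ 2 * ‖Hv w x‖) ∂mu S ≤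
    (1 + |R|) * Real.exp (R ^ 2 / 4) * ∫ x, (v x ^ 2 + ‖tg w v x‖ ^ 2) ∂gaussArea 2 S +
      R ^ 2 * (mu S).real (closedBall 0 R) := by
  have := lf h
  have c1 : Continuous fun x => (v x ^ 2 + ‖tg w v x‖ ^ 2) * rho x :=
    ((hv.continuous.pow 2).add ((cont_tg h hw hv).norm.pow 2)).mul continuous_rho
  have i1 : Integrable (fun x => (v x ^ 2 + ‖tg w v x‖ ^ 2) * rho x) (mu S) :=
    c1.integrable_of_hasCompactSupport (HasCompactSupport.intro hc.isCompact fun x hx => by
      simp [image_eq_zero_of_notMem_tsupport hx, tg_zero hx])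
  have i2 : IntegrableOn (fun _ => R ^ 2) (closedBall (0 : En 3) R) (mu S) :=
    integrableOn_const measure_closedBall_lt_top.ne
  have i3 := (i1.integrableOn (s := closedBall 0 R)).const_mul ((1 + |R|) * Real.exp (R ^ 2 / 4))
  refine (integral_mono_of_nonneg (Eventually.of_forall fun x => by positivity) (i3.add i2)
    ?_).trans ?_
  · filter_upwards [ae_restrict_of_ae (ae_mem h), ae_restrict_mem measurableSet_closedBall]
      with x hx hR
    have a0 := mem_closedBall_zero_iff.1 hR
    have a1 : ‖Hv w x‖ ≤ ‖x‖ := by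
      have := abs_real_inner_le_norm x (gradient w x)
      rw [Hv, norm_smul, norm_neg, h.shrinker x ((h.mem_iff x).2 hx), Real.norm_eq_abs, abs_div,
        abs_two]
      rw [h.norm_grad x (small h hx), mul_one] at *
      linarith [norm_nonneg x]
    have a2 : 1 ≤ Real.exp (R ^ 2 / 4) * rho x := by
      rw [rho, ← Real.exp_add]
      exact Real.one_le_exp (by nlinarith [norm_nonneg x])
    have a3 : ‖Hv w x‖ ^ 2 ≤ R ^ 2 := pow_le_pow_left₀ (norm_nonneg _) (a1.trans a0) 2
    have a4 : v x ^ 2 * ‖Hv w x‖ ≤ v x ^ 2 * |R| :=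
      mul_le_mul_of_nonneg_left ((a1.trans a0).trans (le_abs_self R)) (sq_nonneg _)
    have a5 : 0 ≤ (1 + |R|) * (v x ^ 2 + ‖tg w v x‖ ^ 2) := by positivity
    have a6 : 0 ≤ |R| * ‖tg w v x‖ ^ 2 := by positivity
    have e : proj (TT w x) (grad v x) = tg w v x := by rw [proj_eq h hx, ← tg_eq]; rfl
    simp only [e, Pi.add_apply]
    nlinarith [mul_le_mul_of_nonneg_left a2 a5]
  · rw [integral_add' i3 i2, integral_const_mul, setIntegral_const, smul_eq_mul, mul_comm _ (R ^ 2),
      integral_gaussArea]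
    exact add_le_add_left (mul_le_mul_of_nonneg_left (setIntegral_le_integral i1
      (Eventually.of_forall fun x => mul_nonneg (by positivity) (rho_pos x).le)) (by positivity)) _

end

theorem weak (h : IsTubeShrinker S w δ C) (hw : ContDiff ℝ ∞ w) {ι : Type} {l : Filter ι}
    {v : ι → En 3 → ℝ} {B : ℝ} (hv : ∀ i, ContDiff ℝ 1 (v i) ∧ HasCompactSupport (v i))
    (hB : ∀ i, ∫ x, (v i x ^ 2 + ‖tg w (v i) x‖ ^ 2) ∂gaussArea 2 S ≤ B)
    (h0 : ∀ ζ : En 3 → ℝ, ContDiff ℝ ∞ ζ → HasCompactSupport ζ →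
      Tendsto (fun i => ∫ x, v i x * ζ x ∂gaussArea 2 S) l (𝓝 0))
    {ζ : En 3 → ℝ} (hζ : Continuous ζ) (hc : HasCompactSupport ζ) :
    Tendsto (fun i => ∫ x, v i x * ζ x ∂gaussArea 2 S) l (𝓝 0) := by
  have := fin_nu h
  rw [NormedAddGroup.tendsto_nhds_zero]
  intro ε hε
  set M := (gaussArea 2 S).real univ + |B| + 1
  have M0 : 0 < M := by positivity
  have e0 : 0 < ε / 2 / M := by positivity
  obtain ⟨g, g1, g2, g3⟩ := hζ.exists_contDiff_approx ⊤ continuous_const fun _ => e0
  filter_upwards [NormedAddGroup.tendsto_nhds_zero.1 (h0 g g1 (hc.mono g3)) _ (half_pos hε)]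
    with i hi
  have c := (hv i).1.continuous
  have z := fun x (hx : x ∉ tsupport (v i)) => image_eq_zero_of_notMem_tsupport hx
  have i1 : Integrable (fun x => v i x * ζ x) (gaussArea 2 S) :=
    int_of h (hv i).2 (c.mul hζ) fun x hx => by simp [z x hx]
  have i2 : Integrable (fun x => v i x * g x) (gaussArea 2 S) :=
    int_of h (hv i).2 (c.mul g1.continuous) fun x hx => by simp [z x hx]
  have i3 := int_en h hw (hv i).1 (hv i).2
  have i4 := integrable_const (μ := gaussArea 2 S) (1 : ℝ)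
  have a1 := norm_integral_le_of_norm_le ((i4.add i3).const_mul (ε / 2 / M))
    (f := fun x => v i x * ζ x - v i x * g x) (Eventually.of_forall fun x => by
      rw [← mul_sub, norm_mul, mul_comm, ← dist_eq_norm']
      refine mul_le_mul (g2 x).le ?_ (norm_nonneg _) e0.le
      simp only [Pi.add_apply, Real.norm_eq_abs]
      nlinarith [sq_nonneg (|v i x| - 1), sq_abs (v i x), sq_nonneg ‖tg w (v i) x‖])
  rw [integral_sub i1 i2, integral_const_mul, integral_add' i4 i3, integral_const, smul_eq_mul,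
    mul_one] at a1
  have a2 : ε / 2 / M * M = ε / 2 := div_mul_cancel₀ _ M0.ne'
  have a3 := mul_le_mul_of_nonneg_left
    (show (gaussArea 2 S).real univ + ∫ x, (v i x ^ 2 + ‖tg w (v i) x‖ ^ 2) ∂gaussArea 2 S ≤ M by
      linarith [hB i, le_abs_self B]) e0.le
  linarith [norm_le_norm_sub_add (∫ x, v i x * ζ x ∂gaussArea 2 S)
    (∫ x, v i x * g x ∂gaussArea 2 S)]

end Ms

open Ms in
theorem ms2 : MS2 := fun S w δ C h hw ι U v B hv hB h0 => by
  have := lf h
  have key := strong_compactness U two_pos (N := fun _ => mu S) (T := fun _ => TT w)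
    (H := fun _ => Hv w) (κ := mu S) (Eventually.of_forall fun _ => slice h hw)
    (fun _ _ _ => tendsto_const_nhds)
    ((ratio h).imp fun _ hA => Eventually.of_forall fun _ => hA)
    (fun x c hc => by
      obtain ⟨W, c, K, hW, rfl⟩ := tube h
      exact density_le dim3 hW x hc)
    (w := v) (Eventually.of_forall fun i => (hv i).1)
    (fun R => ⟨_, Eventually.of_forall fun i => (loc_le h hw (hv i).1 (hv i).2 R).trans
      (add_le_add_left (mul_le_mul_of_nonneg_left (hB i) (by positivity)) _)⟩)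
    fun ζ hζ hc => (weak h hw hv hB h0 (hζ.div continuous_rho fun x => (rho_pos x).ne')
      (by simpa only [div_eq_mul_inv] using hc.mul_right)).congr fun i => by
        rw [integral_gaussArea]
        refine integral_congr_ae (Eventually.of_forall fun x => ?_)
        simp only [Pi.div_apply]
        field_simp [(rho_pos x).ne']
  rw [NormedAddGroup.tendsto_nhds_zero]
  intro ε hε
  obtain ⟨R, R1, hR⟩ : ∃ R : ℝ, 1 ≤ R ∧ 16 * B ≤ ε / 2 * R :=
    ⟨max 1 (16 * B / (ε / 2)), le_max_left _ _, by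
      rw [mul_comm (ε / 2), ← div_le_iff₀ (half_pos hε)]
      exact le_max_right _ _⟩
  have R0 : 0 < R := by linarith
  have cχ := (P218.H552.contDiff_chi (E := En 3) R).continuous
  filter_upwards [NormedAddGroup.tendsto_nhds_zero.1 (key _ (cχ.fun_mul continuous_rho)
    (P218.H552.chi_compact R0).mul_right) _ (half_pos hε)] with i hi
  have c := (hv i).1.continuous
  have z := fun x (hx : x ∉ tsupport (v i)) => image_eq_zero_of_notMem_tsupport hx
  have i0 : Integrable (fun x => v i x ^ 2) (gaussArea 2 S) :=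
    int_of h (hv i).2 (by fun_prop) fun x hx => by simp [z x hx]
  have i1 : Integrable (fun x => P218.H552.chi R x * v i x ^ 2) (gaussArea 2 S) :=
    int_of h (hv i).2 (by fun_prop) fun x hx => by simp [z x hx]
  have i2 : Integrable (fun x => ‖x‖ ^ 2 * v i x ^ 2) (gaussArea 2 S) :=
    int_of h (hv i).2 (by fun_prop) fun x hx => by simp [z x hx]
  have a1 := integral_mono i0 (i1.add (i2.const_mul R⁻¹)) fun x => by
    simp only [Pi.add_apply]
    rcases le_total ‖x‖ R with e | e
    · rw [P218.H552.chi_eq_one R0 e, one_mul]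
      exact le_add_of_nonneg_right (by positivity)
    · refine le_add_of_nonneg_of_le (mul_nonneg (P218.H552.chi_nonneg _ _) (sq_nonneg _)) ?_
      rw [le_inv_mul_iff₀ R0]
      exact mul_le_mul_of_nonneg_right (by nlinarith) (sq_nonneg _)
  have a2 : ∫ x, P218.H552.chi R x * v i x ^ 2 ∂gaussArea 2 S =
      ∫ x, P218.H552.chi R x * rho x * v i x ^ 2 ∂mu S := by
    rw [integral_gaussArea]
    exact integral_congr_ae (Eventually.of_forall fun x => mul_right_comm _ _ _)
  have a3 : R⁻¹ * ∫ x, ‖x‖ ^ 2 * v i x ^ 2 ∂gaussArea 2 S ≤ ε / 2 := by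
    rw [inv_mul_le_iff₀ R0]
    linarith [ecker h hw (hv i).1 (hv i).2, hB i]
  rw [integral_add' i1 (i2.const_mul _), integral_const_mul, a2] at a1
  rw [Real.norm_of_nonneg (integral_nonneg fun x => sq_nonneg _)]
  linarith [(Real.le_norm_self _).trans_lt hi]

end Vale.Agent.P218H
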