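import Vale.Agent.P218H.Basic
import Mathlib.Analysis.Calculus.MeanValue
import Mathlib.Analysis.Calculus.ContDiff.RCLike

/-!
# P218, block HSP: the rows CMF and MUL
-/

open scoped NNReal Topology ContDiff
open Filter Set Metric MeasureTheory

noncomputable section

namespace Vale.Agent.P218H

variable {n : ℕ} {γ : ℝ}

/-- zero, or a first derivative -/
def dz : J1 n → (En n → ℝ) → En n → ℝ
  | none, _ => fun _ => 0
  | some i, χ => dd (some i) χ

theorem dz_smooth {χ : En n → ℝ} (h : ContDiff ℝ ∞ χ) (i : J1 n) : ContDiff ℝ ∞ (dz i χ) := by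
  cases i with
  | none => exact contDiff_const
  | some i => exact dd_smooth h (some i)

theorem dz_ev {χ : En n → ℝ} {x : En n} {c : ℝ} (h : ∀ᶠ y in 𝓝 x, χ y = c) (i : J1 n) :
    ∀ᶠ y in 𝓝 x, dz i χ y = 0 := by
  cases i with
  | none => exact Eventually.of_forall fun _ => rfl
  | some i =>
    refine (dd_ev (g := fun _ => c) h (some i)).mono fun y hy => ?_
    show dd (some i) χ y = 0
    rw [hy]
    simp [dd]

theorem dz_out {χ : En n → ℝ} {R : ℝ} (h : ∀ x, R ≤ ‖x‖ → χ x = 0) (i : J1 n) (x : En n)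
    (hx : R + 1 ≤ ‖x‖) : dz i χ x = 0 :=
  (dz_ev (c := 0) (mem_of_superset ((isOpen_lt continuous_const continuous_norm).mem_nhds
    (show R < ‖x‖ by linarith)) fun y hy => h y (le_of_lt hy)) i).self_of_nhds

section
variable {V : Type} [NormedAddCommGroup V] [NormedSpace ℝ V] {f g : En n → V} {x : En n}
  {χ : En n → ℝ}

/-- the product rule -/
theorem dd_prod (hχ : DifferentiableAt ℝ χ x) (hf : DifferentiableAt ℝ f x) (i : J1 n) :
    dd i (fun y => χ y • f y) x = χ x • dd i f x + dz i χ x • f x := by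
  cases i with
  | none => simp [dd, dz]
  | some i =>
    show fderiv ℝ (fun y => χ y • f y) x (ee i) = _
    rw [(hχ.hasFDerivAt.fun_smul hf.hasFDerivAt).fderiv]
    rfl

theorem dd_plus (hf : DifferentiableAt ℝ f x) (hg : DifferentiableAt ℝ g x) (i : J1 n) :
    dd i (fun y => f y + g y) x = dd i f x + dd i g x := by
  cases i with
  | none => rfl
  | some i =>
    show fderiv ℝ (fun y => f y + g y) x (ee i) = _
    rw [(hf.hasFDerivAt.fun_add hg.hasFDerivAt).fderiv]
    rfl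

theorem dd2_prod (hχ : ContDiff ℝ ∞ χ) (hf : ContDiffAt ℝ 2 f x) (i j : J1 n) :
    dd i (dd j fun y => χ y • f y) x = χ x • dd i (dd j f) x + dz i χ x • dd j f x
      + (dz j χ x • dd i f x + dz i (dz j χ) x • f x) := by
  have h0 : Differentiable ℝ χ := hχ.differentiable (by simp)
  have h1 : Differentiable ℝ (dz j χ) := (dz_smooth hχ j).differentiable (by simp)
  have h2 : DifferentiableAt ℝ (dd j f) x := (dd_cda1 hf j).differentiableAt one_ne_zero
  have h3 : DifferentiableAt ℝ f x := hf.differentiableAt two_ne_zero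
  have e : (dd j fun y => χ y • f y) =ᶠ[𝓝 x] fun y => χ y • dd j f y + dz j χ y • f y :=
    (ev_diff hf).mono fun y hy => dd_prod (h0 y) hy j
  rw [(dd_ev e i).eq_of_nhds, dd_plus ((h0 x).fun_smul h2) ((h1 x).fun_smul h3),
    dd_prod (h0 x) h2, dd_prod (h1 x) h3]

theorem en_sum (v : En n) : v = ∑ i, v i • ee i := by
  ext j
  simp [ee, Finset.sum_apply, Pi.single_apply]

theorem norm_ee (i : Fin n) : ‖ee i‖ = 1 := by simp [ee]

theorem clm_le (T : En n →L[ℝ] V) {L : ℝ} (hL : 0 ≤ L) (h : ∀ i, ‖T (ee i)‖ ≤ L) :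
    ‖T‖ ≤ n * L := by
  refine T.opNorm_le_bound (by positivity) fun v => ?_
  conv_lhs => rw [en_sum v, map_sum]
  refine (norm_sum_le _ _).trans ?_
  have h1 : ∀ i ∈ (Finset.univ : Finset (Fin n)), ‖T (v i • ee i)‖ ≤ L * ‖v‖ := fun i _ => by
    rw [map_smul, norm_smul, mul_comm]
    exact mul_le_mul (h i) (PiLp.norm_apply_le v i) (norm_nonneg _) hL
  refine (Finset.sum_le_sum h1).trans_eq ?_
  simp [mul_assoc]

/-- the mean value inequality in coordinates -/
theorem lip_of_dd (hf : Differentiable ℝ f) {L : ℝ} (hL : 0 ≤ L)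
    (h : ∀ i x, ‖dd (some i) f x‖ ≤ L) (x y : En n) : ‖f x - f y‖ ≤ n * L * dist x y := by
  rw [dist_eq_norm]
  exact (convex_univ (𝕜 := ℝ) (E := En n)).norm_image_sub_le_of_norm_fderiv_le
    (fun z _ => hf z) (fun z _ => clm_le _ hL fun i => h i z) (mem_univ y) (mem_univ x)

end

theorem cmf : CMF := by
  intro n a χ ha hχ
  refine ⟨fun l x => ∑ i, a i l x * dz i χ x + ∑ j, a l j x * dz j χ x
    + if l = none then ∑ i, ∑ j, a i j x * dz i (dz j χ) x else 0, fun l => ?_,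
    fun l x hx => ?_, fun f x hf => ?_⟩
  · refine ((ContDiff.sum fun i _ => (ha i l).mul (dz_smooth hχ i)).add
      (ContDiff.sum fun j _ => (ha l j).mul (dz_smooth hχ j))).add ?_
    split_ifs
    · exact ContDiff.sum fun i _ => ContDiff.sum fun j _ =>
        (ha i j).mul (dz_smooth (dz_smooth hχ j) i)
    · exact contDiff_const
  · have h1 : ∀ i, dz i χ x = 0 := fun i => (dz_ev hx i).self_of_nhds
    have h2 : ∀ i j, dz i (dz j χ) x = 0 := fun i j => (dz_ev (dz_ev hx j) i).self_of_nhds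
    simp [h1, h2]
  · have e1 : ∑ l, (∑ i, a i l x * dz i χ x) • dd l f x
        = ∑ i, ∑ j, a i j x • dz i χ x • dd j f x := by
      rw [Finset.sum_comm]
      simp only [Finset.sum_smul, mul_smul]
    have e2 : ∑ l, (∑ j, a l j x * dz j χ x) • dd l f x
        = ∑ i, ∑ j, a i j x • dz j χ x • dd i f x := by
      simp only [Finset.sum_smul, mul_smul]
    have e3 : ∑ l : J1 n, (if l = none then ∑ i, ∑ j, a i j x * dz i (dz j χ) x else 0) • dd l f x
        = ∑ i, ∑ j, a i j x • dz i (dz j χ) x • f x := by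
      rw [Finset.sum_eq_single none (fun l _ hl => by rw [if_neg hl, zero_smul])
        (fun h => absurd (Finset.mem_univ _) h), if_pos rfl]
      simp only [Finset.sum_smul, mul_smul]
      rfl
    simp only [add_smul, Finset.sum_add_distrib]
    rw [e1, e2, e3]
    simp only [cm, op, dd2_prod hχ hf, smul_add, Finset.sum_add_distrib, Finset.smul_sum,
      smul_comm (χ x)]
    abel

/-- bounded and Lipschitz gives Hölder -/
theorem hm_of_lip {Y : Type} [PseudoMetricSpace Y] {f : Y → ℂ} {A L : ℝ} (h0 : 0 ≤ γ)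
    (h1 : γ ≤ 1) (hL : 0 ≤ L) (hA : ∀ x, ‖f x‖ ≤ A) (h : ∀ x y, ‖f x - f y‖ ≤ L * dist x y) :
    HM γ f A (2 * A + L) := by
  have h2 : HM 1 f A L := ⟨hA, fun x y => by rw [Real.rpow_one]; exact h x y⟩
  simpa using h2.lower h0 h1 hL one_pos

/-- `C¹` functions are Hölder on compact sets -/
theorem hm_of_c1 {f : En n → ℂ} (hf : ContDiff ℝ 1 f) {K : Set (En n)} (hK : IsCompact K)
    (h0 : 0 ≤ γ) (h1 : γ ≤ 1) : ∃ A, 0 ≤ A ∧ HM γ (fun p : K => f p) A A := by
  obtain ⟨A, hA⟩ := hK.exists_bound_of_continuousOn hf.continuous.continuousOn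
  obtain ⟨L, hL⟩ := LocallyLipschitzOn.exists_lipschitzOnWith_of_compact hK
    hf.locallyLipschitz.locallyLipschitzOn
  have h := hm_of_lip (f := fun p : K => f p) (A := |A|) h0 h1 L.coe_nonneg
    (fun p => (hA p p.2).trans (le_abs_self A)) fun p q => by
      simpa only [dist_eq_norm, Subtype.dist_eq] using hL.dist_le_mul p p.2 q q.2
  have h2 := abs_nonneg A
  have h3 := L.coe_nonneg
  exact ⟨2 * |A| + L, by positivity, h.mono (by linarith) le_rfl⟩

/-- `C¹` functions of compact support are Hölder -/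
theorem hm_of_cs {f : En n → ℂ} (hf : ContDiff ℝ 1 f) {R : ℝ} (hR : ∀ x, R ≤ ‖x‖ → f x = 0)
    (h0 : 0 ≤ γ) (h1 : γ ≤ 1) : ∃ A, 0 ≤ A ∧ HM γ f A A := by
  have hc : HasCompactSupport f := HasCompactSupport.intro (isCompact_closedBall (0 : En n) R)
    fun x hx => hR x (le_of_lt (by simpa using hx))
  obtain ⟨A, hA⟩ := hc.exists_bound_of_continuous hf.continuous
  obtain ⟨L, hL⟩ := ContDiff.lipschitzWith_of_hasCompactSupport hc hf one_ne_zero
  have h := hm_of_lip (A := A) h0 h1 L.coe_nonneg hA fun p q => by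
    simpa only [dist_eq_norm] using hL.dist_le_mul p q
  have h2 := h.nonneg
  have h3 := L.coe_nonneg
  exact ⟨2 * A + L, by positivity, h.mono (by linarith) le_rfl⟩

theorem B1.add {f g : En n → ℂ} {A A' : ℝ} (h : B1 γ f A) (h' : B1 γ g A') :
    B1 γ (fun x => f x + g x) (A + A') := by
  refine ⟨h.1.add h'.1, fun i => ?_⟩
  rw [show dd i (fun x => f x + g x) = fun x => dd i f x + dd i g x from funext fun x =>
    dd_plus (h.1.differentiable one_ne_zero x) (h'.1.differentiable one_ne_zero x) i]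
  exact (h.2 i).add (h'.2 i)

section
variable {χ : En n → ℝ} {R : ℝ}

theorem mul0 (h0 : 0 ≤ γ) (h1 : γ ≤ 1) (hχ : ContDiff ℝ ∞ χ) (hR : ∀ x, R ≤ ‖x‖ → χ x = 0) :
    ∃ C : ℝ, 0 ≤ C ∧ ∀ (f : En n → ℂ) (A B : ℝ), 0 ≤ B → HM γ f A B →
      HM γ (fun x => χ x • f x) (C * A) (C * (A + B)) := by
  obtain ⟨C, hC, h⟩ := hm_of_cs (f := fun x => (χ x : ℂ))
    (Complex.ofRealCLM.contDiff.comp (hχ.of_le (by simp))) (R := R)
    (fun x hx => by rw [hR x hx, Complex.ofReal_zero]) h0 h1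
  refine ⟨C, hC, fun f A B _ hf => ?_⟩
  simp only [Complex.real_smul]
  exact (h.mul hf hC).mono le_rfl (le_of_eq (by ring))

theorem mul1 (h0 : 0 ≤ γ) (h1 : γ ≤ 1) (hχ : ContDiff ℝ ∞ χ) (hR : ∀ x, R ≤ ‖x‖ → χ x = 0) :
    ∃ C : ℝ, 0 ≤ C ∧ ∀ (f : En n → ℂ) (A : ℝ), B1 γ f A → B1 γ (fun x => χ x • f x) (C * A) := by
  obtain ⟨C, hC, h⟩ := mul0 h0 h1 hχ hR
  choose D hD hd using fun i => mul0 h0 h1 (dz_smooth hχ i) (dz_out hR i)
  have hS : 0 ≤ ∑ i, D i := Finset.sum_nonneg fun i _ => hD i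
  refine ⟨2 * (C + ∑ i, D i), by positivity, fun f A hf => ⟨(hχ.of_le (by simp)).smul hf.1,
    fun i => ?_⟩⟩
  have hA := hf.nonneg
  have h2 : D i * A ≤ (∑ i, D i) * A := mul_le_mul_of_nonneg_right
    (Finset.single_le_sum (fun i _ => hD i) (Finset.mem_univ i)) hA
  have h3 := mul_nonneg hC hA
  have h4 := mul_nonneg hS hA
  rw [show dd i (fun x => χ x • f x) = fun x => χ x • dd i f x + dz i χ x • f x from
    funext fun x => dd_prod (hχ.differentiable (by simp) x)
      (hf.1.differentiable one_ne_zero x) i]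
  exact ((h _ A A hA (hf.2 i)).add (hd i f A A hA (hf.2 none))).mono (by linarith) (by linarith)

theorem mul2 (h0 : 0 ≤ γ) (h1 : γ ≤ 1) (hχ : ContDiff ℝ ∞ χ) (hR : ∀ x, R ≤ ‖x‖ → χ x = 0) :
    ∃ C : ℝ, 0 ≤ C ∧ ∀ (f : En n → ℂ) (A : ℝ), B2 γ f A → B2 γ (fun x => χ x • f x) (C * A) := by
  obtain ⟨C, hC, h⟩ := mul1 h0 h1 hχ hR
  choose D hD hd using fun i => mul1 h0 h1 (dz_smooth hχ i) (dz_out hR i)
  have hS : 0 ≤ ∑ i, D i := Finset.sum_nonneg fun i _ => hD i
  refine ⟨C + ∑ i, D i, by positivity, fun f A hf =>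
    ⟨(contDiff_infty.1 hχ 2).smul hf.1, fun i j => ?_⟩⟩
  have hA := hf.nonneg
  have h2 : D j * A ≤ (∑ i, D i) * A := mul_le_mul_of_nonneg_right
    (Finset.single_le_sum (fun i _ => hD i) (Finset.mem_univ j)) hA
  rw [show dd j (fun x => χ x • f x) = fun x => χ x • dd j f x + dz j χ x • f x from
    funext fun x => dd_prod (hχ.differentiable (by simp) x)
      (hf.1.differentiable two_ne_zero x) j]
  exact (((h _ A (hf.dd j)).add (hd j f A (hf.dd none))).mono (by linarith)).2 i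

end

/-- interpolation between a bound at two points and a Lipschitz bound -/
theorem interp (h0 : 0 ≤ γ) (h1 : γ ≤ 1) {f : En n → ℂ} {A L lam : ℝ} (hf : Differentiable ℝ f)
    (hL : 0 ≤ L) (h : ∀ i x, ‖dd (some i) f x‖ ≤ L) (hl : 0 < lam) {x y : En n} (hx : ‖f x‖ ≤ A)
    (hy : ‖f y‖ ≤ A) :
    ‖f x - f y‖ ≤ (2 * lam ^ (-γ) * A + n * lam ^ (1 - γ) * L) * dist x y ^ γ := by
  have h2 : HM 1 (fun p : ({x, y} : Set (En n)) => f p) A (n * L) :=
    ⟨fun p => by
      rcases p with ⟨p, rfl | rfl⟩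
      exacts [hx, hy], fun p q => by
      rw [Real.rpow_one]
      exact lip_of_dd hf hL h p q⟩
  refine ((h2.lower h0 h1 (by positivity) hl).hol ⟨x, Or.inl rfl⟩ ⟨y, Or.inr rfl⟩).trans_eq ?_
  rw [Subtype.dist_eq]
  ring

/-- Landau's inequality -/
theorem landau {f : En n → ℂ} {A L lam : ℝ} (hf : ContDiff ℝ 2 f) (hA : ∀ x, ‖f x‖ ≤ A)
    (h : ∀ i j x, ‖dd (some i) (dd (some j) f) x‖ ≤ L) (hl : 0 < lam) (i : Fin n) (x : En n) :
    ‖dd (some i) f x‖ ≤ 2 * A / lam + n * lam * L := by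
  have hL : 0 ≤ L := (norm_nonneg _).trans (h i i x)
  have h1 := lip_of_dd ((dd_cd hf (some i)).differentiable one_ne_zero) hL fun j => h j i
  have h2 : ∀ t : ℝ, HasDerivAt (fun t : ℝ => f (x + t • ee i) - t • dd (some i) f x)
      (dd (some i) f (x + t • ee i) - dd (some i) f x) t := fun t => by
    have h3 : HasDerivAt (fun t : ℝ => x + t • ee i) (ee i) t := by
      simpa using ((hasDerivAt_id t).smul_const (ee i)).const_add x
    have h4 := (hf.differentiable two_ne_zero (x + t • ee i)).hasFDerivAt.comp_hasDerivAt t h3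
    have h5 : HasDerivAt (fun t : ℝ => t • dd (some i) f x) (dd (some i) f x) t := by
      simpa using (hasDerivAt_id t).smul_const (dd (some i) f x)
    exact h4.sub h5
  have h3 := norm_image_sub_le_of_norm_deriv_le_segment' (a := 0) (b := lam) (C := n * L * lam)
    (fun t _ => (h2 t).hasDerivWithinAt) (fun t ht => (h1 _ _).trans (by
      rw [dist_eq_norm, add_sub_cancel_left, norm_smul, norm_ee, mul_one, Real.norm_of_nonneg ht.1]
      exact mul_le_mul_of_nonneg_left ht.2.le (by positivity))) lam (right_mem_Icc.2 hl.le)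
  simp only [zero_smul, add_zero, sub_zero] at h3
  have h4 : lam * ‖dd (some i) f x‖ ≤ 2 * A + n * L * lam * lam := by
    have e : lam • dd (some i) f x = f (x + lam • ee i) - f x
        - (f (x + lam • ee i) - lam • dd (some i) f x - f x) := by abel
    have h5 := norm_sub_le (f (x + lam • ee i) - f x)
      (f (x + lam • ee i) - lam • dd (some i) f x - f x)
    rw [← e, norm_smul, Real.norm_of_nonneg hl.le] at h5
    linarith [norm_sub_le (f (x + lam • ee i)) (f x), hA x, hA (x + lam • ee i)]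
  rw [div_add' _ _ _ hl.ne', le_div_iff₀ hl]
  linarith

theorem mul : MUL := by
  intro n γ h0 h1
  refine ⟨fun χ R hχ hR => ?_, ⟨n, Nat.cast_nonneg n, fun f A L hf hL h lam hl x y hx hy =>
    interp h0 h1 hf hL h hl hx hy⟩, n, Nat.cast_nonneg n, fun f A L hf hA h lam hl i x =>
    landau hf hA h hl i x⟩
  obtain ⟨C0, p0, q0⟩ := mul0 h0 h1 hχ hR
  obtain ⟨C1, p1, q1⟩ := mul1 h0 h1 hχ hR
  obtain ⟨C2, p2, q2⟩ := mul2 h0 h1 hχ hR
  refine ⟨C0 + C1 + C2, by positivity, fun f A B hB => ⟨fun hf => ?_, fun hf => ?_, fun hf => ?_⟩⟩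
  · have hA := hf.nonneg
    exact (q0 f A B hB hf).mono (mul_le_mul_of_nonneg_right (by linarith) hA)
      (mul_le_mul_of_nonneg_right (by linarith) (by linarith))
  · exact (q1 f A hf).mono (mul_le_mul_of_nonneg_right (by linarith) hf.nonneg)
  · exact (q2 f A hf).mono (mul_le_mul_of_nonneg_right (by linarith) hf.nonneg)

end Vale.Agent.P218H
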