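import Vale.Agent.P218H.SpecS
import Vale.Agent.P218H.Glob
import Vale.Agent.P218H.Mul
import Mathlib.Analysis.Distribution.AEEqOfIntegralContDiff

/-! # P218, block LIN: nondegeneracy for very weak solutions by duality -/

open scoped Topology ContDiff RealInnerProductSpace
open Filter Set Metric MeasureTheory
open Vale.Agent.P218.H63 (IsTubeShrinker stab hessSq)

noncomputable section

namespace Vale.Agent.P218H

namespace Nd1

variable {n : ℕ}

theorem dz_sc (β : En n → ℝ) (c : ℝ) (i : J1 n) :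
    dz i (fun y => β (c • y)) = fun x => c * dz i β (c • x) := by
  cases i with
  | none => simp [dz]
  | some i => exact funext fun x => by simp [dz, dd, fderiv_comp_smul]

theorem dz_mul {β : En n → ℝ} (hβ : Differentiable ℝ β) (c : ℝ) (i : J1 n) :
    dz i (fun y => c * β y) = fun x => c * dz i β x := by
  cases i with
  | none => simp [dz]
  | some i => exact funext fun x => by simp [dz, dd, fderiv_const_mul (hβ x)]

theorem cut (n : ℕ) : ∃ M : ℝ, 0 ≤ M ∧ ∀ ρ : ℝ, 1 ≤ ρ → ∃ χ : En n → ℝ, ContDiff ℝ ∞ χ ∧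
    (∀ x, ‖x‖ ≤ ρ → χ x = 1) ∧ (∀ x, 2 * ρ ≤ ‖x‖ → χ x = 0) ∧
    ∀ i j x, |dz i χ x| ≤ M ∧ |dz i (dz j χ) x| ≤ M := by
  set β : En n → ℝ := fun x => 1 - st 1 x with hβ
  have sm : ContDiff ℝ ∞ β := contDiff_const.sub (st_smooth 1)
  have b0 : ∀ x, 2 ≤ ‖x‖ → β x = 0 := fun x hx => by
    simp [hβ, st_one zero_le_one (show 1 + 1 ≤ ‖x‖ by linarith)]
  have bd : ∀ (g : En n → ℝ) (R : ℝ), Continuous g → (∀ x, R ≤ ‖x‖ → g x = 0) →
      ∃ M, ∀ x, ‖g x‖ ≤ M := fun g R hg h => (HasCompactSupport.intro (isCompact_closedBall 0 R)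
        fun x hx => h x (not_le.1 (mem_closedBall_zero_iff.not.1 hx)).le
      ).exists_bound_of_continuous hg
  choose M₁ h1 using fun i => bd _ _ (dz_smooth sm i).continuous (dz_out b0 i)
  choose M₂ h2 using fun i j => bd _ _ (dz_smooth (dz_smooth sm j) i).continuous
    (dz_out (dz_out b0 j) i)
  obtain ⟨M, hM⟩ := (finite_range fun p : J1 n × J1 n => max (M₁ p.1) (M₂ p.1 p.2)).bddAbove
  have hM' : ∀ i j, M₁ i ≤ M ∧ M₂ i j ≤ M := fun i j => max_le_iff.1 (hM ⟨(i, j), rfl⟩)
  have M0 : 0 ≤ M := ((norm_nonneg _).trans (h1 none 0)).trans (hM' none none).1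
  refine ⟨M, M0, fun ρ hρ => ⟨fun y => β (ρ⁻¹ • y), sm.comp (contDiff_const_smul _),
    fun x hx => ?_, fun x hx => b0 _ ?_, fun i j x => ?_⟩⟩
  · have : ‖ρ⁻¹ • x‖ ≤ 1 := by
      rwa [norm_smul, Real.norm_of_nonneg (by positivity), inv_mul_le_one₀ (by positivity)]
    simp [hβ, st_zero zero_le_one this]
  · rwa [norm_smul, Real.norm_of_nonneg (by positivity), le_inv_mul_iff₀ (by positivity), mul_comm]
  · have k : ∀ t : ℝ, |t| ≤ M → |ρ⁻¹ * t| ≤ M := fun t ht => by
      rw [abs_mul, abs_of_nonneg (by positivity)]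
      exact (mul_le_of_le_one_left (abs_nonneg _) (inv_le_one_of_one_le₀ hρ)).trans ht
    rw [dz_sc β _ j, dz_mul (β := fun y => dz j β (ρ⁻¹ • y))
      (((dz_smooth sm j).comp (contDiff_const_smul _)).differentiable (by simp)), dz_sc, dz_sc]
    exact ⟨k _ ((h1 i _).trans (hM' i j).1), k _ (k _ ((h2 i j _).trans (hM' i j).2))⟩

theorem cm_le {a : J1 n → J1 n → En n → ℝ} {χ : En n → ℝ} {f : En n → ℂ} {x : En n}
    {A M B : ℝ} (hχ : ContDiff ℝ ∞ χ) (hf : ContDiffAt ℝ 2 f x) (ha : ∀ i j, |a i j x| ≤ A)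
    (hM : ∀ i j, |dz i χ x| ≤ M ∧ |dz i (dz j χ) x| ≤ M) (hB : ∀ i, ‖dd i f x‖ ≤ B) :
    ‖cm a χ f x‖ ≤ (n + 1) ^ 2 * (A * (3 * (M * B))) := by
  have e : cm a χ f x = ∑ i, ∑ j, a i j x • (dz i χ x • dd j f x +
      (dz j χ x • dd i f x + dz i (dz j χ) x • f x)) := by
    simp only [cm, op, dd2_prod hχ hf, Finset.smul_sum, ← Finset.sum_sub_distrib, add_assoc,
      smul_add (a _ _ x) (χ x • _), smul_comm (a _ _ x) (χ x), add_sub_cancel_left]
  have k : ∀ (t : ℝ) (z : ℂ), |t| ≤ M → ‖z‖ ≤ B → ‖t • z‖ ≤ M * B := fun t z h1 h2 => by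
    rw [norm_smul]
    exact mul_le_mul h1 h2 (norm_nonneg _) ((abs_nonneg _).trans h1)
  rw [e]
  refine (norm_sum_le _ _).trans ((Finset.sum_le_card_nsmul _ _ _ fun i _ =>
    (norm_sum_le _ _).trans (Finset.sum_le_card_nsmul _ _ (A * (3 * (M * B))) fun j _ => ?_)
    ).trans_eq (by simp; ring))
  rw [norm_smul]
  refine mul_le_mul (ha i j) ((norm_add_le _ _).trans ((add_le_add_right (norm_add_le _ _) _).trans
    ?_)) (norm_nonneg _) ((abs_nonneg _).trans (ha i j))
  linarith [k _ _ (hM i j).1 (hB j), k _ _ (hM j j).1 (hB i), k _ (f x) (hM i j).2 (hB none)]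

theorem sa_le {S : Set (En n)} {w : En n → ℝ} {δ C K : ℝ} (h : IsTubeShrinker S w δ C)
    (hK : ∀ p ∈ S, |hessSq w p| ≤ K) {p : En n} (hp : p ∈ S) (i j : J1 n) :
    |sa w i j p| ≤ (K + 2) * (1 + ‖p‖) := by
  have h1 := h.norm_grad p (by simpa [(h.mem_iff p).1 hp] using h.pos)
  have h2 : ∀ i, |gradient w p i| ≤ 1 := fun i => h1 ▸ PiLp.norm_apply_le (gradient w p) i
  have h3 := hK p hp
  have h4 := (abs_nonneg _).trans h3
  have h5 := mul_nonneg h4 (norm_nonneg p)
  have h6 := norm_nonneg p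
  rcases i with _ | i <;> rcases j with _ | j <;> simp only [sa]
  · linarith [abs_add_le (hessSq w p) (1 / 2), abs_of_pos (one_half_pos (α := ℝ))]
  · have : |p j| ≤ ‖p‖ := PiLp.norm_apply_le p j
    rw [abs_div, abs_neg, abs_two]
    linarith
  · rw [abs_zero]
    positivity
  · have h7 : |gradient w p i * gradient w p j| ≤ 1 :=
      (abs_mul _ _).trans_le (mul_le_one₀ (h2 i) (abs_nonneg _) (h2 j))
    refine (abs_sub _ _).trans ?_
    split_ifs <;> simp only [abs_one, abs_zero] <;> linarith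

end Nd1

open Nd1 in
/-- **ND1** -/
theorem nd1 (geo : GEOS) : ND1 := by
  intro n k S w δ C ν ψ h hw hM hψ hS u l um u2 hu hc
  have := hM.fin
  obtain ⟨tube, ell, hop, -, ⟨K, hK⟩, -⟩ := geo n S w δ C h hw
  obtain ⟨M, M0, hcut⟩ := cut n
  have ae : ∀ᵐ x ∂ν, x ∈ S := hM.supp
  have mom : ∀ N : ℕ, Integrable (fun x => |u x| * (1 + ‖x‖) ^ N) ν := fun N =>
    (u2.add (hM.mom (2 * N))).mono' (um.norm.mul (by fun_prop)) (.of_forall fun x => by
      rw [Real.norm_of_nonneg (by positivity), Pi.add_apply, mul_comm 2 N, pow_mul, ← sq_abs (u x)]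
      nlinarith [sq_nonneg (|u x| - (1 + ‖x‖) ^ N), sq_nonneg |u x|, sq_nonneg ((1 + ‖x‖) ^ N)])
  have u1 : Integrable u ν := (integrable_norm_iff um).1 (by simpa using mom 0)
  have ub : ∀ g : En n → ℝ, Continuous g → HasCompactSupport g →
      Integrable (fun x => u x * g x) ν := fun g h1 h2 =>
    let ⟨_, hc⟩ := h2.exists_bound_of_continuous h1
    u1.mul_bdd h1.aestronglyMeasurable (.of_forall hc)
  have key : ∀ (f : En n → ℝ) (a : Fin k → ℝ), ContDiff ℝ ∞ f → HasCompactSupport f →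
      ∫ x, u x * f x ∂ν = ∑ i, l i * a i := fun f a f1 f2 => by
    obtain ⟨C', N, hs⟩ := hS f a f1 f2
    obtain ⟨R₀, hR₀⟩ := (f2.isCompact.union (isCompact_iUnion fun i => (hψ i).2.isCompact)
      ).isBounded.subset_ball 0
    have z : ∀ x, R₀ ≤ ‖x‖ → f x = 0 ∧ ∀ i, ψ i x = 0 := fun x hx => by
      have : x ∉ _ := fun k => not_lt.2 hx (mem_ball_zero_iff.1 (hR₀ k))
      simp only [mem_union, mem_iUnion, not_or, not_exists] at this
      exact ⟨image_eq_zero_of_notMem_tsupport this.1,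
        fun i => image_eq_zero_of_notMem_tsupport (this.2 i)⟩
    set D : ℝ := (n + 1) ^ 2 * ((K + 2) * (3 * (M * C'))) with hD
    set H : En n → ℝ := fun x => |D| * (|u x| * (1 + ‖x‖) ^ (N + 1)) with hH
    have Hi : Integrable H ν := (mom _).const_mul _
    have ms : ∀ ρ : ℝ, MeasurableSet {x : En n | ρ ≤ ‖x‖} := fun ρ =>
      (isClosed_le continuous_const continuous_norm).measurableSet
    have lim : Tendsto (fun ρ : ℕ => ∫ x in {x | (ρ : ℝ) ≤ ‖x‖}, H x ∂ν) atTop (𝓝 0) := by
      have := tendsto_setIntegral_of_antitone (μ := ν) (f := H) (fun ρ : ℕ => ms ρ)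
        (fun a b hab x hx => le_trans (α := ℝ) (c := ‖x‖) (Nat.cast_le.2 hab) hx) ⟨0, Hi.integrableOn⟩
      rwa [show ⋂ ρ : ℕ, {x : En n | (ρ : ℝ) ≤ ‖x‖} = ∅ from eq_empty_of_forall_notMem fun x hx =>
        let ⟨m, hm⟩ := exists_nat_gt ‖x‖
        not_le.2 hm (mem_iInter.1 hx m), setIntegral_empty] at this
    refine sub_eq_zero.1 (abs_nonpos_iff.1 (ge_of_tendsto lim ?_))
    filter_upwards [tendsto_natCast_atTop_atTop.eventually_ge_atTop (max R₀ 1)] with ρ hρ
    obtain ⟨r0, r1⟩ := max_le_iff.1 hρ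
    obtain ⟨χ, c1, c2, c3, c4⟩ := hcut ρ r1
    obtain ⟨ζ, m, z1, z2⟩ := hs (2 * ρ + 1)
    obtain ⟨G, g1, g2, g3⟩ := glob ((isCompact_closedBall (0 : En n) (2 * ρ)).inter_left
      tube.closed) fun p hp => (z1 p hp.1 ((mem_closedBall_zero_iff.1 hp.2).trans_lt
        (lt_add_one _))).1
    have c5 : ContDiff ℝ 2 fun y => χ y • G y :=
      (c1.of_le (WithTop.coe_le_coe.2 le_top : ((2 : ℕ∞) : WithTop ℕ∞) ≤ ∞)).smul g1
    set η : En n → ℝ := fun y => Complex.reCLM (χ y • G y) with hη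
    have e1 : ContDiff ℝ 2 η := Complex.reCLM.contDiff.comp c5
    have e2 : HasCompactSupport η := g2.mono fun y hy h0 => hy (by simp [hη, h0])
    set E : En n → ℝ := fun p => op (sa w) η p - f p - ∑ i, (m i).re * ψ i p with hE
    have Ec : Continuous E := ((continuous_finsetSum _ fun i _ => continuous_finsetSum _ fun j _ =>
      (ell.sm i j).continuous.smul (by
        have : ContDiff ℝ 0 (dd i (dd j η)) := contDiff_iff_contDiffAt.2 fun x =>
          dd_cda (m := 0) (dd_cda1 e1.contDiffAt j) i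
        exact this.continuous)).sub f1.continuous).sub
      (continuous_finsetSum _ fun i _ => continuous_const.mul (hψ i).1)
    have Eb : ∀ᵐ p ∂ν, ‖u p * E p‖ ≤ indicator {x | (ρ : ℝ) ≤ ‖x‖} H p := by
      filter_upwards [ae] with p hp
      have H0 : 0 ≤ indicator {x | (ρ : ℝ) ≤ ‖x‖} H p :=
        indicator_nonneg (fun _ _ => by positivity) _
      rcases lt_or_ge (2 * (ρ : ℝ)) ‖p‖ with k | k
      · have : η =ᶠ[𝓝 p] fun _ => 0 := mem_of_superset
          ((isOpen_lt continuous_const continuous_norm).mem_nhds k) fun y hy => by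
            simp [hη, c3 y (le_of_lt hy)]
        simpa [hE, op_congr this, op_zero, z p (by linarith)] using H0
      have ev := g3 p ⟨hp, mem_closedBall_zero_iff.2 k⟩
      obtain ⟨-, z4, z5⟩ := z1 p hp (k.trans_lt (lt_add_one _))
      have e3 : E p = (cm (sa w) χ G p).re := by
        have e4 : χ p • ((f p : ℂ) + ∑ i, m i * ψ i p) = f p + ∑ i, m i * ψ i p := by
          rcases le_total ‖p‖ ρ with k' | k'
          · rw [c2 p k', one_smul]
          · simp [z p (r0.trans k')]
        simp only [hE, hη, op_clm Complex.reCLM c5.contDiffAt, cm, op_congr ev, z5, e4]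
        simp [sub_sub]
      rcases lt_or_ge ‖p‖ ρ with k' | k'
      · rw [e3, cm_one (mem_of_superset ((isOpen_lt continuous_norm continuous_const).mem_nhds k')
          fun y hy => c2 y (le_of_lt hy))]
        simpa using H0
      · rw [indicator_of_mem (show p ∈ {x | (ρ : ℝ) ≤ ‖x‖} from k'), norm_mul, e3, hH]
        have := (Complex.abs_re_le_norm _).trans (cm_le c1 g1.contDiffAt (sa_le h hK hp)
          (fun i j => c4 i j p) fun i => ((dd_ev ev i).eq_of_nhds ▸ z4 i :))
        have h9 : |(cm (sa w) χ G p).re| ≤ |D| * (1 + ‖p‖) ^ (N + 1) := this.trans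
          (le_trans (le_of_eq (by rw [hD]; ring))
            (mul_le_mul_of_nonneg_right (le_abs_self D) (by positivity)))
        exact (mul_le_mul_of_nonneg_left h9 (norm_nonneg _)).trans_eq (mul_left_comm _ _ _)
    have Hi' := Hi.indicator (ms ρ)
    have Ei : Integrable (fun p => u p * E p) ν :=
      Hi'.mono' (um.mul Ec.aestronglyMeasurable) Eb
    have L : ∫ p, u p * stab w η p ∂ν = ∫ p, u p * E p ∂ν + ∫ p, u p * f p ∂ν := by
      have i1 : ∀ i, Integrable (fun p => (m i).re * (u p * ψ i p)) ν := fun i =>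
        (ub _ (hψ i).1 (hψ i).2).const_mul _
      have : ∫ p, ∑ i, (m i).re * (u p * ψ i p) ∂ν = 0 := by
        simp only [integral_finsetSum _ fun i _ => i1 i, integral_const_mul, hc, mul_zero,
          Finset.sum_const_zero]
      have i2 : Integrable (fun p => u p * E p + u p * f p) ν := Ei.add (ub f f1.continuous f2)
      rw [← add_zero (_ + _), ← this, ← integral_add Ei (ub f f1.continuous f2),
        ← integral_add i2 (integrable_finsetSum _ fun i _ => i1 i)]
      refine integral_congr_ae (.of_forall fun p => ?_)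
      simp only [hE, hop η p e1.contDiffAt, mul_left_comm _ (u p), ← Finset.mul_sum]
      ring
    have R : ∫ p, (∑ i, l i * ψ i p) * η p ∂ν = ∑ i, l i * a i := by
      have i1 : ∀ i, Integrable (fun p => (χ p • G p) * ψ i p) ν := fun i =>
        (c5.continuous.mul (Complex.continuous_ofReal.comp (hψ i).1)
          ).integrable_of_hasCompactSupport (g2.mono fun y hy h0 => hy (by simp [h0]))
      have i2 : ∀ i, ∫ p, (χ p • G p) * ψ i p ∂ν = a i := fun i => by
        rw [← z2 i]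
        refine integral_congr_ae (ae.mono fun p hp => ?_)
        rcases le_total ‖p‖ ρ with k' | k'
        · simp only [c2 p k', one_smul,
            (g3 p ⟨hp, mem_closedBall_zero_iff.2 (by linarith)⟩).eq_of_nhds]
        · simp [z p (r0.trans k')]
      have i3 : ∀ i p, ψ i p * η p = Complex.reCLM ((χ p • G p) * ψ i p) := fun i p => by
        simp [hη, mul_comm]
      simp only [Finset.sum_mul, mul_assoc, i3]
      rw [integral_finsetSum _ fun i _ => (Complex.reCLM.integrable_comp (i1 i)).const_mul _]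
      simp only [integral_const_mul, Complex.reCLM.integral_comp_comm (i1 _), i2]
      simp
    rw [← R, ← hu η e1 e2, L, ← sub_sub, sub_right_comm, sub_self, zero_sub, abs_neg,
      ← integral_indicator (ms ρ)]
    exact norm_integral_le_of_norm_le Hi' Eb
  refine ⟨ae_eq_zero_of_integral_contDiff_smul_eq_zero u1.locallyIntegrable fun g g1 g2 => ?_, ?_⟩
  · simpa [mul_comm] using key g 0 g1 g2
  · have := key 0 l contDiff_const HasCompactSupport.zero
    simp only [Pi.zero_apply, mul_zero, integral_zero] at this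
    exact funext fun i => mul_self_eq_zero.1 ((Finset.sum_eq_zero_iff_of_nonneg
      fun i _ => mul_self_nonneg (l i)).1 this.symm i (Finset.mem_univ i))

end Vale.Agent.P218H
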