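import Vale.Agent.P218H.SpecS
import Vale.Agent.P218H.Mul
import Vale.Agent.P218H.Glob

/-!
# P218, block LIN: the row NQS (quantitative nondegeneracy)
-/

open scoped NNReal Topology ContDiff RealInnerProductSpace
open Filter Set Metric MeasureTheory
open Vale.Agent.P218.H63 (IsTubeShrinker stab hessSq gaussArea)

noncomputable section

namespace Vale.Agent.P218H

namespace Nq

variable {n k : ℕ} {S : Set (En n)} {w f g : En n → ℝ} {ν : Measure (En n)} {x : En n}
  {ψ : Fin k → En n → ℝ}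

theorem grad_mul (hf : DifferentiableAt ℝ f x) (hg : DifferentiableAt ℝ g x) :
    gradient (fun y => f y * g y) x = f x • gradient g x + g x • gradient f x := by
  unfold gradient
  rw [fderiv_fun_mul hf hg, map_add, map_smul, map_smul]

theorem tg_mul (hf : DifferentiableAt ℝ f x) (hg : DifferentiableAt ℝ g x) :
    tg w (fun y => f y * g y) x = f x • tg w g x + g x • tg w f x := by
  unfold tg
  rw [grad_mul hf hg, inner_add_left, real_inner_smul_left, real_inner_smul_left]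
  module

theorem norm_grad : ‖gradient f x‖ = ‖fderiv ℝ f x‖ := LinearIsometryEquiv.norm_map _ _

theorem cont_grad (hf : ContDiff ℝ 1 f) : Continuous (gradient f) :=
  (InnerProductSpace.toDual ℝ (En n)).symm.continuous.comp (hf.continuous_fderiv one_ne_zero)

theorem cont_tg (hw : ContDiff ℝ 1 w) (hf : ContDiff ℝ 1 f) : Continuous (tg w f) :=
  (cont_grad hf).sub (((cont_grad hf).inner (𝕜 := ℝ) (cont_grad hw)).smul (cont_grad hw))

theorem tg_zero (h : fderiv ℝ f x = 0) : tg w f x = 0 := by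
  simp [tg, gradient, h]

theorem tg_le (h : ‖gradient w x‖ = 1) : ‖tg w f x‖ ≤ 2 * ‖fderiv ℝ f x‖ := by
  have h1 := abs_real_inner_le_norm (gradient f x) (gradient w x)
  have h2 := norm_sub_le (gradient f x) (⟪gradient f x, gradient w x⟫ • gradient w x)
  rw [norm_smul, h, Real.norm_eq_abs] at h2
  rw [h] at h1
  rw [← norm_grad]
  unfold tg
  linarith

theorem cont_op {a : J1 n → J1 n → En n → ℝ} (ha : ∀ i j, ContDiff ℝ ∞ (a i j))
    (hf : ContDiff ℝ 2 f) : Continuous (op a f) :=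
  continuous_finsetSum _ fun i _ => continuous_finsetSum _ fun j _ =>
    (ha i j).continuous.smul (continuous_iff_continuousAt.2 fun _ =>
      (dd_cda (m := 0) (dd_cda1 hf.contDiffAt j) i).continuousAt)

/-- cut-off functions with small gradient -/
theorem ex_cut (n : ℕ) : ∃ K : ℝ, 0 ≤ K ∧ ∀ ρ : ℝ, 0 < ρ → ∃ χ : En n → ℝ, ContDiff ℝ 1 χ ∧
    (∀ x, ‖x‖ ≤ ρ → χ x = 1) ∧ (∀ x, 2 * ρ ≤ ‖x‖ → χ x = 0) ∧ (∀ x, |χ x| ≤ 1) ∧
    ∀ x, ‖fderiv ℝ χ x‖ ≤ K / ρ := by
  have h1 : ContDiff ℝ 1 fun x : En n => 1 - st 1 x :=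
    contDiff_const.sub ((st_smooth 1).of_le (by simp))
  have h2 : HasCompactSupport fun x : En n => 1 - st 1 x :=
    HasCompactSupport.intro (isCompact_closedBall (0 : En n) (1 + 1)) fun x hx => by
      rw [st_one zero_le_one (le_of_lt (by simpa using hx)), sub_self]
  obtain ⟨K, hK⟩ := (h2.fderiv ℝ).exists_bound_of_continuous (h1.continuous_fderiv one_ne_zero)
  refine ⟨K, (norm_nonneg _).trans (hK 0), fun ρ hρ => ⟨fun x => 1 - st 1 (ρ⁻¹ • x),
    h1.comp (contDiff_const_smul _), fun x hx => ?_, fun x hx => ?_, fun x => ?_, fun x => ?_⟩⟩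
  · show 1 - st 1 (ρ⁻¹ • x) = 1
    rw [st_zero zero_le_one, sub_zero]
    rw [norm_smul, norm_inv, Real.norm_of_nonneg hρ.le, inv_mul_le_iff₀ hρ]
    linarith
  · show 1 - st 1 (ρ⁻¹ • x) = 0
    rw [st_one zero_le_one, sub_self]
    rw [norm_smul, norm_inv, Real.norm_of_nonneg hρ.le, le_inv_mul_iff₀ hρ]
    linarith
  · have h3 := st_nonneg (c := 1) (x := ρ⁻¹ • x)
    have h4 := st_le_one (c := 1) (x := ρ⁻¹ • x)
    rw [abs_le]
    constructor <;> linarith
  · rw [fderiv_comp_smul (f := fun x : En n => 1 - st 1 x), norm_smul, norm_inv,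
      Real.norm_of_nonneg hρ.le, div_eq_inv_mul]
    exact mul_le_mul_of_nonneg_left (hK _) (inv_nonneg.2 hρ.le)

/-- the data used below -/
structure Dt (S : Set (En n)) (w : En n → ℝ) (ν : Measure (En n)) : Prop where
  ms : MS S w ν
  sw : ContDiff ℝ 1 w
  one : ∀ p ∈ S, ‖gradient w p‖ = 1
  sm : ∀ i j, ContDiff ℝ ∞ (sa w i j)
  eq : ∀ (f : En n → ℝ) x, ContDiffAt ℝ 2 f x → op (sa w) f x = stab w f x

theorem Dt.ae (h : Dt S w ν) : ∀ᵐ x ∂ν, x ∈ S := h.ms.supp

theorem Dt.cq (h : Dt S w ν) : Continuous fun x => hessSq w x + 1 / 2 :=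
  (h.sm none none).continuous

theorem Dt.cst (h : Dt S w ν) (hf : ContDiff ℝ 2 f) : Continuous (stab w f) := by
  rw [← funext fun x => h.eq f x hf.contDiffAt]
  exact cont_op h.sm hf

theorem Dt.intg (h : Dt S w ν) {V : Type} [NormedAddCommGroup V] {u : En n → V}
    (hu : Continuous u) (hf : HasCompactSupport f) (h0 : ∀ x, x ∉ tsupport f → u x = 0) :
    Integrable u ν :=
  haveI := h.ms.fin
  hu.integrable_of_hasCompactSupport (HasCompactSupport.intro hf h0)

theorem Dt.stab_zero (h : Dt S w ν) (hf : ContDiff ℝ 2 f) (hx : x ∉ tsupport f) :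
    stab w f x = 0 := by
  rw [← h.eq f x hf.contDiffAt, op_congr (notMem_tsupport_iff_eventuallyEq.1 hx)]
  exact op_zero

/-- the operator is symmetric -/
theorem Dt.symm (h : Dt S w ν) (hf : ContDiff ℝ 2 f) (hf' : HasCompactSupport f)
    (hg : ContDiff ℝ 2 g) (hg' : HasCompactSupport g) :
    ∫ x, f x * stab w g x ∂ν = ∫ x, g x * stab w f x ∂ν := by
  rw [h.ms.green f g (hf.of_le (by norm_num)) hf' hg,
    h.ms.green g f (hg.of_le (by norm_num)) hg' hf]
  simp only [real_inner_comm (tg w f _), mul_comm (f _)]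

/-- the second variation of a localised function -/
theorem Dt.qq (h : Dt S w ν) {χ u : En n → ℝ} (hχ : ContDiff ℝ 1 χ) (hu : ContDiff ℝ 2 u)
    (hc : HasCompactSupport u) : QQ w ν (fun x => χ x * u x) =
      ∫ x, (u x ^ 2 * ‖tg w χ x‖ ^ 2 - χ x * (χ x * u x) * stab w u x) ∂ν := by
  have hu1 : ContDiff ℝ 1 u := hu.of_le (by norm_num)
  have h1 : ContDiff ℝ 1 fun x => χ x * u x := hχ.mul hu1
  have hz : ∀ x, x ∉ tsupport u → u x = 0 := fun x hx => image_eq_zero_of_notMem_tsupport hx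
  have i1 : Integrable (fun x => u x ^ 2 * ‖tg w χ x‖ ^ 2) ν :=
    h.intg ((hu.continuous.pow 2).mul ((cont_tg h.sw hχ).norm.pow 2)) hc fun x hx => by
      simp [hz x hx]
  have i2 : Integrable (fun x => χ x * (χ x * u x) * stab w u x) ν :=
    h.intg ((hχ.continuous.mul h1.continuous).mul (h.cst hu)) hc fun x hx => by simp [hz x hx]
  have i3 : Integrable (fun x => ‖tg w (fun x => χ x * u x) x‖ ^ 2
      - (hessSq w x + 1 / 2) * (χ x * u x) ^ 2) ν :=
    h.intg (((cont_tg h.sw h1).norm.pow 2).sub (h.cq.mul (h1.continuous.pow 2))) hc fun x hx => by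
      rw [tg_mul (hχ.differentiable one_ne_zero x) (hu1.differentiable one_ne_zero x),
        tg_zero (fderiv_of_notMem_tsupport ℝ hx)]
      simp [hz x hx]
  rw [integral_sub i1 i2, h.ms.green _ u (hχ.mul h1) hc.mul_left.mul_left hu, eq_sub_iff_add_eq,
    ← eq_sub_iff_add_eq', QQ, ← integral_sub i1 i3]
  refine integral_congr_ae (Eventually.of_forall fun x => ?_)
  have d1 := hχ.differentiable one_ne_zero x
  have d2 := hu1.differentiable one_ne_zero x
  simp only []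
  rw [tg_mul d1 (h1.differentiable one_ne_zero x), tg_mul d1 d2, norm_add_sq_real]
  simp only [inner_add_left, real_inner_smul_left, real_inner_smul_right, norm_smul, mul_pow,
    Real.norm_eq_abs, sq_abs, real_inner_self_eq_norm_sq, real_inner_comm (tg w χ x)]
  ring

/-- approximate solutions, real and globally defined -/
structure Ap (S : Set (En n)) (w : En n → ℝ) (ν : Measure (En n)) (ψ : Fin k → En n → ℝ)
    (C : ℝ) (N : ℕ) (u : ℕ → En n → ℝ) (m : ℕ → Fin k → ℝ) (R : ℕ → ℝ) : Prop where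
  pos : 0 ≤ C
  top : Tendsto R atTop atTop
  sm : ∀ j, ContDiff ℝ 2 (u j)
  cs : ∀ j, HasCompactSupport (u j)
  bd : ∀ j, ∀ p ∈ S, ‖p‖ ≤ R j → ∀ i, ‖dd i (u j) p‖ ≤ C * (1 + ‖p‖) ^ N
  mb : ∀ j i, |m j i| ≤ C
  eqn : ∀ ρ ε : ℝ, 0 < ε → ∀ᶠ j in atTop, ∀ p ∈ S, ‖p‖ ≤ ρ →
    |stab w (u j) p - ∑ i, m j i * ψ i p| ≤ ε
  con : ∀ i, Tendsto (fun j => ∫ p, u j p * ψ i p ∂ν) atTop (𝓝 0)

variable {C : ℝ} {N : ℕ} {u : ℕ → En n → ℝ} {m : ℕ → Fin k → ℝ} {R : ℕ → ℝ}

theorem ex_rad {ι : Type} [Finite ι] {v : ι → En n → ℝ} (h : ∀ i, HasCompactSupport (v i)) :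
    ∃ r : ℝ, ∀ i x, r < ‖x‖ → x ∉ tsupport (v i) := by
  obtain ⟨r, hr⟩ := (isCompact_iUnion h).isBounded.exists_norm_le
  exact ⟨r, fun i x hx hx' => absurd (hr x (mem_iUnion.2 ⟨i, hx'⟩)) (not_le.2 hx)⟩

/-- the energy estimate -/
theorem energy (h : Dt S w ν) (hc : Coer w ν ψ) (ha : Ap S w ν ψ C N u m R) (r ε : ℝ)
    (hε : 0 < ε) : ∀ᶠ j in atTop, ∫ x in ball 0 r, u j x ^ 2 ∂ν ≤ ε := by
  obtain ⟨K, hK, hcut⟩ := ex_cut n
  obtain ⟨C', -, hco⟩ := hc.co
  obtain ⟨r₀, hr₀⟩ := ex_rad fun i => (hc.sm i).2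
  have hC := ha.pos
  set M := ∫ x, (1 + ‖x‖) ^ (2 * N) ∂ν with hM
  have t1 : Tendsto (fun ρ : ℝ => (C ^ 2 * (2 * (K / ρ)) ^ 2 + ρ⁻¹ * C) * M) atTop (𝓝 0) := by
    have t0 : Tendsto (fun ρ : ℝ => K / ρ) atTop (𝓝 0) := tendsto_const_nhds.div_atTop tendsto_id
    simpa using ((((t0.const_mul 2).pow 2).const_mul (C ^ 2)).add
      (tendsto_inv_atTop_zero.mul_const C)).mul_const M
  obtain ⟨ρ, ⟨e1, e2⟩, e3, e4⟩ := (((t1.eventually (gt_mem_nhds (half_pos hε))).and
    (eventually_gt_atTop 0)).and ((eventually_ge_atTop r).and (eventually_ge_atTop r₀))).exists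
  obtain ⟨χ, c1, c2, c3, c4, c5⟩ := hcut ρ e2
  have cψ : ∀ i x, χ x * ψ i x = ψ i x := fun i x => by
    rcases le_or_gt ‖x‖ ρ with hx | hx
    · rw [c2 x hx, one_mul]
    · rw [image_eq_zero_of_notMem_tsupport (hr₀ i x (e4.trans_lt hx)), mul_zero]
  have t2 : Tendsto (fun j => C' * ∑ i, (∫ p, u j p * ψ i p ∂ν) ^ 2
      + ∑ i, C * |∫ p, u j p * ψ i p ∂ν|) atTop (𝓝 0) := by
    simpa using ((tendsto_finsetSum Finset.univ fun i _ => (ha.con i).pow 2).const_mul C').add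
      (tendsto_finsetSum Finset.univ fun i _ => (ha.con i).abs.const_mul C)
  filter_upwards [t2.eventually (gt_mem_nhds (half_pos hε)), ha.eqn (2 * ρ) ρ⁻¹ (inv_pos.2 e2),
    ha.top.eventually (eventually_ge_atTop (2 * ρ))] with j f1 f2 f3
  have hu := ha.sm j
  have hu1 : ContDiff ℝ 1 (u j) := hu.of_le (by norm_num)
  have hz : ∀ x, x ∉ tsupport (u j) → u j x = 0 := fun x hx => image_eq_zero_of_notMem_tsupport hx
  have h1 : ContDiff ℝ 1 fun x => χ x * u j x := c1.mul hu1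
  have g1 := hco _ h1 (ha.cs j).mul_left
  have g2 : ∀ i, ∫ x, χ x * u j x * ψ i x ∂ν = ∫ x, u j x * ψ i x ∂ν := fun i =>
    integral_congr_ae (Eventually.of_forall fun x => by
      simp only []
      rw [mul_right_comm, cψ, mul_comm])
  simp only [g2] at g1
  have i1 : Integrable (fun x => u j x ^ 2 * ‖tg w χ x‖ ^ 2
      - χ x * (χ x * u j x) * stab w (u j) x) ν :=
    h.intg (((hu.continuous.pow 2).mul ((cont_tg h.sw c1).norm.pow 2)).sub
      ((c1.continuous.mul h1.continuous).mul (h.cst hu))) (ha.cs j) fun x hx => by simp [hz x hx]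
  have i2 : ∀ i, Integrable (fun x => m j i * (u j x * ψ i x)) ν := fun i =>
    (h.intg (hu.continuous.mul (hc.sm i).1.continuous) (ha.cs j)
      fun x hx => by simp [hz x hx]).const_mul _
  have g3 : QQ w ν (fun x => χ x * u j x) + ∑ i, m j i * ∫ x, u j x * ψ i x ∂ν
      ≤ (C ^ 2 * (2 * (K / ρ)) ^ 2 + ρ⁻¹ * C) * M := by
    simp only [← integral_const_mul]
    rw [h.qq c1 hu (ha.cs j), ← integral_finsetSum _ fun i _ => i2 i,
      ← integral_add i1 (integrable_finsetSum _ fun i _ => i2 i), hM, ← integral_const_mul]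
    refine integral_mono_ae (i1.add (integrable_finsetSum _ fun i _ => i2 i))
      ((h.ms.mom _).const_mul _) (h.ae.mono fun x hx => ?_)
    have p1 : 1 ≤ (1 + ‖x‖) ^ N := one_le_pow₀ (le_add_of_nonneg_right (norm_nonneg x))
    have e : ∑ i, m j i * (u j x * ψ i x) = χ x * (χ x * u j x) * ∑ i, m j i * ψ i x := by
      rw [Finset.mul_sum]
      refine Finset.sum_congr rfl fun i _ => ?_
      conv_lhs => rw [← cψ i x, ← cψ i x]
      ring
    simp only []
    rw [e, pow_mul', add_mul]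
    rcases le_or_gt ‖x‖ (2 * ρ) with hx' | hx'
    · have q1 : |u j x| ≤ C * (1 + ‖x‖) ^ N := ha.bd j x hx (hx'.trans f3) none
      have q2 : ‖tg w χ x‖ ≤ 2 * (K / ρ) := (tg_le (h.one x hx)).trans (by linarith [c5 x])
      have q3 : u j x ^ 2 * ‖tg w χ x‖ ^ 2 ≤ (C * (1 + ‖x‖) ^ N) ^ 2 * (2 * (K / ρ)) ^ 2 :=
        mul_le_mul (by rw [← sq_abs]; exact pow_le_pow_left₀ (abs_nonneg _) q1 2)
          (pow_le_pow_left₀ (norm_nonneg _) q2 2) (sq_nonneg _) (sq_nonneg _)
      have q4 : |χ x * (χ x * u j x) * (stab w (u j) x - ∑ i, m j i * ψ i x)|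
          ≤ 1 * (1 * (C * (1 + ‖x‖) ^ N)) * ρ⁻¹ := by
        rw [abs_mul, abs_mul, abs_mul]
        gcongr
        exacts [c4 x, c4 x, f2 x hx hx']
      have q5 : ρ⁻¹ * C * (1 + ‖x‖) ^ N ≤ ρ⁻¹ * C * ((1 + ‖x‖) ^ N) ^ 2 :=
        mul_le_mul_of_nonneg_left (by nlinarith) (by positivity)
      have q6 := neg_abs_le (χ x * (χ x * u j x) * (stab w (u j) x - ∑ i, m j i * ψ i x))
      rw [mul_pow] at q3
      linarith
    · have q1 : χ =ᶠ[𝓝 x] fun _ => 0 := mem_of_superset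
        ((isOpen_lt continuous_const continuous_norm).mem_nhds hx') fun y hy => c3 y (le_of_lt hy)
      rw [tg_zero (q1.fderiv_eq.trans (fderiv_const_apply _)), c3 x hx'.le]
      simp only [norm_zero, zero_mul, ne_eq, OfNat.ofNat_ne_zero, not_false_eq_true, zero_pow,
        mul_zero, sub_zero, add_zero]
      positivity
  have g4 : -∑ i, m j i * ∫ x, u j x * ψ i x ∂ν ≤ ∑ i, C * |∫ p, u j p * ψ i p ∂ν| := by
    rw [← Finset.sum_neg_distrib]
    refine Finset.sum_le_sum fun i _ => (neg_le_abs _).trans ?_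
    rw [abs_mul]
    exact mul_le_mul_of_nonneg_right (ha.mb j i) (abs_nonneg _)
  have g5 : ∫ x in ball 0 r, u j x ^ 2 ∂ν ≤ ∫ x, (χ x * u j x) ^ 2 ∂ν := by
    rw [← setIntegral_congr_fun (f := fun x => (χ x * u j x) ^ 2) measurableSet_ball
      fun x hx => by simp only [c2 x ((mem_ball_zero_iff.1 hx).le.trans e3), one_mul]]
    exact setIntegral_le_integral (h.intg (h1.continuous.pow 2) (ha.cs j) fun x hx => by
      simp [hz x hx]) (Eventually.of_forall fun x => sq_nonneg _)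
  linarith

variable {pr nu : En n → En n} {ta : En n → ℝ} {de : ℝ}

/-- uniform smallness near a point -/
theorem near (h : Dt S w ν) (ht : Tube S pr nu ta de) (hc : Coer w ν ψ)
    (ha : Ap S w ν ψ C N u m R) {ε : ℝ} (hε : 0 < ε) {q : En n} (hq : q ∈ S) :
    ∃ s, 0 < s ∧ ∀ᶠ j in atTop, ∀ p ∈ S, p ∈ ball q s → |u j p| ≤ ε := by
  have hC := ha.pos
  have hp1 : ContDiff ℝ 1 pr := ht.spr.of_le (by simp)
  have n1 : ∀ᶠ x in 𝓝 q, |ta x| < de := ht.sta.continuous.abs.continuousAt.eventually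
    (gt_mem_nhds (by simpa [(ht.mem q).1 hq] using ht.pos))
  have n2 : ∀ᶠ x in 𝓝 q, ‖pr x‖ < ‖q‖ + 1 := ht.spr.continuous.norm.continuousAt.eventually
    (gt_mem_nhds (by simp [ht.pr_self hq]))
  have n3 : ∀ᶠ x in 𝓝 q, ‖fderiv ℝ pr x‖ < ‖fderiv ℝ pr q‖ + 1 :=
    (hp1.continuous_fderiv one_ne_zero).norm.continuousAt.eventually (gt_mem_nhds (by simp))
  obtain ⟨s₀, hs₀, hb⟩ := Metric.eventually_nhds_iff_ball.1 (n1.and (n2.and n3))
  obtain ⟨L, hL⟩ : ∃ L : ℝ, L = n * (C * (1 + (‖q‖ + 1)) ^ N) * (‖fderiv ℝ pr q‖ + 1) := ⟨_, rfl⟩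
  have hL0 : 0 ≤ L := by rw [hL]; positivity
  obtain ⟨s, hs, hs1, hs2⟩ : ∃ s : ℝ, 0 < s ∧ s ≤ s₀ ∧ L * (s + s) ≤ ε / 2 := by
    refine ⟨min s₀ (ε / (4 * (L + 1))), lt_min hs₀ (by positivity), min_le_left _ _, ?_⟩
    have e1 := min_le_right s₀ (ε / (4 * (L + 1)))
    have e2 : 0 < min s₀ (ε / (4 * (L + 1))) := lt_min hs₀ (by positivity)
    rw [le_div_iff₀ (by positivity)] at e1
    nlinarith
  have := h.ms.fin
  have hfin : ν (ball q s) ≠ ⊤ := measure_ball_lt_top.ne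
  have hν : 0 < ν.real (ball q s) := ENNReal.toReal_pos (h.ms.pos q hq s hs).ne' hfin
  refine ⟨s, hs, ?_⟩
  filter_upwards [energy h hc ha (s + ‖q‖) (ν.real (ball q s) * (ε / 2) ^ 2 / 2) (by positivity),
    ha.top.eventually (eventually_ge_atTop (‖q‖ + 1))] with j f1 f2 p hp hpq
  have hu := ha.sm j
  have d1 : Differentiable ℝ (u j) := hu.differentiable two_ne_zero
  have d2 : Differentiable ℝ pr := hp1.differentiable one_ne_zero
  have lip : ∀ x ∈ S, x ∈ ball q s → ‖u j p - u j x‖ ≤ ε / 2 := fun x hx hxq => by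
    have l1 := (convex_ball q s).norm_image_sub_le_of_norm_fderiv_le (𝕜 := ℝ) (f := u j ∘ pr)
      (C := L) (fun y _ => (d1.comp d2) y) (fun y hy => by
        obtain ⟨y1, y2, y3⟩ := hb y (ball_subset_ball hs1 hy)
        rw [fderiv_comp y (d1 _) (d2 y), hL]
        refine (ContinuousLinearMap.opNorm_comp_le _ _).trans
          (mul_le_mul (clm_le _ (by positivity) fun i => ?_) y3.le (norm_nonneg _) (by positivity))
        refine (ha.bd j _ (ht.foot y y1).1 (y2.le.trans f2) (some i)).trans ?_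
        gcongr) hxq hpq
    simp only [Function.comp, ht.pr_self hx, ht.pr_self hp] at l1
    refine l1.trans (le_trans (mul_le_mul_of_nonneg_left ?_ hL0) hs2)
    rw [← dist_eq_norm]
    linarith [dist_triangle_right p x q, mem_ball.1 hpq, mem_ball.1 hxq]
  by_contra hlt
  have i1 : Integrable (fun x => u j x ^ 2) ν := h.intg (hu.continuous.pow 2) (ha.cs j)
    fun x hx => by simp [image_eq_zero_of_notMem_tsupport hx]
  have g1 : ∫ x in ball q s, u j x ^ 2 ∂ν ≤ ∫ x in ball 0 (s + ‖q‖), u j x ^ 2 ∂ν :=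
    setIntegral_mono_set i1.integrableOn (Eventually.of_forall fun x => sq_nonneg _)
      (LE.le.eventuallyLE (ball_subset_ball' (by simp)))
  have g2 : ∫ _ in ball q s, (ε / 2) ^ 2 ∂ν ≤ ∫ x in ball q s, u j x ^ 2 ∂ν := by
    refine setIntegral_mono_on_ae (integrableOn_const hfin) i1.integrableOn measurableSet_ball
      (h.ae.mono fun x hx hxq => ?_)
    have l1 := lip x hx hxq
    have l2 := abs_sub_abs_le_abs_sub (u j p) (u j x)
    rw [← sq_abs (u j x)]
    rw [Real.norm_eq_abs] at l1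
    exact pow_le_pow_left₀ (by positivity) (by linarith [not_le.1 hlt]) 2
  rw [setIntegral_const, smul_eq_mul] at g2
  have g3 : 0 < ν.real (ball q s) * (ε / 2) ^ 2 := by positivity
  linarith

/-- locally uniform convergence -/
theorem unif (h : Dt S w ν) (ht : Tube S pr nu ta de) (hc : Coer w ν ψ)
    (ha : Ap S w ν ψ C N u m R) (ρ ε : ℝ) (hε : 0 < ε) :
    ∀ᶠ j in atTop, ∀ p ∈ S, ‖p‖ ≤ ρ → |u j p| ≤ ε := by
  have hK : IsCompact (S ∩ closedBall 0 ρ) := (isCompact_closedBall _ _).inter_left ht.closed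
  choose! s hs hev using fun q hq => near h ht hc ha hε (q := q) hq
  obtain ⟨t, t1, t2⟩ := hK.elim_nhds_subcover (fun q => ball q (s q))
    fun q hq => ball_mem_nhds q (hs q hq.1)
  filter_upwards [(eventually_all_finset t).2 fun q hq => hev q (t1 q hq).1] with j hj p hp hρ
  obtain ⟨q, hq, hpq⟩ := mem_iUnion₂.1 (t2 ⟨hp, mem_closedBall_zero_iff.2 hρ⟩)
  exact hj q hq p hp hpq

theorem small (h : Dt S w ν) {F : ℕ → En n → ℝ} (hg : Integrable g ν) {r : ℝ}
    (h0 : ∀ x, r < ‖x‖ → g x = 0)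
    (hF : ∀ ε : ℝ, 0 < ε → ∀ᶠ j in atTop, ∀ p ∈ S, ‖p‖ ≤ r → |F j p| ≤ ε) :
    Tendsto (fun j => ∫ x, F j x * g x ∂ν) atTop (𝓝 0) := by
  have t1 : Tendsto (fun ε : ℝ => ε * ∫ x, |g x| ∂ν) (𝓝[>] 0) (𝓝 0) := by
    simpa using (tendsto_id.mul_const (∫ x, |g x| ∂ν) (x := 𝓝 (0 : ℝ))).mono_left
      nhdsWithin_le_nhds
  refine Metric.tendsto_nhds.2 fun ε hε => ?_
  obtain ⟨η, e1, e2⟩ := ((t1.eventually (gt_mem_nhds hε)).and self_mem_nhdsWithin).exists
  filter_upwards [hF η e2] with j hj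
  rw [dist_zero_right]
  refine lt_of_le_of_lt ?_ e1
  rw [← integral_const_mul]
  refine norm_integral_le_of_norm_le (hg.abs.const_mul _) (h.ae.mono fun x hx => ?_)
  rw [Real.norm_eq_abs, abs_mul]
  rcases le_or_gt ‖x‖ r with e | e
  · exact mul_le_mul_of_nonneg_right (hj x hx e) (abs_nonneg _)
  · simp [h0 x e]

/-- the multipliers tend to zero -/
theorem mult (h : Dt S w ν) (ht : Tube S pr nu ta de) (hc : Coer w ν ψ)
    (ha : Ap S w ν ψ C N u m R) (i : Fin k) : Tendsto (fun j => m j i) atTop (𝓝 0) := by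
  obtain ⟨v, hv, hd⟩ := hc.dual
  obtain ⟨r, hr⟩ := ex_rad fun i => (hv i).2.1
  have v2 : ContDiff ℝ 2 (v i) := contDiff_infty.1 (hv i).1 2
  have vc := (hv i).2.1
  have hz : ∀ x, x ∉ tsupport (v i) → v i x = 0 := fun x hx => image_eq_zero_of_notMem_tsupport hx
  have t1 := small h (h.intg (h.cst v2) vc fun x hx => h.stab_zero v2 hx)
    (fun x hx => h.stab_zero v2 (hr i x hx)) (unif h ht hc ha r)
  have t2 := small h (h.intg v2.continuous vc hz) (fun x hx => hz x (hr i x hx)) (ha.eqn r)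
  have t3 := t1.sub t2
  rw [sub_zero] at t3
  refine t3.congr fun j => ?_
  have i1 : Integrable (fun x => v i x * stab w (u j) x) ν :=
    h.intg (v2.continuous.mul (h.cst (ha.sm j))) vc fun x hx => by simp [hz x hx]
  have i2 : ∀ l, Integrable (fun x => m j l * (v i x * ψ l x)) ν := fun l =>
    (h.intg (v2.continuous.mul (hc.sm l).1.continuous) vc fun x hx => by simp [hz x hx]).const_mul _
  have e : ∀ x, (stab w (u j) x - ∑ l, m j l * ψ l x) * v i x
      = v i x * stab w (u j) x - ∑ l, m j l * (v i x * ψ l x) := fun x => by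
    rw [sub_mul, Finset.sum_mul, mul_comm]
    congr 1
    exact Finset.sum_congr rfl fun l _ => by ring
  simp only [e]
  rw [h.symm (ha.sm j) (ha.cs j) v2 vc, integral_sub i1 (integrable_finsetSum _ fun l _ => i2 l),
    integral_finsetSum _ fun l _ => i2 l]
  simp [integral_const_mul, hd]

end Nq

open Nq in
theorem nqs (geos : GEOS) : NQS := by
  intro n k S w δ C₀ ν ψ hS hw hms hc C N W l R hR h1 h2 h3 h4
  obtain ⟨ht, he, hop, -⟩ := geos n S w δ C₀ hS hw
  have h : Dt S w ν := ⟨hms, hw.of_le (by simp), fun p hp => hS.norm_grad p (by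
    simpa [(hS.mem_iff p).1 hp] using hS.pos), he.sm, hop⟩
  have hC : 0 ≤ C := (norm_nonneg _).trans (h2 0)
  choose G G1 G2 G3 using fun j => glob (g := W j) (K := S ∩ closedBall 0 (R j - 1))
    ((isCompact_closedBall _ _).inter_left ht.closed) fun p hp =>
      (h1 j p hp.1 (by linarith [mem_closedBall_zero_iff.1 hp.2])).1
  have G4 : ∀ j, ∀ p ∈ S, ‖p‖ ≤ R j - 1 → G j =ᶠ[𝓝 p] W j := fun j p hp hp' =>
    G3 j p ⟨hp, mem_closedBall_zero_iff.2 hp'⟩
  have hR' : Tendsto (fun j => R j - 1) atTop atTop := tendsto_atTop_add_const_right _ (-1) hR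
  obtain ⟨r, hr⟩ := ex_rad fun i => (hc.sm i).2
  have key : ∀ L : ℂ →L[ℝ] ℝ, (∀ z, |L z| ≤ ‖z‖) →
      Ap S w ν ψ C N (fun j x => L (G j x)) (fun j i => L (l j i)) fun j => R j - 1 := by
    intro L hL
    have hm : ∀ (z : ℂ) (t : ℝ), L (z * t) = L z * t := fun z t => by
      rw [mul_comm, ← Complex.real_smul, map_smul, smul_eq_mul, mul_comm]
    refine ⟨hC, hR', fun j => L.contDiff.comp (G1 j),
      fun j => (G2 j).comp_left (g := L) (map_zero L), fun j p hp hp' i => ?_,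
      fun j i => (hL _).trans ((norm_le_pi_norm (l j) i).trans (h2 j)), fun ρ ε hε => ?_,
      fun i => ?_⟩
    · rw [dd_clm L ((G1 j).differentiable two_ne_zero p), (dd_ev (G4 j p hp hp') i).eq_of_nhds]
      exact (hL _).trans ((h1 j p hp (by linarith)).2 i)
    · filter_upwards [h3 ρ ε hε, hR'.eventually (eventually_ge_atTop ρ)] with j f1 f2 p hp hp'
      refine le_trans (le_of_eq ?_) ((hL _).trans (f1 p hp hp'))
      rw [← hop (fun x => L (G j x)) p (L.contDiff.comp (G1 j)).contDiffAt, map_sub, map_sum,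
        ← op_congr (G4 j p hp (hp'.trans f2)), ← op_clm L (G1 j).contDiffAt]
      simp only [hm]
    · have t1 := (L.continuous.tendsto 0).comp (h4 i)
      rw [map_zero] at t1
      refine t1.congr' ?_
      filter_upwards [hR'.eventually (eventually_ge_atTop r)] with j f1
      have i1 : Integrable (fun p => G j p * ψ i p) ν :=
        h.intg ((G1 j).continuous.mul (Complex.continuous_ofReal.comp (hc.sm i).1.continuous))
          (hc.sm i).2 fun x hx => by simp [image_eq_zero_of_notMem_tsupport hx]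
      have e : ∫ p, W j p * ψ i p ∂ν = ∫ p, G j p * ψ i p ∂ν :=
        integral_congr_ae (h.ae.mono fun x hx => by
          rcases le_or_gt ‖x‖ r with e | e
          · simp only [(G4 j x hx (e.trans f1)).eq_of_nhds]
          · simp [image_eq_zero_of_notMem_tsupport (hr i x e)])
      simp only [Function.comp, e, ← L.integral_comp_comm i1, hm]
  have k1 := key Complex.reCLM Complex.abs_re_le_norm
  have k2 := key Complex.imCLM Complex.abs_im_le_norm
  refine ⟨tendsto_pi_nhds.2 fun i => ?_, fun ρ ε hε => ?_⟩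
  · refine tendsto_zero_iff_norm_tendsto_zero.2 (squeeze_zero (fun _ => norm_nonneg _)
      (fun j => Complex.norm_le_abs_re_add_abs_im (l j i)) ?_)
    simpa using (mult h ht hc k1 i).abs.add (mult h ht hc k2 i).abs
  · filter_upwards [unif h ht hc k1 ρ _ (half_pos hε), unif h ht hc k2 ρ _ (half_pos hε),
      hR'.eventually (eventually_ge_atTop ρ)] with j f1 f2 f3 p hp hp'
    rw [← (G4 j p hp (hp'.trans f3)).eq_of_nhds]
    have g1 : |(G j p).re| ≤ ε / 2 := f1 p hp hp'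
    have g2 : |(G j p).im| ≤ ε / 2 := f2 p hp hp'
    linarith [Complex.norm_le_abs_re_add_abs_im (G j p)]

end Vale.Agent.P218H
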