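import Vale.Agent.P218H.Defs
import Mathlib.Analysis.Normed.Operator.Compact.Basic

/-!
# P218, blocks HSP and LIN: the statements of the rows
-/

open scoped NNReal Topology ContDiff
open Filter Set Metric MeasureTheory

noncomputable section

namespace Vale.Agent.P218H

/-- completeness -/
def CMP : Prop := ∀ (n : ℕ) (α : ℝ), IsClosed (C1a n α : Set (J1 n → HH α (En n))) ∧
  IsClosed (C2a n α : Set (J1 n → J1 n → HH α (En n)))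

/-- Arzelà-Ascoli -/
def AA : Prop := ∀ (X : Type) [NormedAddCommGroup X] [NormedSpace ℂ X] (α β C : ℝ),
  0 ≤ β → β < α →
  (∀ (Y : Type) [MetricSpace Y] (K : Set Y), IsCompact K → ∀ T : X →L[ℂ] HH β Y,
    (∀ x y, y ∉ K → T x y = 0) → (∀ x, HM α (T x) (C * ‖x‖) (C * ‖x‖)) → IsCompactOperator T) ∧
  ∀ (n : ℕ) (R : ℝ) (T : X →L[ℂ] C1a n β), (∀ x y, R ≤ ‖y‖ → f1 (T x) y = 0) →
    (∀ x, B1 α (f1 (T x)) (C * ‖x‖)) → IsCompactOperator T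

/-- the commutator is an operator of first order -/
def CMF : Prop := ∀ (n : ℕ) (a : J1 n → J1 n → En n → ℝ) (χ : En n → ℝ),
  (∀ i j, ContDiff ℝ ∞ (a i j)) → ContDiff ℝ ∞ χ → ∃ e : J1 n → En n → ℝ,
    (∀ i, ContDiff ℝ ∞ (e i)) ∧ (∀ i x, (∀ᶠ y in 𝓝 x, χ y = χ x) → e i x = 0) ∧
    ∀ (f : En n → ℂ) x, ContDiffAt ℝ 2 f x → cm a χ f x = ∑ i, e i x • dd i f x

/-- products with smooth functions of compact support, interpolation -/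
def MUL : Prop := ∀ (n : ℕ) (γ : ℝ), 0 ≤ γ → γ ≤ 1 →
  (∀ (χ : En n → ℝ) (R : ℝ), ContDiff ℝ ∞ χ → (∀ x, R ≤ ‖x‖ → χ x = 0) → ∃ C : ℝ, 0 ≤ C ∧
    ∀ (f : En n → ℂ) (A B : ℝ), 0 ≤ B → (HM γ f A B → HM γ (fun x => χ x • f x) (C * A) (C * (A + B))) ∧
      (B1 γ f A → B1 γ (fun x => χ x • f x) (C * A)) ∧
      (B2 γ f A → B2 γ (fun x => χ x • f x) (C * A))) ∧
  (∃ C : ℝ, 0 ≤ C ∧ ∀ (f : En n → ℂ) (A L : ℝ), Differentiable ℝ f → 0 ≤ L →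
    (∀ i x, ‖dd (some i) f x‖ ≤ L) → ∀ lam, 0 < lam → ∀ x y, ‖f x‖ ≤ A → ‖f y‖ ≤ A →
      ‖f x - f y‖ ≤ (2 * lam ^ (-γ) * A + C * lam ^ (1 - γ) * L) * dist x y ^ γ) ∧
  ∃ C : ℝ, 0 ≤ C ∧ ∀ (f : En n → ℂ) (A L : ℝ), ContDiff ℝ 2 f → (∀ x, ‖f x‖ ≤ A) →
    (∀ i j x, ‖dd (some i) (dd (some j) f) x‖ ≤ L) → ∀ lam, 0 < lam → ∀ i x,
      ‖dd (some i) f x‖ ≤ 2 * A / lam + C * lam * L

/-- the average -/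
def AVG : Prop := ∀ (n k : ℕ) (M : Type) (c : Core n k M), c.Ok0 → ∀ η : ℝ → ℝ, Continuous η →
  (∀ t, c.de / 4 ≤ |t| → η t = 0) →
  (∀ v : En n → ℂ, ContDiff ℝ 2 v → ContDiff ℝ 2 (avg η c.pr c.nu v)) ∧
  ∀ γ : ℝ, 0 ≤ γ → γ ≤ 1 → ∃ C : ℝ, 0 ≤ C ∧ ∀ (v : En n → ℂ) (A B : ℝ), 0 ≤ B →
    (Continuous v → HM γ v A B → HM γ (c.wf η v) (C * A) (C * (A + B))) ∧
    (ContDiff ℝ 2 v → (∀ i x, ‖dd i v x‖ ≤ A) → ∀ i x, ‖dd i (c.wf η v) x‖ ≤ C * A) ∧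
    (B2 γ v A → B2 γ (c.wf η v) (C * A))

/-- the extension -/
def EXT : Prop := ∀ (n k : ℕ) (M : Type) (c : Core n k M), c.Ok0 →
  (∃ R, ∀ f x, R ≤ ‖x‖ → c.ext f x = 0) ∧
  (∀ f, ∀ p ∈ c.S, ‖p‖ ≤ c.r + 5 → avg c.et c.pr c.nu (c.ext f) p = f p) ∧
  (∀ f g, (∀ p ∈ c.K, f p = g p) → c.ext f = c.ext g) ∧
  ∀ γ : ℝ, 0 ≤ γ → γ ≤ 1 → ∃ C : ℝ, 0 ≤ C ∧ ∀ (f : En n → ℂ) (A B : ℝ), 0 ≤ A → 0 ≤ B →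
    HM γ (fun p : c.K => f p) A B → HM γ (c.ext f) A (C * (A + B))

/-- the extension of the end functions -/
def LOC : Prop := ∀ (n k : ℕ) (M : Type) (c : Core n k M), c.Ok0 → ∃ C : ℝ, 0 ≤ C ∧
  ∀ f : En n → ℂ, (∀ q ∈ c.S, c.r₀ - 1 ≤ ‖q‖ → ‖q‖ ≤ c.r + 7 → ContDiffAt ℝ 2 f q) →
    ContDiff ℝ 2 (c.lo f) ∧
    (∀ p ∈ c.S, c.r₀ ≤ ‖p‖ → ‖p‖ ≤ c.r + 6 → c.lo f p = f p) ∧
    (∀ p ∈ c.K, cm c.a c.ce f p = cm c.a c.ce (c.lo f) p) ∧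
    (∀ A, 0 ≤ A → (∀ q ∈ c.S, c.r₀ - 1 ≤ ‖q‖ → ‖q‖ ≤ c.r + 7 → ‖f q‖ ≤ A) →
      ∀ x, ‖c.lo f x‖ ≤ A) ∧
    ∀ A, 0 ≤ A → (∀ q ∈ c.S, c.r₀ - 1 ≤ ‖q‖ → ‖q‖ ≤ c.r + 7 → ∀ i j, ‖dd i (dd j f) q‖ ≤ A) →
      B2 0 (c.lo f) (C * A)

/-- the ambient operator -/
def AMB : Prop := ∀ (n k : ℕ) (M : Type) (c : Core n k M), c.Ok0 → ∃ b, c.AmbOf b

/-- the resolvent on the whole space -/
def RES : Prop := ∀ (n : ℕ) (b : J1 n → J1 n → En n → ℝ) (α : ℝ), Amb b → 0 < α → α < 1 →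
  ∃ C s₀ : ℝ, 0 ≤ C ∧ 1 ≤ s₀ ∧ ∀ s, s₀ ≤ s →
    (∀ (f : En n → ℂ) (A B : ℝ), 0 ≤ B → HM α f A B → ∃ v : En n → ℂ, ContDiff ℝ 2 v ∧
      RB α s (C * (s ^ (α / 2) * A + B)) v ∧ ∀ x, s • v x - op b v x = f x) ∧
    ∀ v : En n → ℂ, ContDiff ℝ 2 v → (∃ A, ∀ x, ‖v x‖ ≤ A) → (∀ x, s • v x - op b v x = 0) →
      v = 0

/-- the maximum principle on the strip between the inner boundary and the sphere of radius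
`r + 5` -/
def MP : Prop := ∀ (n k : ℕ) (M : Type) (c : Core n k M), c.Ok0 → ∃ C : ℝ, 0 ≤ C ∧
  ∀ Λ : ℝ, 1 ≤ Λ → ∃ s₀ : ℝ, ∀ s, s₀ ≤ s → ∀ (d : En n → ℂ) (G H : ℝ), 0 ≤ G → 0 ≤ H →
    ContinuousOn d (c.Se ∩ closedBall 0 (c.r + 5)) →
    (∀ p ∈ c.Se \ c.B, ‖p‖ < c.r + 5 → ContDiffAt ℝ 2 d p ∧
      ‖op c.a d p - (s * c.ka p) • d p‖ ≤ G) →
    (∀ p ∈ c.B, ‖d p‖ ≤ G) → (∀ p ∈ c.Se, ‖p‖ = c.r + 5 → ‖d p‖ ≤ H) →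
    ∀ p ∈ c.Se, ‖p‖ ≤ c.r + 4 → ‖d p‖ ≤ C * (G + H / Λ)

/-- the equations on the surface which follow from the system -/
def SND : Prop := ∀ (n k : ℕ) (M : Type) [Fintype M] (c : Core n k M), c.Ok0 →
  ∀ (α β s C δ R : ℝ), 0 < α → c.r + 8 ≤ R → ∀ b, c.AmbOf b → ∀ (D : EndD n M β), D.Ok c C δ R →
    ∀ (cC : C2a n α →L[ℂ] C1a n β) (TT : D.XX α k →L[ℂ] D.YY α k), D.Sys c b s cC TT →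
    ∀ x : D.XX α k,
      (∀ p ∈ c.S, ‖p‖ ≤ c.r + 5 → op c.a (c.wf c.et (f2 x.1)) p
        - (s * c.ka p) • c.wf c.et (f2 x.1) p + cm c.a c.ce (D.ev x.2.1) p
        + ∑ i, x.2.2.1 i * c.b i p - ∑ i, x.2.2.2 i * c.ψ i p
          = - avg c.et c.pr c.nu (TT x).1 p) ∧
      (∀ p ∈ c.S, ‖p‖ < R → ContDiffAt ℝ 2 (D.uu c x) p ∧
        op c.a (D.uu c x) p + ∑ i, x.2.2.1 i * c.b i p - ∑ i, x.2.2.2 i * c.ψ i p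
          = - c.cc p • avg c.et c.pr c.nu (TT x).1 p + c.ce p • (D.ev' (TT x).2.1 p
            - (D.ev' (D.T x.2.1) p - op c.a (D.ev x.2.1) p))) ∧
      ∀ i, (TT x).2.2.2 i = ∫ p, D.uu c x p * c.ψ i p ∂c.ν

/-- the part of the a priori estimate which comes from the resolvent -/
def APR1 : Prop := ∀ (n k : ℕ) (M : Type) [Fintype M] (c : Core n k M), c.Ok0 →
  ∀ (α β C : ℝ), 0 < β → β < α → α < 1 → ∀ b, c.AmbOf b → ∃ C₁ s₀ : ℝ, 0 ≤ C₁ ∧ ∀ s, s₀ ≤ s →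
    ∃ C₂ : ℝ, 0 ≤ C₂ ∧ ∀ (δ R : ℝ), c.r + 8 ≤ R → ∀ (D : EndD n M β), D.Ok c C δ R →
    ∀ (cC : C2a n α →L[ℂ] C1a n β) (TT : D.XX α k →L[ℂ] D.YY α k), D.Sys c b s cC TT →
    ∀ (x : D.XX α k) (U : ℝ), 0 ≤ U →
      (∀ p ∈ c.S, ‖p‖ ≤ c.r + 4 → ‖c.wf c.et (f2 x.1) p‖ ≤ U) →
      (∀ p ∈ c.S, c.r₀ - 1 ≤ ‖p‖ → ‖p‖ ≤ c.r + 7 → ‖D.ev x.2.1 p‖ ≤ U) →
      (∀ y, ‖c.wf c.et (f2 x.1) y‖ ≤ C₁ * U + C₂ * (‖TT x‖ + ‖x.2.2.1‖ + ‖x.2.2.2‖)) ∧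
        ‖x‖ ≤ C₂ * (U + ‖TT x‖ + ‖x.2.2.1‖ + ‖x.2.2.2‖)

/-- the a priori estimate modulo compact terms -/
def APR : Prop := ∀ (n k : ℕ) (M : Type) [Fintype M] (c : Core n k M), c.Ok0 →
  ∀ (α β C : ℝ), 0 < β → β < α → α < 1 → ∀ b, c.AmbOf b → ∃ s₀ : ℝ, ∀ s, s₀ ≤ s →
    ∃ C₂ : ℝ, 0 ≤ C₂ ∧ ∀ (δ R : ℝ), 0 ≤ δ → c.r + 8 ≤ R → ∀ (D : EndD n M β), D.Ok c C δ R →
    ∀ (cC : C2a n α →L[ℂ] C1a n β) (TT : D.XX α k →L[ℂ] D.YY α k), D.Sys c b s cC TT →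
    ∀ (x : D.XX α k) (U : ℝ), 0 ≤ U → (∀ p ∈ c.S, ‖p‖ ≤ c.r + 7 → ‖D.uu c x p‖ ≤ U) →
      ‖x‖ ≤ C₂ * (U + ‖TT x‖ + ‖x.2.2.1‖ + ‖x.2.2.2‖ + δ * ‖x‖)

/-- the uniform a priori estimate -/
def CON : Prop := ∀ (n k : ℕ) (M : Type) [Fintype M] (c : Core n k M), c.Ok →
  ∀ (α β C : ℝ), 0 < β → β < α → α < 1 → ∀ b, c.AmbOf b → ∃ s₀ : ℝ, ∀ s, s₀ ≤ s →
    ∃ C' δ R₀ : ℝ, 0 < δ ∧ c.r + 8 ≤ R₀ ∧ ∀ R, R₀ ≤ R → ∀ (D : EndD n M β), D.Ok c C δ R →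
    ∀ (cC : C2a n α →L[ℂ] C1a n β) (TT : D.XX α k →L[ℂ] D.YY α k), D.Sys c b s cC TT →
    ∀ x : D.XX α k, ‖x‖ ≤ C' * ‖TT x‖

/-- existence of the system, and the Fredholm alternative -/
def SYS : Prop := ∀ (n k : ℕ) (M : Type) [Fintype M] (c : Core n k M), c.Ok0 →
  ∀ (α β : ℝ), 0 < β → β < α → α < 1 → ∀ b, c.AmbOf b → ∃ s₀ : ℝ, ∀ s, s₀ ≤ s →
    ∃ cC : C2a n α →L[ℂ] C1a n β, ∀ (C δ R : ℝ), c.r + 8 ≤ R → ∀ (D : EndD n M β),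
      D.Ok c C δ R → ∃ TT : D.XX α k →L[ℂ] D.YY α k, D.Sys c b s cC TT ∧
        (Function.Injective TT → Function.Surjective TT)

/-- the operators used by the nonlinear theory -/
def KIT : Prop := ∀ (n k : ℕ) (M : Type) [Fintype M] (c : Core n k M), c.Ok0 →
  ∀ α : ℝ, 0 < α → α ≤ 1 →
    (∃ Wm : C2a n α →L[ℂ] C2a n α, ∀ v, f2 (Wm v) = c.wf c.et (f2 v)) ∧
    (∃ Ex : HH α c.K →L[ℂ] HH α (En n), ∀ (g : HH α c.K) (f : En n → ℂ),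
      (∀ p : c.K, f p = g p) → ∀ y, Ex g y = c.ext f y) ∧
    (∃ rs : HH α (En n) →L[ℂ] HH α c.K, ∀ g (p : c.K), rs g p = g p) ∧
    (∃ dn : C2a n 0 →L[ℂ] C1a n α, ∀ v, f1 (dn v) = f2 v) ∧
    (∀ f : En n → ℂ, ContDiff ℝ 1 f → ∃ g : HH α c.K, ∀ p : c.K, g p = f p) ∧
    ∀ β C : ℝ, ∃ C' : ℝ, ∀ δ R : ℝ, c.r + 8 ≤ R → ∀ D : EndD n M β, D.Ok c C δ R →
      ∃ Lo : D.X →L[ℂ] C2a n 0, ‖Lo‖ ≤ C' ∧ ∀ v, f2 (Lo v) = c.lo (D.ev v)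

/-- **the theorem of the block**: the gluing system is invertible, uniformly in the end data -/
def LIN : Prop := ∀ (n k : ℕ) (M : Type) [Fintype M] (c : Core n k M), c.Ok →
  ∀ (α β C : ℝ), 0 < β → β < α → α < 1 →
    ∃ (b : J1 n → J1 n → En n → ℝ) (s : ℝ) (cC : C2a n α →L[ℂ] C1a n β) (C' δ R₀ : ℝ),
      c.AmbOf b ∧ 0 < δ ∧ c.r + 8 ≤ R₀ ∧ ∀ R, R₀ ≤ R → ∀ D : EndD n M β, D.Ok c C δ R →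
        ∃ TT : D.XX α k ≃L[ℂ] D.YY α k, D.Sys c b s cC TT ∧ ∀ y, ‖TT.symm y‖ ≤ C' * ‖y‖

end Vale.Agent.P218H
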