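import Vale.Agent.P218H.Basic
import Mathlib.MeasureTheory.Function.LocallyIntegrable

/-!
# P218, block LIN: linear families of functions with bounds (helper39)
-/

open scoped NNReal Topology ContDiff
open Filter Set Metric MeasureTheory

noncomputable section

namespace Vale.Agent.P218H

variable {n k : ℕ} {γ γ' : ℝ} {X X' : Type} [NormedAddCommGroup X] [NormedSpace ℂ X]
  [NormedAddCommGroup X'] [NormedSpace ℂ X'] {T T' : X → En n → ℂ}

/-- linear families of functions -/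
structure Ln (T : X → En n → ℂ) : Prop where
  add : ∀ x x', T (x + x') = T x + T x'
  smul : ∀ (c : ℂ) x, T (c • x) = c • T x

/-- linear families with `C^{0,γ}` bounds -/
def H0 (γ : ℝ) (T : X → En n → ℂ) : Prop :=
  Ln T ∧ ∃ C : ℝ, 0 ≤ C ∧ ∀ x, HM γ (T x) (C * ‖x‖) (C * ‖x‖)

/-- linear families with `C^{1,γ}` bounds -/
def H1 (γ : ℝ) (T : X → En n → ℂ) : Prop := Ln T ∧ ∃ C : ℝ, 0 ≤ C ∧ ∀ x, B1 γ (T x) (C * ‖x‖)

/-- linear families with `C^{2,γ}` bounds -/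
def H2 (γ : ℝ) (T : X → En n → ℂ) : Prop := Ln T ∧ ∃ C : ℝ, 0 ≤ C ∧ ∀ x, B2 γ (T x) (C * ‖x‖)

theorem Ln.add' (h : Ln T) (h' : Ln T') : Ln fun x y => T x y + T' x y :=
  ⟨fun x x' => funext fun y => by simp only [h.add, h'.add, Pi.add_apply]; ring,
    fun c x => funext fun y => by simp only [h.smul, h'.smul, Pi.smul_apply, smul_add]⟩

theorem Ln.mul (h : Ln T) (g : En n → ℂ) : Ln fun x y => g y * T x y :=
  ⟨fun x x' => funext fun y => by simp only [h.add, Pi.add_apply, mul_add],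
    fun c x => funext fun y => by simp only [h.smul, Pi.smul_apply, smul_eq_mul]; ring⟩

theorem Ln.cut (h : Ln T) (χ : En n → ℝ) : Ln fun x y => χ y • T x y := h.mul fun y => χ y

theorem Ln.comp (h : Ln T) (L : X' →L[ℂ] X) : Ln fun x => T (L x) :=
  ⟨fun x x' => by rw [map_add, h.add], fun c x => by rw [map_smul, h.smul]⟩

theorem Ln.pull (h : Ln T) (χ : En n → ℝ) (p : En n → En n) : Ln fun x y => χ y • T x (p y) :=
  Ln.cut (T := fun x y => T x (p y)) ⟨fun x x' => funext fun y => congrFun (h.add x x') _,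
    fun c x => funext fun y => congrFun (h.smul c x) _⟩ χ

theorem Ln.dd (h : Ln T) (hd : ∀ x, Differentiable ℝ (T x)) (i : J1 n) :
    Ln fun x => dd i (T x) :=
  ⟨fun x x' => by rw [h.add, dd_add (hd x) (hd x')], fun c x => by rw [h.smul, dd_smul (hd x)]⟩

theorem Ln.zero : Ln fun (_ : X) (_ : En n) => (0 : ℂ) :=
  ⟨fun _ _ => funext fun _ => by simp, fun _ _ => funext fun _ => by simp⟩

theorem le_op (L : X' →L[ℂ] X) {C : ℝ} (hC : 0 ≤ C) (x : X') : C * ‖L x‖ ≤ C * ‖L‖ * ‖x‖ := by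
  rw [mul_assoc]
  exact mul_le_mul_of_nonneg_left (L.le_opNorm x) hC

theorem HM.low {f : En n → ℂ} {A : ℝ} (h : HM γ f A A) (h0 : 0 ≤ γ') (h1 : γ' ≤ γ) :
    HM γ' f (3 * A) (3 * A) := by
  have hA := h.nonneg
  refine (h.lower h0 h1 hA one_pos).mono (by linarith) (le_of_eq ?_)
  simp only [Real.one_rpow]
  ring

theorem H0.add (h : H0 γ T) (h' : H0 γ T') : H0 γ fun x y => T x y + T' x y := by
  obtain ⟨l, C, hC, h⟩ := h
  obtain ⟨l', C', hC', h'⟩ := h'
  exact ⟨l.add' l', C + C', by positivity, fun x => add_mul C C' _ ▸ (h x).add (h' x)⟩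

theorem H0.cmul (h : H0 γ T) (a : ℂ) : H0 γ fun x y => a * T x y := by
  obtain ⟨l, C, hC, h⟩ := h
  exact ⟨l.mul _, ‖a‖ * C, by positivity, fun x => mul_assoc ‖a‖ C _ ▸ (h x).cmul a⟩

theorem H0.sub (h : H0 γ T) (h' : H0 γ T') : H0 γ fun x y => T x y - T' x y := by
  simpa only [neg_one_mul, ← sub_eq_add_neg] using h.add (h'.cmul (-1))

theorem H0.sum {ι : Type} (s : Finset ι) {F : ι → X → En n → ℂ} (h : ∀ i, H0 γ (F i)) :
    H0 γ fun x y => ∑ i ∈ s, F i x y := by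
  classical
  induction s using Finset.induction_on with
  | empty => exact ⟨Ln.zero, 0, le_rfl, fun x => by simpa using HM.zero⟩
  | insert a s ha ih => simpa only [Finset.sum_insert ha] using (h a).add ih

theorem H0.comp (h : H0 γ T) (L : X' →L[ℂ] X) : H0 γ fun x => T (L x) := by
  obtain ⟨l, C, hC, h⟩ := h
  exact ⟨l.comp L, C * ‖L‖, by positivity, fun x => (h _).mono (le_op L hC x) (le_op L hC x)⟩

theorem H2.comp (h : H2 γ T) (L : X' →L[ℂ] X) : H2 γ fun x => T (L x) := by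
  obtain ⟨l, C, hC, h⟩ := h
  exact ⟨l.comp L, C * ‖L‖, by positivity, fun x => (h _).mono (le_op L hC x)⟩

theorem H0.low (h : H0 γ T) (h0 : 0 ≤ γ') (h1 : γ' ≤ γ) : H0 γ' T := by
  obtain ⟨l, C, hC, h⟩ := h
  exact ⟨l, 3 * C, by positivity, fun x => mul_assoc 3 C _ ▸ (h x).low h0 h1⟩

theorem H1.low (h : H1 γ T) (h0 : 0 ≤ γ') (h1 : γ' ≤ γ) : H1 γ' T := by
  obtain ⟨l, C, hC, h⟩ := h
  exact ⟨l, 3 * C, by positivity, fun x => ⟨(h x).1, fun i =>
    mul_assoc 3 C _ ▸ ((h x).2 i).low h0 h1⟩⟩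

/-- smooth factors that are constant outside a ball -/
theorem H0.cut (mul : MUL) (h0 : 0 ≤ γ) (h1 : γ ≤ 1) (h : H0 γ T) {χ : En n → ℝ} {R κ : ℝ}
    (hχ : ContDiff ℝ ∞ χ) (hR : ∀ x, R ≤ ‖x‖ → χ x = κ) : H0 γ fun x y => χ y • T x y := by
  obtain ⟨C', hC', hm⟩ := (mul n γ h0 h1).1 (fun y => χ y - κ) R (hχ.sub contDiff_const)
    fun x hx => sub_eq_zero.2 (hR x hx)
  have e : H0 γ fun x y => (χ y - κ) • T x y := by
    obtain ⟨l, C, hC, h⟩ := h
    refine ⟨l.cut _, 2 * C' * C, by positivity, fun x => ?_⟩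
    have : 0 ≤ C' * (C * ‖x‖) := by positivity
    exact ((hm _ _ _ (by positivity)).1 (h x)).mono (by linarith) (le_of_eq (by ring))
  convert e.add (h.cmul κ) using 3
  rw [sub_smul, Complex.real_smul (x := κ), sub_add_cancel]

theorem H1.cut (mul : MUL) (h0 : 0 ≤ γ) (h1 : γ ≤ 1) (h : H1 γ T) {χ : En n → ℝ} {R : ℝ}
    (hχ : ContDiff ℝ ∞ χ) (hR : ∀ x, R ≤ ‖x‖ → χ x = 0) : H1 γ fun x y => χ y • T x y := by
  obtain ⟨C', hC', hm⟩ := (mul n γ h0 h1).1 χ R hχ hR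
  obtain ⟨l, C, hC, h⟩ := h
  exact ⟨l.cut _, C' * C, by positivity, fun x => mul_assoc C' C _ ▸ (hm _ _ 0 le_rfl).2.1 (h x)⟩

theorem H1.add (h : H1 γ T) (h' : H1 γ T') : H1 γ fun x y => T x y + T' x y := by
  obtain ⟨l, C, hC, h⟩ := h
  obtain ⟨l', C', hC', h'⟩ := h'
  refine ⟨l.add' l', C + C', by positivity, fun x => ⟨(h x).1.add (h' x).1, fun i => ?_⟩⟩
  show HM γ (dd i (T x + T' x)) _ _
  rw [dd_add ((h x).1.differentiable one_ne_zero) ((h' x).1.differentiable one_ne_zero), add_mul]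
  exact ((h x).2 i).add ((h' x).2 i)

theorem H1.sum {ι : Type} (s : Finset ι) {F : ι → X → En n → ℂ} (h : ∀ i, H1 γ (F i)) :
    H1 γ fun x y => ∑ i ∈ s, F i x y := by
  classical
  induction s using Finset.induction_on with
  | empty =>
    refine ⟨Ln.zero, 0, le_rfl, fun x => ⟨contDiff_const, fun i => ?_⟩⟩
    show HM γ (dd i 0) _ _
    rw [dd_zero, zero_mul]
    exact HM.zero
  | insert a s ha ih => simpa only [Finset.sum_insert ha] using (h a).add ih

theorem H2.dd (h : H2 γ T) (j : J1 n) : H1 γ fun x => dd j (T x) := by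
  obtain ⟨l, C, hC, h⟩ := h
  exact ⟨l.dd (fun x => (h x).1.differentiable two_ne_zero) j, C, hC, fun x => (h x).dd j⟩

theorem H1.dd (h : H1 γ T) (j : J1 n) : H0 γ fun x => dd j (T x) := by
  obtain ⟨l, C, hC, h⟩ := h
  exact ⟨l.dd (fun x => (h x).1.differentiable one_ne_zero) j, C, hC, fun x => (h x).2 j⟩

theorem lip (mul : MUL) : ∃ C : ℝ, 1 ≤ C ∧ ∀ (f : En n → ℂ) (A : ℝ), Differentiable ℝ f →
    (∀ i x, ‖dd i f x‖ ≤ A) → HM 1 f (C * A) (C * A) := by
  obtain ⟨C, hC, h⟩ := (mul n 1 zero_le_one le_rfl).2.1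
  refine ⟨2 + C, by linarith, fun f A hf hA => ?_⟩
  have h0 : 0 ≤ A := (norm_nonneg _).trans (hA none 0)
  refine ⟨fun x => (hA none x).trans (by nlinarith), fun x y => ?_⟩
  have := h f A A hf h0 (fun i => hA (some i)) 1 one_pos x y (hA none x) (hA none y)
  simpa only [Real.one_rpow, mul_one, ← add_mul] using this

theorem H1.lip (mul : MUL) (h : H1 γ T) : H0 1 T := by
  obtain ⟨l, C, hC, h⟩ := h
  obtain ⟨C', hC', h'⟩ := P218H.lip (n := n) mul
  exact ⟨l, C' * C, by positivity, fun x => mul_assoc C' C _ ▸ h' _ _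
    ((h x).1.differentiable one_ne_zero) fun i => ((h x).2 i).sup⟩

theorem H2.lip (mul : MUL) (h : H2 γ T) : H0 1 T := (h.dd none).lip mul

/-- a fixed function times a linear form -/
theorem H0.fix (mul : MUL) {g : En n → ℂ} {R : ℝ} (hg : ContDiff ℝ 1 g)
    (hR : ∀ x, R ≤ ‖x‖ → g x = 0) (l : X →L[ℂ] ℂ) : H0 1 fun x y => l x * g y := by
  have hc : HasCompactSupport g := HasCompactSupport.intro (isCompact_closedBall 0 R)
    fun x hx => hR x (by simpa using (not_le.1 (mt mem_closedBall_zero_iff.2 hx)).le)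
  have hb : ∀ i, ∃ A, ∀ x, ‖dd i g x‖ ≤ A := fun i => by
    refine Continuous.bounded_above_of_compact_support
      (continuous_iff_continuousAt.2 fun x => (dd_cda (m := 0) hg.contDiffAt i).continuousAt) ?_
    cases i with
    | none => exact hc
    | some i => exact hc.fderiv_apply ℝ _
  choose A hA using hb
  obtain ⟨C, hC, h⟩ := lip (n := n) mul
  have h0 : ∀ i, 0 ≤ A i := fun i => (norm_nonneg _).trans (hA i 0)
  have h1 := h g (∑ i, A i) (hg.differentiable one_ne_zero) fun i x =>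
    (hA i x).trans (Finset.single_le_sum (fun j _ => h0 j) (Finset.mem_univ i))
  have h2 := h1.nonneg
  refine ⟨⟨fun x x' => funext fun y => by simp [add_mul], fun c x => funext fun y => by
    simp [mul_assoc]⟩, C * (∑ i, A i) * ‖l‖, by positivity, fun x => ?_⟩
  have := (mul_comm _ _).trans_le (le_op l h2 x)
  exact (h1.cmul (l x)).mono this this

theorem H2.op (mul : MUL) (h0 : 0 ≤ γ) (h1 : γ ≤ 1) (h : H2 γ T) {b : J1 n → J1 n → En n → ℝ}
    (hb : Amb b) : H0 γ fun x => op b (T x) := by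
  obtain ⟨R, hR⟩ := hb.out
  exact H0.sum _ fun i => H0.sum _ fun j =>
    ((h.dd j).dd i).cut mul h0 h1 (hb.sm i j) fun x hx => hR x hx i j

theorem H2.cm (cmf : CMF) (mul : MUL) (h0 : 0 ≤ γ) (h1 : γ ≤ 1) (h : H2 γ T)
    {a : J1 n → J1 n → En n → ℝ} (ha : ∀ i j, ContDiff ℝ ∞ (a i j)) {χ : En n → ℝ} {R : ℝ}
    (hχ : ContDiff ℝ ∞ χ) (hR : 0 ≤ R) : H1 γ fun x y => (1 - st R y) • cm a χ (T x) y := by
  obtain ⟨e, e1, -, e3⟩ := cmf n a χ ha hχ
  have := H1.sum Finset.univ fun i => (h.dd i).cut mul h0 h1 (R := R + 1)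
    ((contDiff_const.sub (st_smooth R)).mul (e1 i)) fun x hx => by
      rw [st_one hR hx, sub_self, zero_mul]
  obtain ⟨-, C, -, h⟩ := h
  refine (congrArg (H1 γ) (funext fun x => funext fun y => ?_)).mp this
  simp only [e3 _ y (h x).1.contDiffAt, Finset.smul_sum, mul_smul]

theorem cm_nil {a : J1 n → J1 n → En n → ℝ} {χ : En n → ℝ} {f : En n → ℂ} {x : En n}
    (h : ∀ᶠ y in 𝓝 x, f y = 0) : cm a χ f x = 0 := by
  unfold cm
  rw [op_congr (g := fun _ => 0) (h.mono fun y hy => by simp [hy]), op_congr (g := fun _ => 0) h,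
    op_zero]
  simp

theorem h2_f2 : H2 γ (f2 : C2a n γ → En n → ℂ) :=
  ⟨⟨f2_add, f2_smul⟩, 1, zero_le_one, fun x => (one_mul ‖x‖).symm ▸ b2_f2 x⟩

variable {M : Type} {c : Core n k M}

theorem H2.wf (av : AVG) (hc : c.Ok0) (h0 : 0 ≤ γ) (h1 : γ ≤ 1) (h : H2 γ T) {η : ℝ → ℝ}
    (hη : Continuous η) (hs : ∀ t, c.de / 4 ≤ |t| → η t = 0) : H2 γ fun x => c.wf η (T x) := by
  obtain ⟨C', hC', h'⟩ := (av n k M c hc η hη hs).2 γ h0 h1
  obtain ⟨l, C, hC, h⟩ := h
  refine ⟨⟨fun x x' => funext fun y => ?_, fun a x => funext fun y => ?_⟩, C' * C, by positivity,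
    fun x => mul_assoc C' C _ ▸ (h' _ _ 0 le_rfl).2.2 (h x)⟩
  · have i : ∀ x, Integrable fun t : ℝ => η t • T x (c.pr y + t • c.nu (c.pr y)) := fun x =>
      Continuous.integrable_of_hasCompactSupport (hη.smul ((h x).1.continuous.comp'
        (by fun_prop))) (HasCompactSupport.intro (isCompact_closedBall 0 (c.de / 4)) fun t ht => by
          rw [hs t (by simpa using (not_le.1 (mt mem_closedBall_zero_iff.2 ht)).le), zero_smul])
    simp only [Core.wf, avg, l.add, Pi.add_apply, smul_add, integral_add (i x) (i x')]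
  · simp only [Core.wf, avg, l.smul, Pi.smul_apply, smul_comm (_ : ℝ) a, integral_smul]

theorem H0.ext (ex : EXT) (hc : c.Ok0) (h0 : 0 ≤ γ) (h1 : γ ≤ 1) (h : H0 γ T) :
    H0 γ fun x => c.ext (T x) := by
  obtain ⟨C', hC', h'⟩ := (ex n k M c hc).2.2.2 γ h0 h1
  obtain ⟨l, C, hC, h⟩ := h
  refine ⟨l.pull _ _, (1 + 2 * C') * C, by positivity, fun x => ?_⟩
  have : 0 ≤ C * ‖x‖ := by positivity
  refine (h' _ _ _ this this ((h x).restr _)).mono ?_ ?_ <;> nlinarith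

theorem deriv_far {η : ℝ → ℝ} {d : ℝ} (hd : 0 < d) (hη : Continuous (deriv η))
    (h : ∀ t, d ≤ |t| → η t = 0) (t : ℝ) (ht : d ≤ |t|) : deriv η t = 0 := by
  have h1 : ∀ t, d < |t| → deriv η t = 0 := fun t ht => by
    have : η =ᶠ[𝓝 t] fun _ => 0 := mem_of_superset
      ((isOpen_lt continuous_const continuous_abs).mem_nhds ht) fun s hs => h s (le_of_lt hs)
    rw [this.deriv_eq, deriv_const]
  have h2 : Tendsto (fun s : ℝ => deriv η (s * t)) (𝓝[>] 1) (𝓝 (deriv η t)) :=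
    ((hη.comp (continuous_mul_const t)).tendsto' 1 _ (by simp)).mono_left nhdsWithin_le_nhds
  refine tendsto_nhds_unique h2 (tendsto_const_nhds.congr' ?_)
  filter_upwards [self_mem_nhdsWithin] with s (hs : 1 < s)
  refine (h1 _ ?_).symm
  rw [abs_mul, abs_of_pos (by linarith)]
  nlinarith

theorem Ker.two {de : ℝ} {et eh : ℝ → ℝ} (h : Ker de et eh) (hd : 0 < de) :
    Continuous (deriv (deriv et)) ∧ ∀ t, de / 4 ≤ |t| → deriv (deriv et) t = 0 := by
  have h1 := (contDiff_infty_iff_deriv.1 h.set).2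
  have h2 := (contDiff_infty_iff_deriv.1 h1).2.continuous
  exact ⟨h2, deriv_far (by positivity) h2 (deriv_far (by positivity) h1.continuous h.et0)⟩

end Vale.Agent.P218H
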